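import Crest.Agent.N334.T.Mat

/-!
# Row 334, engine T: marginals and tempered weights (helper86)
-/

set_option autoImplicit false
set_option linter.unusedSectionVars false

open MeasureTheory Complex Finset Function
open scoped ENNReal

namespace Crest.Agent.N334.T

variable {V : Type} [Fintype V] [DecidableEq V] (μ : V → Measure ℂ)
  [∀ x, IsProbabilityMeasure (μ x)]

instance prob_update (y : V) (ν : Measure ℂ) [IsProbabilityMeasure ν] (x : V) :
    IsProbabilityMeasure (update μ y ν x) := by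
  by_cases h : x = y
  · subst h; simpa
  · rw [update_of_ne h]; infer_instance

lemma fz_updateFinset (r w : V → ℂ) (R : Finset V) (v : ∀ _ : R, ℂ) :
    fz r R (updateFinset w R v) = fz r R w := by
  funext x; by_cases h : x ∈ R <;> simp [fz, h, updateFinset]

lemma lm_inv (r : V → ℂ) (R : Finset V) {a : (V → ℂ) → ℝ≥0∞} (ha : ∀ w, a (fz r R w) = a w)
    (w : V → ℂ) : lmarginal μ R a w = a w := by
  have : ∀ v, a (updateFinset w R v) = a w := fun v => by rw [← ha, fz_updateFinset, ha]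
  simp [lmarginal, this]

lemma lm_const (R : Finset V) (c : ℝ≥0∞) (w : V → ℂ) : lmarginal μ R (fun _ => c) w = c := by
  simp [lmarginal]

lemma lm_fz (r : V → ℂ) (R : Finset V) (g : (V → ℂ) → ℝ≥0∞) (w : V → ℂ) :
    lmarginal μ R (fun w => g (fz r R w)) w = g (fz r R w) :=
  lm_inv μ r R (a := fun w => g (fz r R w)) (fun w => by simp only [fz_fz, union_idempotent]) w

lemma lm_mul (r : V → ℂ) (R : Finset V) {a f : (V → ℂ) → ℝ≥0∞} (ha : ∀ w, a (fz r R w) = a w)
    (hf : Measurable f) (w : V → ℂ) :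
    lmarginal μ R (fun w => a w * f w) w = a w * lmarginal μ R f w := by
  have : ∀ v, a (updateFinset w R v) = a w := fun v => by rw [← ha, fz_updateFinset, ha]
  simp only [lmarginal, this]
  exact lintegral_const_mul _ (hf.comp measurable_updateFinset)

lemma lm_const_mul (R : Finset V) (c : ℝ≥0∞) {f : (V → ℂ) → ℝ≥0∞} (hf : Measurable f)
    (w : V → ℂ) : lmarginal μ R (fun w => c * f w) w = c * lmarginal μ R f w :=
  lm_mul μ 0 R (a := fun _ => c) (fun _ => rfl) hf w

lemma lm_add (R : Finset V) {f g : (V → ℂ) → ℝ≥0∞} (hf : Measurable f) (w : V → ℂ) :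
    lmarginal μ R (fun w => f w + g w) w = lmarginal μ R f w + lmarginal μ R g w :=
  lintegral_add_left (hf.comp measurable_updateFinset) _

lemma lm_sum {ι : Type} (R : Finset V) (s : Finset ι) {f : ι → (V → ℂ) → ℝ≥0∞}
    (hf : ∀ i ∈ s, Measurable (f i)) (w : V → ℂ) :
    lmarginal μ R (fun w => ∑ i ∈ s, f i w) w = ∑ i ∈ s, lmarginal μ R (f i) w :=
  lintegral_finsetSum _ fun i hi => (hf i hi).comp measurable_updateFinset

lemma lm_mono (R : Finset V) {f g : (V → ℂ) → ℝ≥0∞} (h : ∀ w, f w ≤ g w) (w : V → ℂ) :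
    lmarginal μ R f w ≤ lmarginal μ R g w := lmarginal_mono h w

/-- only configurations that agree with `w` off `R` matter -/
lemma lm_mono' (R : Finset V) {f g : (V → ℂ) → ℝ≥0∞} (w : V → ℂ)
    (h : ∀ w', (∀ x ∉ R, w' x = w x) → f w' ≤ g w') : lmarginal μ R f w ≤ lmarginal μ R g w :=
  lintegral_mono fun _ => h _ fun x hx => by simp [updateFinset, hx]

/-- integrate the site `x` first -/
lemma lm_erase {R : Finset V} {x : V} (hx : x ∈ R) {f : (V → ℂ) → ℝ≥0∞} (hf : Measurable f) :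
    lmarginal μ R f = lmarginal μ (R.erase x) fun w => ∫⁻ z, f (update w x z) ∂μ x :=
  lmarginal_erase' f hf hx

/-- the same, keeping the set -/
lemma lm_site {R : Finset V} {x : V} (hx : x ∈ R) {f : (V → ℂ) → ℝ≥0∞} (hf : Measurable f) :
    lmarginal μ R f = lmarginal μ R fun w => ∫⁻ z, f (update w x z) ∂μ x := by
  have hm : Measurable fun w : V → ℂ => ∫⁻ z, f (update w x z) ∂μ x :=
    (hf.comp measurable_update').lintegral_prod_right'
  rw [lm_erase μ hx hf, lm_erase μ hx hm]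
  simp

lemma measurable_site (ν : Measure ℂ) [SFinite ν] (x : V) {f : (V → ℂ) → ℝ≥0∞}
    (hf : Measurable f) : Measurable fun w : V → ℂ => ∫⁻ z, f (update w x z) ∂ν :=
  (hf.comp measurable_update').lintegral_prod_right'

lemma lint_lm (R : Finset V) {f : (V → ℂ) → ℝ≥0∞} (hf : Measurable f) :
    ∫⁻ w, lmarginal μ R f w ∂Measure.pi μ = ∫⁻ w, f w ∂Measure.pi μ := by
  rw [lintegral_eq_lmarginal_univ 0, lintegral_eq_lmarginal_univ 0]
  have h1 : (univ : Finset V) = Rᶜ ∪ R := by rw [union_comm, union_compl]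
  have h2 : lmarginal μ R (lmarginal μ R f) = lmarginal μ R f := funext fun w =>
    lm_inv μ 0 R (fun w => lmarginal_congr μ f fun i hi => fz_notMem hi) w
  rw [h1, lmarginal_union μ _ (hf.lmarginal μ) disjoint_compl_left,
    lmarginal_union μ _ hf disjoint_compl_left, h2]

lemma lint_le_of_lm (R : Finset V) {f g : (V → ℂ) → ℝ≥0∞} (hf : Measurable f)
    (h : ∀ w, lmarginal μ R f w ≤ g w) : ∫⁻ w, f w ∂Measure.pi μ ≤ ∫⁻ w, g w ∂Measure.pi μ :=
  (lint_lm μ R hf).symm.trans_le (lintegral_mono h)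

lemma lint_ge_of_lm (R : Finset V) {f g : (V → ℂ) → ℝ≥0∞} (hf : Measurable f)
    (h : ∀ w, g w ≤ lmarginal μ R f w) : ∫⁻ w, g w ∂Measure.pi μ ≤ ∫⁻ w, f w ∂Measure.pi μ :=
  (lintegral_mono h).trans_eq (lint_lm μ R hf)

lemma lint_site (x : V) {f : (V → ℂ) → ℝ≥0∞} (hf : Measurable f) :
    ∫⁻ w, ∫⁻ z, f (update w x z) ∂μ x ∂Measure.pi μ = ∫⁻ w, f w ∂Measure.pi μ := by
  rw [← lint_lm μ {x} hf, lmarginal_singleton]

lemma lm_congr_law (μ' : V → Measure ℂ) (R : Finset V) (h : ∀ x ∈ R, μ x = μ' x)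
    (f : (V → ℂ) → ℝ≥0∞) : lmarginal μ R f = lmarginal μ' R f := by
  funext w
  simp only [lmarginal]
  congr 2
  funext i; exact h i i.2

lemma lint_fz_congr (μ' : V → Measure ℂ) [∀ x, IsProbabilityMeasure (μ' x)] (r : V → ℂ)
    (R : Finset V) (h : ∀ x ∉ R, μ x = μ' x) {g : (V → ℂ) → ℝ≥0∞} (hg : Measurable g) :
    ∫⁻ w, g (fz r R w) ∂Measure.pi μ = ∫⁻ w, g (fz r R w) ∂Measure.pi μ' := by
  have hm : Measurable fun w => g (fz r R w) := hg.comp (measurable_fz r R)
  rw [lintegral_eq_lmarginal_univ 0, lintegral_eq_lmarginal_univ 0]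
  have h1 : (univ : Finset V) = Rᶜ ∪ R := by rw [union_comm, union_compl]
  rw [h1, lmarginal_union μ _ hm disjoint_compl_left, lmarginal_union μ' _ hm disjoint_compl_left,
    funext (lm_fz μ r R g), funext (lm_fz μ' r R g),
    lm_congr_law μ μ' _ fun x hx => h x (mem_compl.1 hx)]

/-- a function that does not depend on the site `y` does not see its law -/
lemma lint_update_law (y : V) (ν : Measure ℂ) [IsProbabilityMeasure ν] {g : (V → ℂ) → ℝ≥0∞}
    (hg : Measurable g) (h : ∀ w z, g (update w y z) = g w) :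
    ∫⁻ w, g w ∂Measure.pi μ = ∫⁻ w, g w ∂Measure.pi (update μ y ν) := by
  have h1 : ∀ w, g w = g (fz 0 {y} w) := fun w => by
    rw [← insert_empty_eq, fz_insert, fz_empty, h]
  rw [funext h1]
  exact lint_fz_congr μ _ 0 {y} (fun x hx => (update_of_ne (by simpa using hx) _ _).symm) hg

lemma lint_update_le {y : V} {ν : Measure ℂ} [IsProbabilityMeasure ν] {c : ℝ≥0∞}
    (hν : μ y ≤ c • ν) {f : (V → ℂ) → ℝ≥0∞} (hf : Measurable f) :
    ∫⁻ w, f w ∂Measure.pi μ ≤ c * ∫⁻ w, f w ∂Measure.pi (update μ y ν) := by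
  have hm := measurable_site ν y hf
  rw [← lint_site μ y hf, ← lint_site (update μ y ν) y hf, update_self,
    ← lint_update_law μ y ν hm fun w z => by simp, ← lintegral_const_mul _ hm]
  exact lintegral_mono fun w => (lintegral_mono' hν le_rfl).trans_eq (lintegral_smul_measure _ _)

variable {W : (V → ℂ) → ℝ≥0∞} {b : V} {k : ℝ}

lemma Temp.le_of_eq_off (hW : Temp W b k) (R : Finset V) (hb : b ∉ R) : ∀ w w' : V → ℂ,
    (∀ x ∉ R, w x = w' x) → W w ≤ ENNReal.ofReal (Real.exp (k * R.card)) * W w' := by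
  induction R using Finset.induction_on with
  | empty => intro w w' h; simp [show w = w' from funext fun x => h x (notMem_empty x)]
  | insert x R hx ih =>
    intro w w' h
    have h1 := ih (fun h => hb (mem_insert_of_mem h)) (update w x (w' x)) w' fun v hv => by
      by_cases hvx : v = x
      · simp [hvx]
      · rw [update_of_ne hvx]; exact h v (by simp [hvx, hv])
    have h2 := hW.2.2.2 (update w x (w' x)) x (w x) fun h => hb (h ▸ mem_insert_self _ _)
    rw [update_idem, update_eq_self] at h2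
    refine h2.trans ((mul_le_mul_right h1 _).trans_eq ?_)
    rw [← mul_assoc, ← ENNReal.ofReal_mul (Real.exp_pos _).le, ← Real.exp_add, card_insert_of_notMem hx]
    congr 3; push_cast; ring

lemma Temp.fz_le (hW : Temp W b k) (r : V → ℂ) {R : Finset V} (hb : b ∉ R) (w : V → ℂ) :
    W (fz r R w) ≤ ENNReal.ofReal (Real.exp (k * R.card)) * W w :=
  hW.le_of_eq_off R hb _ _ fun _ hx => fz_notMem hx

lemma Temp.le_fz (hW : Temp W b k) (r : V → ℂ) {R : Finset V} (hb : b ∉ R) (w : V → ℂ) :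
    W w ≤ ENNReal.ofReal (Real.exp (k * R.card)) * W (fz r R w) :=
  hW.le_of_eq_off R hb _ _ fun _ hx => (fz_notMem hx).symm

end Crest.Agent.N334.T
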