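import Crest.Agent.N334.T.Hover

/-!
# Row 334, engine T: the transfer theorem (helper86)
-/

set_option autoImplicit false
set_option linter.unusedSectionVars false

open MeasureTheory Complex Finset Function
open scoped ENNReal

namespace Crest.Agent.N334.T

variable {V : Type} [Fintype V] [DecidableEq V] (E : Env V)

namespace TLa

lemma exp_add_le {a b c : ℝ} (ha : a + 1 ≤ c) (hb : b + 1 ≤ c) :
    Real.exp a + Real.exp b ≤ Real.exp c := by
  have h : ∀ t, t + 1 ≤ c → 2 * Real.exp t ≤ Real.exp c := fun t ht => by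
    have h1 := Real.exp_le_exp.2 ht
    rw [Real.exp_add] at h1
    have := Real.add_one_le_exp 1
    nlinarith [Real.exp_pos t]
  linarith [h a ha, h b hb]

lemma lam_ge {x₀ : V} {lam : ℝ} (hg : E.Grow x₀ lam) : 4 ≤ lam := by
  have h1 := hg 0 x₀ (self_mem_ball _ _)
  have h2 := (E.law x₀).big
  have h3 : Real.exp 4 ≤ 100 := by
    have h4 : Real.exp 4 = Real.exp 1 ^ 4 := by rw [← Real.exp_nat_mul]; norm_num
    have h5 : Real.exp 1 ≤ 3 := by linarith [Real.exp_one_lt_d9]
    rw [h4]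
    calc _ ≤ (3 : ℝ) ^ 4 := by gcongr
      _ ≤ 100 := by norm_num
  have h6 : (4 : ℝ) ≤ Real.log (E.Λ x₀) := by
    rw [Real.le_log_iff_exp_le (by linarith)]
    linarith
  simp only [Nat.cast_zero, zero_add, mul_one] at h1
  linarith

/-- the exponent of the first coefficient of `hover` -/
lemma num1 {lam m i l k c c₀ S S₀ : ℝ} (hl : 4 ≤ lam) (hm : m = l + 4004) (hi : 0 ≤ i)
    (hil : 3 * i ≤ l) (hk0 : 0 ≤ k) (hk1 : k ≤ 1) (hc : c ≤ c₀ + 85 * i)
    (hS : S ≤ S₀ + 255 * i * (lam * m)) :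
    k * c + 12 * S + 80 * (l + 1) * (lam * m) + 170 * (21010 * (lam * m)) + 1 ≤
      k * c₀ + 12 * S₀ + 3000 * lam * m ^ 2 := by
  have hm0 : 4004 ≤ m := by linarith
  have hL : 16016 ≤ lam * m := by nlinarith
  have h1 : k * c ≤ k * c₀ + 85 * i := by nlinarith
  have h2 : i * (lam * m) ≤ m / 3 * (lam * m) := by gcongr; linarith
  have h3 : (l + 1) * (lam * m) ≤ m * (lam * m) := by gcongr; linarith
  have h4 : 4004 * (lam * m) ≤ m * (lam * m) := by gcongr
  have h5 : m * 16016 ≤ m * (lam * m) := by gcongr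
  have h6 : 3000 * lam * m ^ 2 = 3000 * (m * (lam * m)) := by ring
  rw [h6]
  nlinarith

lemma num2 {lam m : ℝ} (hl : 4 ≤ lam) (hm : 4004 ≤ m) (c : ℝ) :
    5 + (90 + 7 * (lam * m) + -(21010 * (lam * m))) + (c + 3000 * lam * (m + 3) ^ 2) + 1 ≤
      c + 3000 * lam * m ^ 2 := by
  have hL : 16016 ≤ lam * m := by nlinarith
  have h4 : lam * 4004 ≤ lam * m := by gcongr
  nlinarith

lemma num3 {lam m i D : ℝ} (hl : 4 ≤ lam) (hm : 4004 ≤ m) (him : 3 * i ≤ m) (c : ℝ) :
    5 + (90 + 7 * (lam * m) + -(21010 * (lam * m))) +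
      (c + 30 * lam * (m + 3) - lam * max (D ^ 2 - (i + 1) ^ 2) 0) ≤
      c + 30 * lam * m - lam * max (D ^ 2 - i ^ 2) 0 := by
  have hL : 16016 ≤ lam * m := by nlinarith
  have h4 : lam * 4004 ≤ lam * m := by gcongr
  have h5 : max (D ^ 2 - i ^ 2) 0 ≤ max (D ^ 2 - (i + 1) ^ 2) 0 + m := by
    refine max_le ?_ (by positivity)
    nlinarith [le_max_left (D ^ 2 - (i + 1) ^ 2) 0]
  have h6 : lam * max (D ^ 2 - i ^ 2) 0 ≤ lam * (max (D ^ 2 - (i + 1) ^ 2) 0 + m) := by gcongr
  nlinarith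

lemma exp_five : (85 : ℝ) ≤ Real.exp 5 := by
  have h4 : Real.exp 5 = Real.exp 1 ^ 5 := by rw [← Real.exp_nat_mul]; norm_num
  have h5 : 2.7 ≤ Real.exp 1 := by linarith [Real.exp_one_gt_d9]
  rw [h4]
  calc (85 : ℝ) ≤ 2.7 ^ 5 := by norm_num
    _ ≤ _ := by gcongr

lemma fin {A A' B C C' t s : ℝ} (h1 : A + 1 ≤ A') (h2 : 5 + (t + s) + B + 1 ≤ A')
    (h3 : 5 + (t + s) + C ≤ C') (a : ℝ) (X Y : ℝ≥0∞) :
    ENNReal.ofReal (Real.exp A / a ^ 2) * X + ENNReal.ofReal (Real.exp t * Real.exp s) *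
      (ENNReal.ofReal (Real.exp 5) *
        (ENNReal.ofReal (Real.exp B / a ^ 2) * X + ENNReal.ofReal (Real.exp C) * Y)) ≤
      ENNReal.ofReal (Real.exp A' / a ^ 2) * X + ENNReal.ofReal (Real.exp C') * Y := by
  rw [← mul_assoc, ← ENNReal.ofReal_mul (by positivity), mul_add, ← mul_assoc, ← mul_assoc,
    ← ENNReal.ofReal_mul (by positivity), ← ENNReal.ofReal_mul (by positivity), ← add_assoc,
    ← add_mul, ← ENNReal.ofReal_add (by positivity) (by positivity)]
  gcongr
  · rw [← mul_div_assoc, ← add_div, ← Real.exp_add, ← Real.exp_add, ← Real.exp_add]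
    gcongr
    exact exp_add_le h1 (by linarith)
  · rw [← Real.exp_add, ← Real.exp_add, ← Real.exp_add]
    exact Real.exp_le_exp.2 (by linarith)

/-- the recursion -/
lemma key {W : (V → ℂ) → ℝ≥0∞} {b : V} {k : ℝ} (hW : Temp W b k) {R₀ : Finset V} {z₀ x₀ y : V}
    {l D : ℕ} {lam a₀ : ℝ} {Bb : ℝ≥0∞}
    (hD : b ∉ ball E.G z₀ (3 * D)) (hg : E.Grow x₀ lam) (ha : 0 < a₀)
    (hobs : ∀ w, a₀ ≤ ‖Gr E.G E.η (fz E.r R₀ w) y x₀‖) (hB : E.HB W b k R₀ Bb) (n : ℕ) :
    ∀ (i : ℕ) (R : Finset V) (z : V), Fintype.card V ≤ R.card + n → R₀ ⊆ R → b ∉ R →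
      R.card ≤ R₀.card + 85 * i →
      ∑ x ∈ R, E.κ x ≤ ∑ x ∈ R₀, E.κ x + 255 * i * (lam * (l + 3 * i + 4004)) →
      z ∈ ball E.G z₀ (3 * i) → Inv E.G R z x₀ (l + 3 * i) →
      E.Aq W b R z ≤
        ENNReal.ofReal (Real.exp (k * R₀.card + 12 * ∑ x ∈ R₀, E.κ x +
          3000 * lam * (l + 3 * i + 4004) ^ 2) / a₀ ^ 2) * Rq E.G E.η E.μ W y b +
        ENNReal.ofReal (Real.exp (k * R₀.card + 30 * lam * (l + 3 * i + 4004) -
          lam * max ((D : ℝ) ^ 2 - i ^ 2) 0)) * Bb := by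
  have hl := lam_ge E hg
  obtain ⟨-, hk0, hk1, -⟩ := id hW
  induction n with
  | zero =>
    intro i R z hn _ hb
    have : R = univ := Finset.eq_univ_of_card R (le_antisymm (card_le_univ R) (by simpa using hn))
    exact absurd (this ▸ mem_univ b) hb
  | succ n ih =>
    intro i R z hn hR hb hc hS hz hI
    obtain ⟨m, hm⟩ : ∃ m : ℝ, m = l + 3 * i + 4004 := ⟨_, rfl⟩
    have hi0 : (0 : ℝ) ≤ i := Nat.cast_nonneg i
    have hl0 : (0 : ℝ) ≤ l := Nat.cast_nonneg l
    have hm0 : 4004 ≤ m := by linarith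
    have hL0 : 16016 ≤ lam * m := by nlinarith
    have hc' : (R.card : ℝ) ≤ R₀.card + 85 * i := by exact_mod_cast hc
    have hzx : z ∈ ball E.G x₀ (l + 3 * i) := by
      obtain ⟨P, N, -, -, -, -, -, -, -, h, -⟩ := hI.thread E.deg
      exact h
    have hL : ∀ x ∈ ball E.G x₀ (l + 3 * i + 3), Real.log (E.Λ x) ≤ lam * m := fun x hx => by
      refine (hg _ x hx).trans ?_
      push_cast
      gcongr
      linarith
    rw [← hm] at hS ⊢
    by_cases hbz : b ∈ ball E.G z 3
    · have hiD : D ≤ i := by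
        by_contra hlt
        exact hD (ball_mono _ (by omega) (ball_add hz 3 hbz))
      have hiD' : (D : ℝ) ≤ i := by exact_mod_cast hiD
      have hmax : max ((D : ℝ) ^ 2 - i ^ 2) 0 = 0 :=
        max_eq_right (by nlinarith [Nat.cast_nonneg (α := ℝ) D])
      refine (hB R hR hb z hI.1).trans (le_trans ?_ le_add_self)
      gcongr
      have h1 : E.Λ z ≤ Real.exp (lam * m) := by
        rw [← Real.log_le_iff_le_exp (by linarith [(E.law z).big])]
        exact hL z (ball_mono _ (by omega) hzx)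
      calc _ ≤ Real.exp (lam * m) * Real.exp (k * R.card) := by gcongr
        _ = Real.exp (lam * m + k * R.card) := (Real.exp_add _ _).symm
        _ ≤ _ := by
          rw [hmax]
          gcongr
          have h2 : k * R.card ≤ k * R₀.card + 85 * i := by nlinarith
          have h3 : 4 * m ≤ lam * m := by gcongr
          nlinarith
    · have hobs' : ∀ w, a₀ ≤ ‖Gr E.G E.η (fz E.r R w) y x₀‖ := fun w => by
        have := hobs (fz E.r R w)
        rwa [fz_fz, union_eq_right.2 hR] at this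
      have hh := E.hover hW hI (y := y) (L := lam * m) (a₀ := a₀)
        (ε := Real.exp (-(21010 * (lam * m)))) (by simp [hb, hbz]) hL ha hobs' (Real.exp_pos _)
        (Real.exp_le_exp.2 (by linarith))
      have e1 : Real.exp (k * R.card + 12 * ∑ x ∈ R, E.κ x +
          80 * (((l + 3 * i : ℕ) : ℝ) + 1) * (lam * m)) /
          (a₀ ^ 2 * Real.exp (-(21010 * (lam * m))) ^ 170) =
          Real.exp (k * R.card + 12 * ∑ x ∈ R, E.κ x + 80 * ((l + 3 * i) + 1) * (lam * m) +
            170 * (21010 * (lam * m))) / a₀ ^ 2 := by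
        rw [← Real.exp_nat_mul, Real.exp_add _ (170 * _), mul_comm (a₀ ^ 2), ← div_div,
          div_eq_mul_inv (Real.exp _), ← Real.exp_neg]
        push_cast
        congr 3
        ring
      have n1 := num1 (lam := lam) (m := m) (i := i) (l := l + 3 * i) hl hm hi0 (by linarith)
        hk0 hk1 hc' hS
      rw [e1] at hh
      split_ifs at hh with hsub
      · rw [add_zero] at hh
        refine hh.trans (le_trans ?_ le_self_add)
        gcongr ENNReal.ofReal (Real.exp ?_ / _) * _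
        linarith
      · have hlt : R.card < (R ∪ ball E.G z 3).card :=
          card_lt_card (ssubset_of_subset_of_ne subset_union_left fun h =>
            hsub (h ▸ subset_union_right))
        have hc3 := card_ball3 E.deg z
        have hc3' : ((ball E.G z 3).card : ℝ) ≤ 85 := by exact_mod_cast hc3
        have hS' : ∑ x ∈ R ∪ ball E.G z 3, E.κ x ≤
            ∑ x ∈ R₀, E.κ x + 255 * ((i + 1 : ℕ) : ℝ) *
              (lam * (l + 3 * ((i + 1 : ℕ) : ℝ) + 4004)) := by
          have h1 : ∑ x ∈ R ∪ ball E.G z 3, E.κ x ≤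
              ∑ x ∈ R, E.κ x + ∑ x ∈ ball E.G z 3, E.κ x := by
            rw [← sum_union_inter]
            exact le_add_of_nonneg_right (sum_nonneg fun x _ => (E.law x).k0)
          have h2 : ∑ x ∈ ball E.G z 3, E.κ x ≤ (ball E.G z 3).card • (3 * (lam * m)) :=
            sum_le_card_nsmul _ _ _ fun x hx => by
              linarith [(E.law x).kle, hL x (ball_add hzx 3 hx)]
          rw [nsmul_eq_mul] at h2
          have h3 : ((ball E.G z 3).card : ℝ) * (3 * (lam * m)) ≤ 85 * (3 * (lam * m)) := by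
            gcongr
          have h4 : (l : ℝ) + 3 * ((i + 1 : ℕ) : ℝ) + 4004 = m + 3 := by
            push_cast
            linarith
          rw [h4]
          push_cast
          nlinarith [mul_nonneg hi0 (by linarith : (0 : ℝ) ≤ lam)]
        have hstep : ∀ z' ∈ ball E.G z 3, E.Aq W b (R ∪ ball E.G z 3) z' ≤
            ENNReal.ofReal (Real.exp (k * R₀.card + 12 * ∑ x ∈ R₀, E.κ x +
              3000 * lam * (m + 3) ^ 2) / a₀ ^ 2) * Rq E.G E.η E.μ W y b +
            ENNReal.ofReal (Real.exp (k * R₀.card + 30 * lam * (m + 3) -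
              lam * max ((D : ℝ) ^ 2 - (i + 1) ^ 2) 0)) * Bb := fun z' hz' => by
          have := ih (i + 1) (R ∪ ball E.G z 3) z' (by omega) (hR.trans subset_union_left)
            (by simp [hb, hbz]) ((card_union_le _ _).trans (by omega)) hS'
            (ball_add hz 3 hz') (hI.step hz')
          have h4 : (l : ℝ) + 3 * ((i + 1 : ℕ) : ℝ) + 4004 = m + 3 := by
            push_cast
            linarith
          rw [h4] at this
          push_cast at this
          exact this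
        have hsum := sum_le_card_nsmul _ _ _ hstep
        rw [nsmul_eq_mul] at hsum
        have hcE : ((ball E.G z 3).card : ℝ≥0∞) ≤ ENNReal.ofReal (Real.exp 5) := by
          rw [← ENNReal.ofReal_natCast]
          exact ENNReal.ofReal_le_ofReal (hc3'.trans exp_five)
        refine hh.trans ?_
        refine (add_le_add le_rfl (mul_le_mul' le_rfl
          (hsum.trans (mul_le_mul' hcE le_rfl)))).trans ?_
        exact fin n1 (num2 hl hm0 _) (num3 hl hm0 (by linarith) _) _ _ _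

end TLa

namespace Env

theorem tl {W : (V → ℂ) → ℝ≥0∞} {b : V} {k : ℝ} (hW : Temp W b k) {R₀ : Finset V} {z₀ x₀ y : V}
    {l D : ℕ} {lam a₀ : ℝ} {Bb : ℝ≥0∞} (hI : Inv E.G R₀ z₀ x₀ l) (hb : b ∉ R₀)
    (hD : b ∉ ball E.G z₀ (3 * D)) (hg : E.Grow x₀ lam) (ha : 0 < a₀)
    (hobs : ∀ w, a₀ ≤ ‖Gr E.G E.η (fz E.r R₀ w) y x₀‖) (hB : E.HB W b k R₀ Bb) :
    E.Aq W b R₀ z₀ ≤
      ENNReal.ofReal (Real.exp (k * R₀.card + 12 * ∑ x ∈ R₀, E.κ x + 3000 * lam * (l + 4004) ^ 2) /
        a₀ ^ 2) * Rq E.G E.η E.μ W y b +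
      ENNReal.ofReal (Real.exp (k * R₀.card + 30 * lam * (l + 4004) - lam * D ^ 2)) * Bb := by
  have := TLa.key E hW (l := l) hD hg ha hobs hB (Fintype.card V) 0 R₀ z₀ (by omega) subset_rfl hb
    (by omega) (by simp) (self_mem_ball _ _) hI
  simpa [max_eq_left (sq_nonneg (D : ℝ))] using this

end Env

end Crest.Agent.N334.T
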