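import Crest.Agent.N334.T.BP1
import Crest.Agent.N334.T.TL

/-!
# Row 334, engine T: the bad phase bound (helper86; proof helper52)
-/

set_option autoImplicit false
set_option linter.unusedSectionVars false

open MeasureTheory Complex Finset Function
open scoped ENNReal

namespace Crest.Agent.N334.T

variable {V : Type} [Fintype V] [DecidableEq V]

namespace BP

variable {E : Env V} {ν : Measure ℂ} {B Z : Finset V} {y : V} {u : V → ℂ} {win : V → ℝ}
  {h γ P s lam : ℝ} {l : ℕ} {W : (V → ℂ) → ℝ≥0∞} {b : V} {k Q : ℝ}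

/-- thawing the whole block -/
lemma aq_le (hW : Temp W b k) (hb : b ∉ B) (hk : Real.exp (k * B.card) ≤ Q)
    (hκ : Real.exp (∑ x ∈ B, E.κ x) ≤ Q) (y : V) :
    E.Aq W b B y ≤ ENNReal.ofReal (Q ^ 5) * Rq E.G E.η E.μ W y b := by
  have hQ : 0 < Q := (Real.exp_pos _).trans_le hk
  have hg : Measurable fun w => ENNReal.ofReal (‖Gr E.G E.η w y b‖ ^ 2) := by fun_prop
  have hm : Measurable fun w => W w * ENNReal.ofReal (‖Gr E.G E.η w y b‖ ^ 2) := hW.1.fun_mul hg
  rw [Rq, ← lintegral_const_mul _ hm]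
  refine lint_ge_of_lm E.μ B (hm.const_mul _) fun w => ?_
  have h1 : ‖Gr E.G E.η (fz E.r B w) y b‖ ^ 2 ≤ Q ^ 4 *
      (Real.exp (-(4 * ∑ x ∈ B, E.κ x)) * ‖Gr E.G E.η (fz E.r B w) y b‖ ^ 2) := by
    rw [← mul_assoc]
    refine le_mul_of_one_le_left (sq_nonneg _) ?_
    rw [Real.exp_neg, ← div_eq_mul_inv, one_le_div (Real.exp_pos _),
      show (4 : ℝ) = (4 : ℕ) by norm_num, Real.exp_nat_mul]
    exact pow_le_pow_left₀ (Real.exp_pos _).le hκ 4
  calc _ ≤ W (fz E.r B w) * (ENNReal.ofReal (Q ^ 4) * lmarginal E.μ B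
        (fun w => ENNReal.ofReal (‖Gr E.G E.η w y b‖ ^ 2)) w) := by
        refine mul_le_mul_right ((ENNReal.ofReal_le_ofReal h1).trans ?_) _
        rw [ENNReal.ofReal_mul (by positivity)]
        exact mul_le_mul_right (E.lower_ref B y b w) _
    _ = lmarginal E.μ B (fun w => W (fz E.r B w) * (ENNReal.ofReal (Q ^ 4) *
        ENNReal.ofReal (‖Gr E.G E.η w y b‖ ^ 2))) w := by
        rw [lm_mul E.μ E.r B (a := fun w => W (fz E.r B w))
          (fun w => by rw [fz_fz, union_idempotent]) (hg.const_mul _), lm_const_mul _ _ _ hg]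
    _ ≤ _ := by
        refine lm_mono _ _ (fun w => ?_) w
        rw [pow_succ' Q 4, ENNReal.ofReal_mul hQ.le]
        refine (mul_le_mul_left ((hW.fz_le E.r hb w).trans
          (mul_le_mul_left (ENNReal.ofReal_le_ofReal hk) _)) _).trans (le_of_eq ?_)
        ring

/-- transfer from the outer layer -/
lemma aq_out (hB : Block E ν B Z y u win h γ P s lam l) {D : ℕ} {Bb : ℝ≥0∞} (hW : Temp W b k)
    (hb : b ∉ B) {z : V} (hz : z ∈ Z) (hD : b ∉ ball E.G z (3 * D)) (hHB : E.HB W b k B Bb)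
    (hk : Real.exp (k * B.card) ≤ Q) (hκ : Real.exp (∑ x ∈ B, E.κ x) ≤ Q)
    (hl : Real.exp (lam * (l + 4004) ^ 2) ≤ Q) :
    E.Aq W b B z ≤ ENNReal.ofReal (Q ^ 3013 * s ^ 8) * Rq E.G E.η E.μ W y b +
      ENNReal.ofReal (Q ^ 2) * (ENNReal.ofReal (Real.exp (-(lam * D ^ 2))) * Bb) := by
  have hQ : 0 < Q := (Real.exp_pos _).trans_le hk
  have hP := hB.big
  have hs := hB.s0
  obtain ⟨x₀, hx₀, hu, hI, hg⟩ := hB.tgt z hz
  have hlam : 0 ≤ lam := by
    have h1 := hg 0 x₀ (mem_singleton_self x₀)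
    have h2 := Real.log_nonneg (show 1 ≤ E.Λ x₀ by linarith [(E.law x₀).big])
    simpa using h2.trans h1
  refine (E.tl hW hI hb hD hg (a₀ := P / s ^ 4) (by positivity) (hB.obs_ge hx₀ hu) hHB).trans
    (add_le_add (mul_le_mul_left (ENNReal.ofReal_le_ofReal ?_) _) ?_)
  · have h1 : Real.exp (k * B.card + 12 * ∑ x ∈ B, E.κ x + 3000 * lam * (l + 4004) ^ 2) ≤
        Q ^ 3013 := by
      rw [Real.exp_add, Real.exp_add, mul_assoc (3000 : ℝ), show (12 : ℝ) = (12 : ℕ) by norm_num,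
        show (3000 : ℝ) = (3000 : ℕ) by norm_num, Real.exp_nat_mul, Real.exp_nat_mul,
        show 3013 = 1 + 12 + 3000 by rfl, pow_add, pow_add, pow_one]
      exact mul_le_mul (mul_le_mul hk (pow_le_pow_left₀ (Real.exp_pos _).le hκ _)
        (pow_pos (Real.exp_pos _) _).le hQ.le) (pow_le_pow_left₀ (Real.exp_pos _).le hl _)
        (pow_pos (Real.exp_pos _) _).le (mul_pos hQ (pow_pos hQ _)).le
    have h2 : ((P / s ^ 4) ^ 2)⁻¹ ≤ s ^ 8 := by
      rw [div_pow, inv_div, ← pow_mul]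
      exact div_le_self (by positivity) (one_le_pow₀ (by linarith))
    rw [div_eq_mul_inv]
    exact mul_le_mul h1 h2 (by positivity) (pow_pos hQ _).le
  · rw [← mul_assoc, ← ENNReal.ofReal_mul (pow_pos hQ _).le]
    refine mul_le_mul_left (ENNReal.ofReal_le_ofReal ?_) _
    rw [sub_eq_add_neg, Real.exp_add, Real.exp_add, sq Q]
    refine mul_le_mul_of_nonneg_right (mul_le_mul hk (le_trans (Real.exp_le_exp.2 ?_) hl)
      (Real.exp_pos _).le hQ.le) (Real.exp_pos _).le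
    have : (0 : ℝ) ≤ l := Nat.cast_nonneg l
    nlinarith [mul_nonneg (mul_nonneg hlam (show (0 : ℝ) ≤ l + 4004 by linarith))
      (show (0 : ℝ) ≤ l + 3974 by linarith)]

/-- all slices bad, integrated -/
lemma part4 (hB : Block E ν B Z y u win h γ P s lam l) [IsProbabilityMeasure ν] (hW : Temp W b k)
    (hb : b ∉ B) (hk : Real.exp (k * B.card) ≤ Q) :
    ∫⁻ w, (⋂ x ∈ B.erase y, nS E y h P s x).indicator (fun w => W w * g2 E y h b w) w
        ∂Measure.pi (update E.μ y ν) ≤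
      ENNReal.ofReal Q * (ENNReal.ofReal (P ^ 22 * s ^ 4) *
        (∑ z ∈ Z, E.Aq W b B z + ENNReal.ofReal (s ^ 8) * E.Aq W b B y)) := by
  have hN : MeasurableSet (⋂ x ∈ B.erase y, nS E y h P s x) :=
    Finset.measurableSet_biInter _ fun x _ => ms_nS x
  have hg : Measurable ((⋂ x ∈ B.erase y, nS E y h P s x).indicator (g2 E y h b)) :=
    measurable_g2.indicator hN
  have hWf : Measurable fun w => W (fz E.r B w) := hW.1.comp (measurable_fz E.r B)
  have hm : ∀ z, Measurable fun w => W w * ENNReal.ofReal (‖Gr E.G E.η w z b‖ ^ 2) :=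
    fun z => hW.1.fun_mul (by fun_prop)
  have hm' : ∀ z, Measurable fun w => W (fz E.r B w) *
      ENNReal.ofReal (‖Gr E.G E.η (fz E.r B w) z b‖ ^ 2) :=
    fun z => (hm z).comp (measurable_fz E.r B)
  have hA : ∀ z, E.Aq W b B z = ∫⁻ w, W (fz E.r B w) *
      ENNReal.ofReal (‖Gr E.G E.η (fz E.r B w) z b‖ ^ 2) ∂Measure.pi (update E.μ y ν) := fun z =>
    lint_fz_congr E.μ _ E.r B (fun x hx => (update_of_ne (fun e : x = y => hx (e ▸ hB.yB)) _ _).symm) (hm z)
  calc _ ≤ ∫⁻ w, ENNReal.ofReal Q * (W (fz E.r B w) *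
        (⋂ x ∈ B.erase y, nS E y h P s x).indicator (g2 E y h b) w)
        ∂Measure.pi (update E.μ y ν) := by
        refine lintegral_mono fun w => Set.indicator_apply_le' (fun hw => ?_) fun _ => zero_le
        rw [Set.indicator_of_mem hw, ← mul_assoc]
        exact mul_le_mul_left ((hW.le_fz E.r hb w).trans
          (mul_le_mul_left (ENNReal.ofReal_le_ofReal hk) _)) _
    _ ≤ ENNReal.ofReal Q * ∫⁻ w, ENNReal.ofReal (P ^ 22 * s ^ 4) *
        (∑ z ∈ Z, W (fz E.r B w) * ENNReal.ofReal (‖Gr E.G E.η (fz E.r B w) z b‖ ^ 2) +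
          ENNReal.ofReal (s ^ 8) * (W (fz E.r B w) *
            ENNReal.ofReal (‖Gr E.G E.η (fz E.r B w) y b‖ ^ 2))) ∂Measure.pi (update E.μ y ν) := by
        rw [lintegral_const_mul _ (hWf.fun_mul hg)]
        refine mul_le_mul_right (lint_le_of_lm _ (B.erase y) (hWf.fun_mul hg) fun w => ?_) _
        rw [lm_mul _ E.r _ (a := fun w => W (fz E.r B w))
          (fun w => by rw [fz_fz, union_eq_left.2 (erase_subset y B)]) hg,
          lm_congr_law _ E.μ _ fun x hx => update_of_ne (ne_of_mem_erase hx) _ _]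
        refine (mul_le_mul_right (part3 hB hb w) _).trans (le_of_eq ?_)
        rw [← mul_sum]; ring
    _ = _ := by
        rw [lintegral_const_mul _ ((Finset.measurable_fun_sum _ fun z _ => hm' z).fun_add
          ((hm' y).const_mul _)), lintegral_add_left (Finset.measurable_fun_sum _ fun z _ => hm' z),
          lintegral_finsetSum _ fun z _ => hm' z, lintegral_const_mul _ (hm' y)]
        simp only [hA]

lemma card_mul_le {S : Finset V} (hS : (S.card : ℝ) ≤ P) {f : V → ℝ≥0∞} {c : ℝ≥0∞}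
    (hf : ∀ x ∈ S, f x ≤ c) : ∑ x ∈ S, f x ≤ ENNReal.ofReal P * c := by
  refine (sum_le_card_nsmul _ _ _ hf).trans ?_
  rw [nsmul_eq_mul, ← ENNReal.ofReal_natCast]
  exact mul_le_mul_left (ENNReal.ofReal_le_ofReal hS) _

lemma comb {a₁ a₂ c : ℝ} {X Y : ℝ≥0∞} (h₁ : a₁ ≤ c) (h₂ : a₂ ≤ c) :
    ENNReal.ofReal a₁ * X + ENNReal.ofReal a₂ * Y ≤ ENNReal.ofReal c * (X + Y) := by
  rw [mul_add]
  exact add_le_add (mul_le_mul_left (ENNReal.ofReal_le_ofReal h₁) _)
    (mul_le_mul_left (ENNReal.ofReal_le_ofReal h₂) _)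

end BP

open BP in
/-- BP: the intensity seen by a matched absorber at the centre of a block is much smaller than the
true one -/
theorem Block.bp {E : Env V} {ν : Measure ℂ} {B Z : Finset V} {y : V} {u : V → ℂ} {win : V → ℝ}
    {h γ P s lam : ℝ} {l : ℕ} (hB : Block E ν B Z y u win h γ P s lam l) {W : (V → ℂ) → ℝ≥0∞}
    {b : V} {k Q : ℝ} {D : ℕ} {Bb : ℝ≥0∞} (hW : Temp W b k) (hb : b ∉ B)
    (hD : ∀ z ∈ Z, b ∉ ball E.G z (3 * D)) (hHB : E.HB W b k B Bb) (hP : P ≤ Q)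
    (hk : Real.exp (k * B.card) ≤ Q) (hκ : Real.exp (∑ x ∈ B, E.κ x) ≤ Q)
    (hl : Real.exp (lam * (l + 4004) ^ 2) ≤ Q) :
    ∫⁻ w, W w * ENNReal.ofReal (‖E.GG y h w y b‖ ^ 2) ∂Measure.pi (update E.μ y ν) ≤
      ENNReal.ofReal (Q ^ 3100 * s) * (Rq E.G E.η (update E.μ y ν) W y b +
        ENNReal.ofReal (Real.exp (-(lam * D ^ 2))) * Bb) := by
  have := hB.νp
  have hP0 := hB.big
  have hs := hB.s0
  have hs1 := s_le hB
  have hyb : y ≠ b := fun e => hb (e ▸ hB.yB)
  have hc : ∀ {S : Finset V}, S ⊆ B → (S.card : ℝ) ≤ P := fun hS =>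
    (Nat.cast_le.2 (card_le_card hS)).trans hB.card
  have hFF : Measurable fun w => W w * E.FF y ν b w := hW.1.fun_mul (E.measurable_FF y ν b)
  have hf : Measurable fun w => W w * g2 E y h b w := hW.1.fun_mul measurable_g2
  have hm2 : ∀ x, Measurable (({w | s < ‖E.ee y h w‖} ∩
      {w | mb E y h s x w ≤ ENNReal.ofReal (10 * P)⁻¹}).indicator fun w => W w * g2 E y h b w) :=
    fun x => hf.indicator ((ms_lt s).inter (measurableSet_le (measurable_mb x) measurable_const))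
  have hR : Rq E.G E.η E.μ W y b ≤
      ENNReal.ofReal (P / (P ^ 4 * s ^ 8)) * Rq E.G E.η (update E.μ y ν) W y b :=
    lint_update_le E.μ hB.sub (hW.1.fun_mul (by fun_prop))
  have h1 := wff (E := E) (ν := ν) hW hyb
  have h4 := part4 hB hW hb hk
  have h5 := card_mul_le (hc hB.ZB) fun z hz => aq_out hB hW hb hz (hD z hz) hHB hk hκ hl
  have h6 := aq_le hW hb hk hκ y
  have h2 := card_mul_le (hc (erase_subset y B)) fun x hx => part2 hB hW hb hx
  have h0 : ∫⁻ w, W w * ENNReal.ofReal (‖E.GG y h w y b‖ ^ 2) ∂Measure.pi (update E.μ y ν) ≤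
      ∫⁻ w, ENNReal.ofReal (8 * P ^ 2 * s) * (W w * E.FF y ν b w) + ∑ x ∈ B.erase y,
        ({w | s < ‖E.ee y h w‖} ∩ {w | mb E y h s x w ≤ ENNReal.ofReal (10 * P)⁻¹}).indicator
          (fun w => W w * g2 E y h b w) w + (⋂ x ∈ B.erase y, nS E y h P s x).indicator
            (fun w => W w * g2 E y h b w) w ∂Measure.pi (update E.μ y ν) := by
    refine lintegral_mono fun w => ?_
    by_cases he : ‖E.ee y h w‖ ≤ s
    · refine le_trans ?_ (le_self_add.trans le_self_add)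
      rw [mul_left_comm]
      exact mul_le_mul_right (part1 hB b w he) _
    by_cases hN : w ∈ ⋂ x ∈ B.erase y, nS E y h P s x
    · rw [Set.indicator_of_mem hN]; exact le_add_self
    · obtain ⟨x, hx, hx'⟩ : ∃ x ∈ B.erase y, w ∉ nS E y h P s x := by
        simpa only [Set.mem_iInter, not_forall, exists_prop] using hN
      refine le_trans ?_ (le_add_self.trans le_self_add)
      refine le_trans (le_of_eq ?_) (single_le_sum (fun _ _ => zero_le) hx)
      exact (Set.indicator_of_mem (show w ∈ {w | s < ‖E.ee y h w‖} ∩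
        {w | mb E y h s x w ≤ ENNReal.ofReal (10 * P)⁻¹} from ⟨not_le.1 he,
          show mb E y h s x w ≤ _ from le_of_not_gt hx'⟩)
          fun w => W w * g2 E y h b w).symm
  rw [lintegral_add_left ((hFF.const_mul _).fun_add (Finset.measurable_fun_sum _ fun x _ => hm2 x)),
    lintegral_add_left (hFF.const_mul _), lintegral_const_mul _ hFF,
    lintegral_finsetSum _ fun x _ => hm2 x] at h0
  refine h0.trans ((add_le_add (add_le_add (mul_le_mul_right h1 _)
    (h2.trans (mul_le_mul_right (mul_le_mul_right h1 _) _))) (h4.trans (mul_le_mul_right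
      (mul_le_mul_right (add_le_add (h5.trans (mul_le_mul_right (add_le_add
        (mul_le_mul_right hR _) le_rfl) _)) (mul_le_mul_right (h6.trans
          (mul_le_mul_right hR _)) _)) _) _))).trans ?_)
  generalize Rq E.G E.η (update E.μ y ν) W y b = X
  generalize ENNReal.ofReal (Real.exp (-(lam * D ^ 2))) * Bb = Y
  have hQ1 : 1000 ≤ Q := hP0.trans hP
  have hQ : 0 < Q := by linarith
  have hPp : 0 < P := by linarith
  have e1 : Q ^ 3100 = Q ^ 3013 * Q ^ 87 := by rw [← pow_add]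
  have hT : 1 ≤ Q ^ 3013 := one_le_pow₀ (by linarith)
  have hT5 : Q ^ 5 ≤ Q ^ 3013 := pow_le_pow_right₀ (by linarith) (by norm_num)
  rw [e1]
  generalize Q ^ 3013 = T at *
  have hT0 : 0 < T := by linarith
  have h40 : ∀ n : ℕ, n ≤ 40 → P ^ n ≤ Q ^ 40 := fun n hn =>
    (pow_le_pow_left₀ hPp.le hP n).trans (pow_le_pow_right₀ (by linarith) hn)
  have hs4 : s ^ 4 ≤ s := pow_le_of_le_one hs.le hs1 (by norm_num)
  have hQ40 : 0 < Q ^ 40 := pow_pos hQ _
  have h87 : 100 * (Q * Q ^ 40) ≤ Q ^ 87 := by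
    rw [show Q ^ 87 = Q ^ 46 * (Q * Q ^ 40) by ring]
    exact mul_le_mul_of_nonneg_right (le_trans (by linarith)
      (le_self_pow₀ (by linarith) (by norm_num))) (by positivity)
  refine le_trans (le_of_eq ?_) (comb (X := X) (Y := Y)
    (a₁ := 24 * P ^ 2 * s + 27 * P ^ 8 * s + Q * s ^ 4 * (P ^ 20 * T + P ^ 19 * Q ^ 5))
    (a₂ := Q * s ^ 4 * (P ^ 23 * Q ^ 2)) ?_ ?_)
  · have e2 : Q * s ^ 4 * (P ^ 20 * T + P ^ 19 * Q ^ 5) = Q * (P ^ 22 * s ^ 4 *
        (P * (T * s ^ 8 * (P / (P ^ 4 * s ^ 8))) + s ^ 8 * (Q ^ 5 * (P / (P ^ 4 * s ^ 8))))) := by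
      field_simp
    rw [e2, show 24 * P ^ 2 * s = 8 * P ^ 2 * s * 3 by ring,
      show 27 * P ^ 8 * s = P * (9 * P ^ 7 * s * 3) by ring,
      show Q * s ^ 4 * (P ^ 23 * Q ^ 2) = Q * (P ^ 22 * s ^ 4 * (P * Q ^ 2)) by ring]
    rw [ENNReal.ofReal_add (by positivity) (by positivity),
      ENNReal.ofReal_add (by positivity) (by positivity),
      ENNReal.ofReal_mul (p := 8 * P ^ 2 * s) (by positivity), ENNReal.ofReal_mul hPp.le,
      ENNReal.ofReal_mul (p := 9 * P ^ 7 * s) (by positivity), ENNReal.ofReal_mul hQ.le,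
      ENNReal.ofReal_mul hQ.le, ENNReal.ofReal_mul (p := P ^ 22 * s ^ 4) (by positivity),
      ENNReal.ofReal_mul (p := P ^ 22 * s ^ 4) (by positivity),
      ENNReal.ofReal_add (by positivity) (by positivity), ENNReal.ofReal_mul hPp.le,
      ENNReal.ofReal_mul hPp.le, ENNReal.ofReal_mul (p := T * s ^ 8) (by positivity),
      ENNReal.ofReal_mul (p := s ^ 8) (by positivity),
      ENNReal.ofReal_mul (p := Q ^ 5) (by positivity)]
    ring
  · have a1 : P ^ 20 * T + P ^ 19 * Q ^ 5 ≤ 2 * (Q ^ 40 * T) := by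
      have := mul_le_mul (h40 19 (by norm_num)) hT5 (by positivity) hQ40.le
      have := mul_le_mul_of_nonneg_right (h40 20 (by norm_num)) hT0.le
      linarith
    have a2 : Q * s ^ 4 * (P ^ 20 * T + P ^ 19 * Q ^ 5) ≤ Q * s * (2 * (Q ^ 40 * T)) :=
      mul_le_mul (mul_le_mul_of_nonneg_left hs4 hQ.le) a1 (by positivity) (by positivity)
    have a3 : Q ^ 40 ≤ T * (Q * Q ^ 40) :=
      (le_mul_of_one_le_left hQ40.le (by linarith)).trans (le_mul_of_one_le_left (by positivity) hT)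
    have a4 := mul_le_mul_of_nonneg_right ((h40 2 (by norm_num)).trans a3) hs.le
    have a5 := mul_le_mul_of_nonneg_right ((h40 8 (by norm_num)).trans a3) hs.le
    have a6 := mul_le_mul_of_nonneg_right (mul_le_mul_of_nonneg_left h87 hT0.le) hs.le
    have a7 : 0 ≤ T * (Q * Q ^ 40) * s := by positivity
    generalize Q ^ 87 = A at *
    generalize Q ^ 40 = A' at *
    nlinarith
  · have a1 : P ^ 23 * Q ^ 2 ≤ Q ^ 40 * T :=
      mul_le_mul (h40 23 (by norm_num)) ((pow_le_pow_right₀ (by linarith) (by norm_num)).trans hT5)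
        (by positivity) hQ40.le
    have a2 : Q * s ^ 4 * (P ^ 23 * Q ^ 2) ≤ Q * s * (Q ^ 40 * T) :=
      mul_le_mul (mul_le_mul_of_nonneg_left hs4 hQ.le) a1 (by positivity) (by positivity)
    have a6 := mul_le_mul_of_nonneg_right (mul_le_mul_of_nonneg_left h87 hT0.le) hs.le
    have a7 : 0 ≤ T * (Q * Q ^ 40) * s := by positivity
    generalize Q ^ 87 = A at *
    generalize Q ^ 40 = A' at *
    nlinarith

end Crest.Agent.N334.T
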