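import Crest.Agent.N334.T.Law

/-!
# Row 334, engine T: one-site logarithmic inequalities (leaf T-Log)
-/

set_option autoImplicit false
set_option maxHeartbeats 400000

open MeasureTheory Complex Finset Function
open scoped ENNReal

namespace Crest.Agent.N334.T

variable {μ : Measure ℂ} {r : ℂ} {Λ κ : ℝ}

namespace Lg

lemma le_nlog (u : ℝ) : ENNReal.ofReal (-Real.log u) ≤ nlog u := by
  unfold nlog
  split_ifs
  exacts [le_top, le_rfl]

lemma integral_le {f : ℂ → ℝ} {c : ℝ} (hc : 0 ≤ c)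
    (h : ∫⁻ z, ENNReal.ofReal (f z) ∂μ ≤ ENNReal.ofReal c) : ∫ z, f z ∂μ ≤ c := by
  by_cases hf : Integrable f μ
  · rw [integral_eq_lintegral_pos_part_sub_lintegral_neg_part hf]
    exact (sub_le_self _ ENNReal.toReal_nonneg).trans (ENNReal.toReal_le_of_le_ofReal hc h)
  · rwa [integral_undef hf]

lemma le_norm (z : ℂ) {m : ℂ} (hm : 0 < m.im) : |z.im| + m.im ≤ ‖cl z - m‖ := by
  refine le_trans ?_ (abs_im_le_norm _)
  rw [sub_im, cl_im]
  exact le_trans (by linarith) (neg_le_abs _)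

lemma ne (z : ℂ) {m : ℂ} (hm : 0 < m.im) : cl z - m ≠ 0 :=
  norm_pos_iff.1 ((add_pos_of_nonneg_of_pos (abs_nonneg _) hm).trans_le (le_norm z hm))

lemma norm_le (z : ℂ) {m : ℂ} (hm : 0 < m.im) (hσ : 0 < |r.im|) :
    ‖cl z - m‖ ≤ ‖cl r - m‖ * (1 + ‖cl z - cl r‖ / |r.im|) := by
  have h1 : |r.im| ≤ ‖cl r - m‖ := (le_add_of_nonneg_right hm.le).trans (le_norm r hm)
  have h2 : ‖cl z - cl r‖ ≤ ‖cl r - m‖ * (‖cl z - cl r‖ / |r.im|) := by
    rw [← mul_div_assoc, le_div_iff₀ hσ, mul_comm]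
    gcongr
  have h3 := norm_add_le (cl r - m) (cl z - cl r)
  rw [show cl r - m + (cl z - cl r) = cl z - m by ring] at h3
  linarith

lemma nlog_mul4 {a b c d e : ℝ} (ha : 0 ≤ a) (hb : 0 ≤ b) (hc : 0 ≤ c) (hd : 0 ≤ d)
    (h : a * b * c * d ≤ e) : nlog e ≤ nlog a + nlog b + nlog c + nlog d :=
  calc nlog e ≤ nlog (a * b * c * d) := nlog_anti (by positivity) h
    _ ≤ nlog (a * b * c) + nlog d := nlog_mul (by positivity) hd
    _ ≤ nlog (a * b) + nlog c + nlog d := by gcongr; exact nlog_mul (by positivity) hc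
    _ ≤ _ := by gcongr; exact nlog_mul ha hb

end Lg

lemma Law0.log_nonneg (h : Law0 μ r Λ) : 0 ≤ Real.log Λ := Real.log_nonneg (by linarith [h.big])

lemma Law0.nlog_sig (h : Law0 μ r Λ) : nlog |r.im| ≤ ENNReal.ofReal (Real.log Λ) := by
  have : 0 < Λ⁻¹ := inv_pos.2 (by linarith [h.big])
  refine (nlog_anti this.le h.sig).trans_eq ?_
  rw [nlog_pos this, Real.log_inv, neg_neg]

/-- `log⁻` by `n1`; `log⁺ ≤ log (1 + |a|) + log (1 + σ |b|) + log (1 + |t| / σ)` by `n2` -/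
lemma Law0.integrable_log (h : Law0 μ r Λ) {a b : ℂ} (hab : a ≠ 0 ∨ b ≠ 0) :
    Integrable (fun z => Real.log ‖a + b * (cl z - cl r)‖) μ ∧
      ∀ᵐ z ∂μ, a + b * (cl z - cl r) ≠ 0 := by
  have := h.prob
  have hσ := h.abs_im_pos
  have hN : 0 < ‖a‖ + |r.im| * ‖b‖ := by
    rcases hab with h1 | h1
    · exact add_pos_of_pos_of_nonneg (norm_pos_iff.2 h1) (by positivity)
    · exact add_pos_of_nonneg_of_pos (norm_nonneg _) (mul_pos hσ (norm_pos_iff.2 h1))
  have mu : Measurable fun z => ‖a + b * (cl z - cl r)‖ / (‖a‖ + |r.im| * ‖b‖) := by fun_prop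
  have h1 : ∀ᵐ z ∂μ, a + b * (cl z - cl r) ≠ 0 :=
    (ae_lt_top (measurable_nlog.comp mu) ((h.n1 hab).trans_lt ENNReal.ofReal_lt_top).ne).mono
      fun z hz e => by simp [e] at hz
  have h2 : Integrable (fun z => Real.log (‖a + b * (cl z - cl r)‖ / (‖a‖ + |r.im| * ‖b‖))) μ := by
    refine ⟨mu.log.aestronglyMeasurable, lt_of_le_of_lt (lintegral_mono_ae (g := fun z =>
      nlog (‖a + b * (cl z - cl r)‖ / (‖a‖ + |r.im| * ‖b‖)) +
        ENNReal.ofReal (Real.log (1 + ‖cl z - cl r‖ / |r.im|))) (h1.mono fun z hz => ?_)) ?_⟩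
    · have hu : 0 < ‖a + b * (cl z - cl r)‖ / (‖a‖ + |r.im| * ‖b‖) :=
        div_pos (norm_pos_iff.2 hz) hN
      rw [Real.enorm_eq_ofReal_abs]
      rcases le_total 0 (Real.log (‖a + b * (cl z - cl r)‖ / (‖a‖ + |r.im| * ‖b‖))) with h3 | h3
      · rw [abs_of_nonneg h3]
        refine le_add_left (ENNReal.ofReal_le_ofReal (Real.log_le_log hu ?_))
        rw [div_le_iff₀ hN]
        refine (norm_add_le _ _).trans ?_
        rw [norm_mul]
        have e : (1 + ‖cl z - cl r‖ / |r.im|) * (‖a‖ + |r.im| * ‖b‖) = ‖a‖ + ‖b‖ * ‖cl z - cl r‖ +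
          (|r.im| * ‖b‖ + ‖cl z - cl r‖ / |r.im| * ‖a‖) := by field_simp; ring
        rw [e]
        exact le_add_of_nonneg_right (by positivity)
      · rw [abs_of_nonpos h3]
        exact le_add_right (Lg.le_nlog _)
    · rw [lintegral_add_left (by fun_prop)]
      exact ENNReal.add_lt_top.2 ⟨(h.n1 hab).trans_lt ENNReal.ofReal_lt_top,
        h.n2.trans_lt ENNReal.ofReal_lt_top⟩
  refine ⟨(h2.add (integrable_const (Real.log (‖a‖ + |r.im| * ‖b‖)))).congr
    (h1.mono fun z hz => ?_), h1⟩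
  simp only [Pi.add_apply]
  rw [Real.log_div (norm_ne_zero_iff.2 hz) hN.ne', sub_add_cancel]

/-- `la` from `n1` (`a = 1`), `lb` from `n2` (`|cl r - m| ≥ σ`) -/
lemma Law0.law (h : Law0 μ r Λ) : Law μ r Λ (3 * Real.log Λ) := by
  have hσ := h.abs_im_pos
  have hL := h.log_nonneg
  refine ⟨h, fun b => ?_, fun m hm => ?_, le_rfl⟩
  · rw [neg_le, ← integral_neg]
    refine Lg.integral_le (by positivity) (le_trans (lintegral_mono fun z => ?_)
      (h.n1 (a := 1) (b := b) (Or.inl one_ne_zero)))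
    refine (Lg.le_nlog _).trans (nlog_anti (by positivity) ?_)
    rw [mul_comm b, norm_one]
    exact div_le_self (norm_nonneg _) (le_add_of_nonneg_right (by positivity))
  · refine Lg.integral_le (by positivity) (le_trans (lintegral_mono fun z => ?_) h.n2)
    refine ENNReal.ofReal_le_ofReal (Real.log_le_log
      (norm_pos_iff.2 (div_ne_zero (Lg.ne z hm) (Lg.ne r hm))) ?_)
    rw [norm_div, div_le_iff₀' (norm_pos_iff.2 (Lg.ne r hm))]
    exact Lg.norm_le z hm hσ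

lemma Law.k0 (h : Law μ r Λ κ) : 0 ≤ κ := by
  have := h.la 0
  simpa using this

/-- REF: for `a ≠ 0`, a.e. `nlog (|f| / B) = -log (|f r| / B) - log |1 + t b / a| +
log |(cl z - m) / (cl r - m)| ≥ 0`; `ofReal_integral_eq_lintegral_ofReal`, `la`, `lb` -/
lemma Law.ref (h : Law μ r Λ κ) {m : ℂ} (hm : 0 < m.im) (a b : ℂ) {B : ℝ} (hB : 0 < B)
    (hf : ∀ z, ‖(a + b * (cl z - cl r)) / (cl z - m)‖ ≤ B) :
    ∫⁻ z, nlog (‖(a + b * (cl z - cl r)) / (cl z - m)‖ / B) ∂μ ≤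
      nlog (‖a / (cl r - m)‖ / B) + ENNReal.ofReal (2 * κ) := by
  have := h.prob
  by_cases ha : a = 0
  · simp [ha]
  have hd := Lg.ne r hm
  have i1 := h.toLaw0.integrable_log (a := 1) (b := b / a) (Or.inl one_ne_zero)
  have i2 := (h.toLaw0.integrable_log (a := 1) (b := (cl r - m)⁻¹) (Or.inl one_ne_zero)).1
  have e1 : ∀ z, 1 + (cl r - m)⁻¹ * (cl z - cl r) = (cl z - m) / (cl r - m) := fun z => by
    field_simp
    ring
  simp only [e1] at i2
  have hc : 0 < ‖a / (cl r - m)‖ / B := div_pos (norm_pos_iff.2 (div_ne_zero ha hd)) hB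
  have e2 : ∀ z, ‖(a + b * (cl z - cl r)) / (cl z - m)‖ / B = ‖a / (cl r - m)‖ / B *
      ‖1 + b / a * (cl z - cl r)‖ / ‖(cl z - m) / (cl r - m)‖ := fun z => by
    have hz := Lg.ne z hm
    rw [show (a + b * (cl z - cl r)) / (cl z - m) =
      a / (cl r - m) * (1 + b / a * (cl z - cl r)) / ((cl z - m) / (cl r - m)) by field_simp,
      norm_div _ ((cl z - m) / (cl r - m)), norm_mul]
    ring
  have e3 : ∀ᵐ z ∂μ, 0 < ‖(a + b * (cl z - cl r)) / (cl z - m)‖ / B ∧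
      -Real.log (‖(a + b * (cl z - cl r)) / (cl z - m)‖ / B) = -Real.log (‖a / (cl r - m)‖ / B) -
        Real.log ‖1 + b / a * (cl z - cl r)‖ + Real.log ‖(cl z - m) / (cl r - m)‖ :=
    i1.2.mono fun z hz => by
      have h1 := norm_pos_iff.2 hz
      have h2 := norm_pos_iff.2 (div_ne_zero (Lg.ne z hm) hd)
      rw [e2, Real.log_div (mul_pos hc h1).ne' h2.ne', Real.log_mul hc.ne' h1.ne']
      exact ⟨by positivity, by ring⟩
  have i3 : Integrable (fun z => -Real.log (‖a / (cl r - m)‖ / B) -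
      Real.log ‖1 + b / a * (cl z - cl r)‖) μ := (integrable_const _).sub i1.1
  have i4 : Integrable (fun z => -Real.log (‖a / (cl r - m)‖ / B) -
      Real.log ‖1 + b / a * (cl z - cl r)‖ + Real.log ‖(cl z - m) / (cl r - m)‖) μ := i3.add i2
  rw [lintegral_congr_ae (e3.mono fun z hz => by rw [nlog_pos hz.1, hz.2]),
    ← ofReal_integral_eq_lintegral_ofReal i4 (e3.mono fun z hz => ?_), nlog_pos hc]
  · refine le_trans (ENNReal.ofReal_le_ofReal ?_) ENNReal.ofReal_add_le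
    rw [integral_add i3 i2, integral_sub (integrable_const _) i1.1, integral_const]
    have h1 := h.la (b / a)
    simp only [mul_comm _ (b / a)] at h1
    simp only [probReal_univ, one_smul]
    linarith [h.lb m hm]
  · simp only [Pi.zero_apply]
    rw [← hz.2, neg_nonneg]
    exact Real.log_nonpos hz.1.le ((div_le_one hB).2 (hf z))

/-- TOP: `|f| ≥ |b / d| * σ * (|a + b t| / (|a| + σ |b|)) * (1 + |t| / σ)⁻¹`, `d = cl r - m`;
`nlog_mul`, `n1`, `n2` -/
lemma Law0.top (h : Law0 μ r Λ) {m : ℂ} (hm : 0 < m.im) (a b : ℂ) {B : ℝ} (hB : 0 < B) :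
    ∫⁻ z, nlog (‖(a + b * (cl z - cl r)) / (cl z - m)‖ / B) ∂μ ≤
      nlog (‖b / (cl r - m)‖ / B) + ENNReal.ofReal (7 * Real.log Λ) := by
  have := h.prob
  by_cases hb : b = 0
  · simp [hb]
  have hσ := h.abs_im_pos
  have hL := h.log_nonneg
  have hd := norm_pos_iff.2 (Lg.ne r hm)
  have hb' := norm_pos_iff.2 hb
  have key : ∀ z, nlog (‖(a + b * (cl z - cl r)) / (cl z - m)‖ / B) ≤
      nlog (‖b / (cl r - m)‖ / B) + nlog |r.im| +
        nlog (‖a + b * (cl z - cl r)‖ / (‖a‖ + |r.im| * ‖b‖)) +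
        ENNReal.ofReal (Real.log (1 + ‖cl z - cl r‖ / |r.im|)) := fun z => by
    have h1 : 0 < (1 + ‖cl z - cl r‖ / |r.im|)⁻¹ := by positivity
    have hz := norm_pos_iff.2 (Lg.ne z hm)
    rw [← neg_neg (Real.log _), ← Real.log_inv, ← nlog_pos h1]
    refine Lg.nlog_mul4 (by positivity) hσ.le (by positivity) h1.le ?_
    calc _ = ‖a + b * (cl z - cl r)‖ / (‖cl r - m‖ * (1 + ‖cl z - cl r‖ / |r.im|)) / B *
          (|r.im| * ‖b‖ / (‖a‖ + |r.im| * ‖b‖)) := by rw [norm_div]; field_simp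
      _ ≤ ‖a + b * (cl z - cl r)‖ / ‖cl z - m‖ / B * 1 := by
          gcongr
          · exact Lg.norm_le z hm hσ
          · exact (div_le_one (by positivity)).2 (le_add_of_nonneg_left (norm_nonneg _))
      _ = _ := by rw [mul_one, norm_div]
  refine (lintegral_mono key).trans ?_
  rw [lintegral_add_left (by fun_prop), lintegral_add_left measurable_const, lintegral_const,
    measure_univ, mul_one, show 7 * Real.log Λ = Real.log Λ + 3 * Real.log Λ + 3 * Real.log Λ by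
      ring, ENNReal.ofReal_add (by positivity) (by positivity),
    ENNReal.ofReal_add hL (by positivity), ← add_assoc, ← add_assoc]
  gcongr
  exacts [h.nlog_sig, h.n1 (Or.inr hb), h.n2]

/-- J: with `d = cl r - m`, `f / (A A') = ((q d + ρ ρ') + q t) (d + t) / (ρ ρ')` and
`σ |ρ ρ'| ≤ (|q d + ρ ρ'| + σ |q|) (|d| + σ)`; `n1` twice (if `ρ ρ' = 0` the right side is `⊤`) -/
lemma Law0.junction (h : Law0 μ r Λ) {m : ℂ} (hm : 0 < m.im) (q ρ ρ' : ℂ) {B B' : ℝ} (hB : 0 < B)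
    (hB' : 0 < B') :
    ∫⁻ z, nlog (‖q + ρ * ρ' / (cl z - m)‖ / (B * B')) ∂μ ≤
      ∫⁻ z, nlog (‖ρ / (cl z - m)‖ / B) ∂μ + ∫⁻ z, nlog (‖ρ' / (cl z - m)‖ / B') ∂μ +
        ENNReal.ofReal (7 * Real.log Λ) := by
  have := h.prob
  by_cases hρ : ρ = 0
  · simp [hρ]
  by_cases hρ' : ρ' = 0
  · simp [hρ']
  have hσ := h.abs_im_pos
  have hL := h.log_nonneg
  have n1 := norm_pos_iff.2 hρ
  have n2 := norm_pos_iff.2 hρ'
  have hq : q * (cl r - m) + ρ * ρ' ≠ 0 ∨ q ≠ 0 := by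
    by_cases h0 : q = 0
    · exact Or.inl (by simp [h0, hρ, hρ'])
    · exact Or.inr h0
  have hN : 0 < ‖q * (cl r - m) + ρ * ρ'‖ + |r.im| * ‖q‖ := by
    rcases hq with h1 | h1
    · exact add_pos_of_pos_of_nonneg (norm_pos_iff.2 h1) (by positivity)
    · exact add_pos_of_nonneg_of_pos (norm_nonneg _) (mul_pos hσ (norm_pos_iff.2 h1))
  have hle : |r.im| * (‖ρ‖ * ‖ρ'‖) ≤ (‖q * (cl r - m) + ρ * ρ'‖ + |r.im| * ‖q‖) *
      (‖cl r - m‖ + |r.im| * ‖(1 : ℂ)‖) := by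
    have h1 := norm_sub_le (q * (cl r - m) + ρ * ρ') (q * (cl r - m))
    rw [add_sub_cancel_left, norm_mul, norm_mul] at h1
    rw [norm_one, mul_one]
    nlinarith [mul_le_mul_of_nonneg_left h1 hσ.le, mul_nonneg (norm_nonneg (cl r - m))
      (norm_nonneg (q * (cl r - m) + ρ * ρ')), mul_nonneg (mul_nonneg hσ.le hσ.le) (norm_nonneg q)]
  have key : ∀ z, nlog (‖q + ρ * ρ' / (cl z - m)‖ / (B * B')) ≤
      nlog (‖ρ / (cl z - m)‖ / B) + nlog (‖ρ' / (cl z - m)‖ / B') + (nlog |r.im| +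
        nlog (‖q * (cl r - m) + ρ * ρ' + q * (cl z - cl r)‖ /
          (‖q * (cl r - m) + ρ * ρ'‖ + |r.im| * ‖q‖)) +
        nlog (‖cl r - m + 1 * (cl z - cl r)‖ / (‖cl r - m‖ + |r.im| * ‖(1 : ℂ)‖))) := fun z => by
    have hz0 := Lg.ne z hm
    have hz := norm_pos_iff.2 hz0
    rw [← add_assoc, ← add_assoc]
    refine le_trans ?_ (add_le_add_left (add_le_add_left (add_le_add_left
      (nlog_mul (by positivity) (by positivity)) _) _) _)
    refine Lg.nlog_mul4 (by positivity) hσ.le (by positivity) (by positivity) ?_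
    rw [show cl r - m + 1 * (cl z - cl r) = cl z - m by ring, show q + ρ * ρ' / (cl z - m) =
      (q * (cl r - m) + ρ * ρ' + q * (cl z - cl r)) / (cl z - m) by field_simp; ring]
    calc _ = ‖q * (cl r - m) + ρ * ρ' + q * (cl z - cl r)‖ / ‖cl z - m‖ / (B * B') *
          (|r.im| * (‖ρ‖ * ‖ρ'‖) / ((‖q * (cl r - m) + ρ * ρ'‖ + |r.im| * ‖q‖) *
            (‖cl r - m‖ + |r.im| * ‖(1 : ℂ)‖))) := by rw [norm_div, norm_div]; field_simp
      _ ≤ ‖q * (cl r - m) + ρ * ρ' + q * (cl z - cl r)‖ / ‖cl z - m‖ / (B * B') * 1 := by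
          gcongr
          exact div_le_one_of_le₀ hle (by positivity)
      _ = _ := by rw [mul_one, norm_div]
  refine (lintegral_mono key).trans ?_
  rw [lintegral_add_left (by fun_prop), lintegral_add_left (by fun_prop),
    lintegral_add_left (by fun_prop), lintegral_add_left measurable_const, lintegral_const,
    measure_univ, mul_one, show 7 * Real.log Λ = Real.log Λ + 3 * Real.log Λ + 3 * Real.log Λ by
      ring, ENNReal.ofReal_add (by positivity) (by positivity),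
    ENNReal.ofReal_add hL (by positivity)]
  gcongr
  exacts [h.nlog_sig, h.n1 hq, h.n1 (Or.inr one_ne_zero)]

end Crest.Agent.N334.T
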