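import Crest.Agent.N334.T.Mode

/-!
# Row 334, engine T: pieces of the bad phase bound (helper52)
-/

set_option autoImplicit false
set_option linter.unusedSectionVars false

open MeasureTheory Complex Finset Function
open scoped ENNReal

namespace Crest.Agent.N334.T

variable {V : Type} [Fintype V] [DecidableEq V]

namespace BP

variable {E : Env V} {ν : Measure ℂ} {B Z : Finset V} {y : V} {u : V → ℂ} {win : V → ℝ}
  {h γ P s lam : ℝ} {l : ℕ} {W : (V → ℂ) → ℝ≥0∞} {b : V} {k : ℝ}

/-- the mass of the bad part of the slice at `x` -/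
noncomputable def mb (E : Env V) (y : V) (h s : ℝ) (x : V) (w : V → ℂ) : ℝ≥0∞ :=
  E.μ x {z | s ^ 2 < ‖E.ee y h (update w x z)‖}

/-- the intensity seen by the matched absorber -/
noncomputable def g2 (E : Env V) (y : V) (h : ℝ) (b : V) (w : V → ℂ) : ℝ≥0∞ :=
  ENNReal.ofReal (‖E.GG y h w y b‖ ^ 2)

@[fun_prop] lemma measurable_g2 : Measurable (g2 E y h b) := by unfold g2; fun_prop

lemma ms_lt (t : ℝ) : MeasurableSet {w | t < ‖E.ee y h w‖} :=
  measurableSet_lt measurable_const (by fun_prop)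

lemma mb_eq (x : V) (w : V → ℂ) : mb E y h s x w =
    ∫⁻ z, {w | s ^ 2 < ‖E.ee y h w‖}.indicator (fun _ => (1 : ℝ≥0∞)) (update w x z) ∂E.μ x := by
  have hm : MeasurableSet {z | s ^ 2 < ‖E.ee y h (update w x z)‖} :=
    (measurable_update w (a := x)) (ms_lt (E := E) (y := y) (h := h) (s ^ 2))
  rw [mb, ← lintegral_indicator_one hm]
  rfl

lemma measurable_mb (x : V) : Measurable (mb E y h s x) := by
  rw [funext (mb_eq x)]
  exact measurable_site _ x (measurable_const.indicator (ms_lt _))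

lemma mb_update (x : V) (w : V → ℂ) (z : ℂ) : mb E y h s x (update w x z) = mb E y h s x w := by
  simp only [mb, update_idem]

lemma back (hW : Temp W b k) (w : V → ℂ) {x : V} (hx : x ≠ b) (z : ℂ) :
    W w ≤ ENNReal.ofReal (Real.exp k) * W (update w x z) := by
  have := hW.2.2.2 (update w x z) x (w x) hx
  rwa [update_idem, update_eq_self] at this

lemma exp_le (hW : Temp W b k) : ENNReal.ofReal (Real.exp k) ≤ ENNReal.ofReal 3 :=
  ENNReal.ofReal_le_ofReal ((Real.exp_le_exp.2 hW.2.2.1).trans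
    (Real.exp_one_lt_d9.le.trans (by norm_num)))

lemma s_le (hB : Block E ν B Z y u win h γ P s lam l) : s ≤ 1 :=
  hB.s1.trans (inv_le_one_of_one_le₀ (one_le_pow₀ (by linarith [hB.big])))

/-- the weighted average of `FF` -/
lemma wff [IsProbabilityMeasure ν] (hW : Temp W b k) (hy : y ≠ b) :
    ∫⁻ w, W w * E.FF y ν b w ∂Measure.pi (update E.μ y ν) ≤
      ENNReal.ofReal 3 * Rq E.G E.η (update E.μ y ν) W y b := by
  have hm : Measurable fun w => W w * ENNReal.ofReal (‖Gr E.G E.η w y b‖ ^ 2) :=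
    hW.1.mul (by fun_prop)
  rw [Rq, ← lint_site (update E.μ y ν) y hm, update_self,
    ← lintegral_const_mul _ (measurable_site ν y hm)]
  refine lintegral_mono fun w => ?_
  have hm1 : Measurable fun z => ENNReal.ofReal (‖Gr E.G E.η (update w y z) y b‖ ^ 2) :=
    (show Measurable fun w => ENNReal.ofReal (‖Gr E.G E.η w y b‖ ^ 2) by fun_prop).comp
      (measurable_update w)
  have hm2 : Measurable fun z => W (update w y z) *
      ENNReal.ofReal (‖Gr E.G E.η (update w y z) y b‖ ^ 2) := hm.comp (measurable_update w)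
  simp only [Env.FF]
  rw [← lintegral_const_mul _ hm1, ← lintegral_const_mul _ hm2]
  refine lintegral_mono fun z => ?_
  simp only [← mul_assoc]
  exact mul_le_mul_left ((back hW w hy z).trans (mul_le_mul_left (exp_le hW) _)) _

/-- the good phase -/
lemma part1 (hB : Block E ν B Z y u win h γ P s lam l) (b : V) (w : V → ℂ)
    (he : ‖E.ee y h w‖ ≤ s) : g2 E y h b w ≤ ENNReal.ofReal (8 * P ^ 2 * s) * E.FF y ν b w := by
  have hP : 0 < P := by linarith [hB.big]
  have h0 := E.ee_re_nonneg y h ((inv_pos.2 hP).trans_le hB.h0) w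
  have h1 : (E.ee y h w).re ≤ s := (re_le_norm _).trans he
  have hs := hB.s0
  have hs1 := s_le hB
  have h2 : ‖E.GG y h w y b‖ ^ 2 ≤ 2 * s * (‖E.GG y h w y b‖ ^ 2 / (s ^ 2 + (E.ee y h w).re)) := by
    rw [← mul_div_assoc, le_div_iff₀ (by positivity), mul_comm]
    exact mul_le_mul_of_nonneg_right (by nlinarith) (sq_nonneg _)
  refine (ENNReal.ofReal_le_ofReal h2).trans ?_
  rw [ENNReal.ofReal_mul (by positivity), show 8 * P ^ 2 * s = 2 * s * (4 * P ^ 2) by ring,
    ENNReal.ofReal_mul (p := 2 * s) (by positivity), mul_assoc]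
  exact mul_le_mul_right (hB.good b w he) _

/-- a bad point on a good slice -/
lemma part2 (hB : Block E ν B Z y u win h γ P s lam l) [IsProbabilityMeasure ν] (hW : Temp W b k)
    (hb : b ∉ B) {x : V} (hx : x ∈ B.erase y) :
    ∫⁻ w, ({w | s < ‖E.ee y h w‖} ∩ {w | mb E y h s x w ≤ ENNReal.ofReal (10 * P)⁻¹}).indicator
        (fun w => W w * g2 E y h b w) w ∂Measure.pi (update E.μ y ν) ≤
      ENNReal.ofReal (9 * P ^ 7 * s) * ∫⁻ w, W w * E.FF y ν b w ∂Measure.pi (update E.μ y ν) := by
  have hxb : x ≠ b := fun e => hb (e ▸ mem_of_mem_erase hx)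
  have hm1 : Measurable (({w | s < ‖E.ee y h w‖} ∩
      {w | mb E y h s x w ≤ ENNReal.ofReal (10 * P)⁻¹}).indicator fun w => W w * g2 E y h b w) :=
    (hW.1.mul measurable_g2).indicator
      ((ms_lt s).inter (measurableSet_le (measurable_mb x) measurable_const))
  have hm2 : Measurable fun w => W w * E.FF y ν b w := hW.1.mul (E.measurable_FF y ν b)
  rw [← lint_site _ x hm1, ← lint_site _ x hm2, update_of_ne (ne_of_mem_erase hx),
    ← lintegral_const_mul _ (measurable_site _ x hm2)]
  refine lintegral_mono fun w => ?_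
  by_cases hS : mb E y h s x w ≤ ENNReal.ofReal (10 * P)⁻¹
  swap
  · refine le_of_eq_of_le (lintegral_eq_zero_of_ae_eq_zero (.of_forall fun z => ?_)) (zero_le)
    exact Set.indicator_of_notMem (fun hz => hS (by
      have := hz.2; rwa [Set.mem_ofPred_eq, mb_update] at this)) _
  have h1 := hB.slice_cfg b hx w hS
  have hm3 : MeasurableSet {z | s < ‖E.ee y h (update w x z)‖} :=
    (measurable_update w (a := x)) (ms_lt (E := E) (y := y) (h := h) s)
  have hm4 : Measurable fun z => g2 E y h b (update w x z) :=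
    measurable_g2.comp (measurable_update w)
  have hm5 : Measurable fun z => E.FF y ν b (update w x z) :=
    (E.measurable_FF y ν b).comp (measurable_update w)
  have hm6 : Measurable fun z => W (update w x z) * E.FF y ν b (update w x z) :=
    hm2.comp (measurable_update w)
  calc _ ≤ ∫⁻ z, ENNReal.ofReal 3 * W w * {z | s < ‖E.ee y h (update w x z)‖}.indicator
        (fun z => g2 E y h b (update w x z)) z ∂E.μ x := by
        refine lintegral_mono fun z => ?_
        by_cases hz : s < ‖E.ee y h (update w x z)‖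
        · rw [Set.indicator_of_mem (s := {z | s < ‖E.ee y h (update w x z)‖}) hz]
          exact (Set.indicator_le_self _ _ _).trans (mul_le_mul_left
            ((hW.2.2.2 w x z hxb).trans (mul_le_mul_left (exp_le hW) _)) _)
        · exact le_of_eq_of_le (Set.indicator_of_notMem (fun h => hz h.1) _) zero_le
    _ ≤ ENNReal.ofReal 3 * W w *
        (ENNReal.ofReal (P ^ 7 * s) * ∫⁻ z, E.FF y ν b (update w x z) ∂E.μ x) := by
        rw [lintegral_const_mul _ (hm4.indicator hm3), lintegral_indicator hm3]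
        exact mul_le_mul_right h1 _
    _ = ENNReal.ofReal 3 * ENNReal.ofReal (P ^ 7 * s) *
        ∫⁻ z, W w * E.FF y ν b (update w x z) ∂E.μ x := by
        rw [lintegral_const_mul _ hm5]; ring
    _ ≤ ENNReal.ofReal 3 * ENNReal.ofReal (P ^ 7 * s) * (ENNReal.ofReal 3 *
        ∫⁻ z, W (update w x z) * E.FF y ν b (update w x z) ∂E.μ x) := by
        rw [← lintegral_const_mul _ hm6]
        refine mul_le_mul_right (lintegral_mono fun z => ?_) _
        simp only [← mul_assoc]
        exact mul_le_mul_left ((back hW w hxb z).trans (mul_le_mul_left (exp_le hW) _)) _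
    _ = _ := by
        rw [← mul_assoc, mul_right_comm (ENNReal.ofReal 3), ← ENNReal.ofReal_mul (by norm_num),
          ← ENNReal.ofReal_mul (by norm_num)]
        congr 2; ring

/-- the slice at `x` is bad -/
def nS (E : Env V) (y : V) (h P s : ℝ) (x : V) : Set (V → ℂ) :=
  {w | ENNReal.ofReal (10 * P)⁻¹ < mb E y h s x w}

lemma ms_nS (x : V) : MeasurableSet (nS E y h P s x) :=
  measurableSet_lt measurable_const (measurable_mb x)

/-- Markov: bad slices are rare -/
lemma pbad (hB : Block E ν B Z y u win h γ P s lam l) {x : V} (hx : x ∈ B.erase y) (w : V → ℂ) :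
    lmarginal E.μ (B.erase y) ((nS E y h P s x).indicator fun _ => 1) w ≤
      ENNReal.ofReal (10 * P ^ 6 * s ^ 4) := by
  have hP : 0 < P := by linarith [hB.big]
  have hs := hB.s0
  have hT : Measurable ({w | s ^ 2 < ‖E.ee y h w‖}.indicator fun _ => (1 : ℝ≥0∞)) :=
    measurable_const.indicator (ms_lt _)
  have he : Measurable fun w => ENNReal.ofReal (‖E.ee y h w‖ ^ 2) := by fun_prop
  calc _ ≤ lmarginal E.μ (B.erase y) (fun w => ENNReal.ofReal (10 * P) * mb E y h s x w) w := by
        refine lm_mono _ _ (fun w => Set.indicator_apply_le' (fun hw => ?_) fun _ => zero_le) w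
        refine le_trans (le_of_eq ?_) (mul_le_mul_right (le_of_lt hw) _)
        rw [← ENNReal.ofReal_mul (by positivity), mul_inv_cancel₀ (by positivity),
          ENNReal.ofReal_one]
    _ = ENNReal.ofReal (10 * P) * lmarginal E.μ (B.erase y)
        ({w | s ^ 2 < ‖E.ee y h w‖}.indicator fun _ => (1 : ℝ≥0∞)) w := by
        rw [lm_const_mul _ _ _ (measurable_mb x), lm_site _ hx hT, funext (mb_eq x)]
    _ ≤ ENNReal.ofReal (10 * P) * lmarginal E.μ (B.erase y)
        (fun w => ENNReal.ofReal (s ^ 4)⁻¹ * ENNReal.ofReal (‖E.ee y h w‖ ^ 2)) w := by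
        refine mul_le_mul_right (lm_mono _ _
          (fun w => Set.indicator_apply_le' (fun hw => ?_) fun _ => zero_le) w) _
        rw [← ENNReal.ofReal_mul (by positivity), ← ENNReal.ofReal_one]
        refine ENNReal.ofReal_le_ofReal ?_
        rw [inv_mul_eq_div, one_le_div (by positivity), show s ^ 4 = (s ^ 2) ^ 2 by ring]
        exact pow_le_pow_left₀ (by positivity) (le_of_lt hw) 2
    _ ≤ ENNReal.ofReal (10 * P) * (ENNReal.ofReal (s ^ 4)⁻¹ * ENNReal.ofReal (P ^ 5 * s ^ 8)) := by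
        rw [lm_const_mul _ _ _ he]
        exact mul_le_mul_right (mul_le_mul_right (hB.ee_sq w) _) _
    _ = _ := by
        rw [← ENNReal.ofReal_mul (by positivity), ← ENNReal.ofReal_mul (by positivity)]
        congr 1; field_simp

/-- one term of the expansion at the reference -/
lemma term (hB : Block E ν B Z y u win h γ P s lam l) {x : V} (hx : x ∈ B.erase y) (w : V → ℂ) :
    lmarginal E.μ (B.erase y) ((nS E y h P s x).indicator fun w =>
      ENNReal.ofReal (‖E.GG y h w y x‖ ^ 2 * ‖cl (w x) - cl (E.r x)‖ ^ 2)) w ≤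
      ENNReal.ofReal (8 * P ^ 2 * win x) * ENNReal.ofReal (10 * P ^ 6 * s ^ 4) := by
  have hw0 : 0 < win x := E.η0.trans_le (hB.win0 x hx).1
  have hm : Measurable ((nS E y h P s x).indicator fun w =>
      ENNReal.ofReal (‖E.GG y h w y x‖ ^ 2 * ‖cl (w x) - cl (E.r x)‖ ^ 2)) :=
    Measurable.indicator (by fun_prop) (ms_nS x)
  have h1 : Measurable ((nS E y h P s x).indicator fun _ => (1 : ℝ≥0∞)) :=
    measurable_const.indicator (ms_nS x)
  refine le_trans ?_ (mul_le_mul_right (pbad hB hx w) _)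
  rw [lm_site _ hx hm, ← lm_const_mul _ _ _ h1]
  refine lm_mono _ _ (fun w => ?_) w
  by_cases hw : w ∈ nS E y h P s x
  · rw [Set.indicator_of_mem hw, mul_one]
    refine (lintegral_mono fun z => Set.indicator_le_self _ _ _).trans ?_
    simp only [update_self]
    refine (hB.site_GG hx w (c := fun z => ‖cl z - cl (E.r x)‖ ^ 2) (by fun_prop)
      (C := 2 * win x ^ 2) (by positivity) fun v hv => ?_).trans (le_of_eq ?_)
    · have h2 := (hB.sig x hx).2
      have h3 := abs_nonneg (E.r x).im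
      rw [Complex.sq_norm, normSq_apply]
      simp only [sub_re, cl_re, ofReal_re, sub_im, cl_im, ofReal_im, abs_zero, neg_zero, zero_sub,
        neg_neg]
      nlinarith [abs_mul_abs_self (v - (E.r x).re), abs_nonneg (v - (E.r x).re)]
    · congr 1; field_simp; ring
  · refine le_of_eq_of_le (lintegral_eq_zero_of_ae_eq_zero (.of_forall fun z => ?_)) zero_le
    exact Set.indicator_of_notMem (fun hz => hw (by
      simp only [nS, Set.mem_ofPred_eq, mb_update] at hz ⊢; exact hz)) _

lemma fz_eq (hB : Block E ν B Z y u win h γ P s lam l) (w : V → ℂ) (z : ℂ) :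
    fz E.r (B.erase y) (update w y z) = update (fz E.r B w) y z := by
  rw [fz_update_notMem _ _ (notMem_erase y B)]
  conv_rhs => rw [← insert_erase hB.yB, fz_insert, update_idem]

/-- expansion at the reference -/
lemma expand (hB : Block E ν B Z y u win h γ P s lam l) (b : V) (w : V → ℂ) :
    ‖E.GG y h w y b‖ ^ 2 ≤ P * ‖E.GG y h (fz E.r B w) y b‖ ^ 2 + ∑ x ∈ B.erase y,
      P * ‖E.GG y h (fz E.r B w) x b‖ ^ 2 * (‖E.GG y h w y x‖ ^ 2 * ‖cl (w x) - cl (E.r x)‖ ^ 2) := by
  have h1 := resolvent_fz (G := E.G) E.η0 E.r (update w y (E.yh y h)) (B.erase y) y b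
  rw [fz_eq hB] at h1
  let a : V → ℝ := fun x => if x = y then ‖E.GG y h (fz E.r B w) y b‖ else
    ‖E.GG y h (fz E.r B w) x b‖ * (‖E.GG y h w y x‖ * ‖cl (w x) - cl (E.r x)‖)
  have h2 : ‖E.GG y h w y b‖ ≤ ∑ x ∈ B, a x := by
    rw [← add_sum_erase _ _ hB.yB, Env.GG, h1]
    refine (norm_sub_le _ _).trans (add_le_add (by simp [a, Env.GG])
      ((norm_sum_le _ _).trans (sum_le_sum fun x hx => le_of_eq ?_)))
    simp only [a, if_neg (ne_of_mem_erase hx), update_of_ne (ne_of_mem_erase hx), norm_mul, Env.GG]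
    ring
  have h3 := sq_sum_le_card_mul_sum_sq (s := B) (f := a)
  have h4 : ∑ x ∈ B, a x ^ 2 = ‖E.GG y h (fz E.r B w) y b‖ ^ 2 + ∑ x ∈ B.erase y,
      ‖E.GG y h (fz E.r B w) x b‖ ^ 2 * (‖E.GG y h w y x‖ ^ 2 * ‖cl (w x) - cl (E.r x)‖ ^ 2) := by
    rw [← add_sum_erase _ _ hB.yB]
    refine congrArg₂ _ (by simp [a]) (sum_congr rfl fun x hx => ?_)
    simp only [a, if_neg (ne_of_mem_erase hx)]; ring
  refine (pow_le_pow_left₀ (norm_nonneg _) h2 2).trans (h3.trans ((mul_le_mul_of_nonneg_right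
    hB.card (sum_nonneg fun _ _ => sq_nonneg _)).trans (le_of_eq ?_)))
  rw [h4, mul_add, mul_sum]
  simp only [mul_assoc]

/-- all slices are bad -/
lemma part3 (hB : Block E ν B Z y u win h γ P s lam l) (hb : b ∉ B) (w : V → ℂ) :
    lmarginal E.μ (B.erase y) ((⋂ x ∈ B.erase y, nS E y h P s x).indicator (g2 E y h b)) w ≤
      ENNReal.ofReal (P ^ 22 * s ^ 4) *
        (∑ z ∈ Z, ENNReal.ofReal (‖Gr E.G E.η (fz E.r B w) z b‖ ^ 2) +
          ENNReal.ofReal (s ^ 8) * ENNReal.ofReal (‖Gr E.G E.η (fz E.r B w) y b‖ ^ 2)) := by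
  have hP : 1000 ≤ P := hB.big
  have hs := hB.s0
  obtain ⟨z₀, hz₀⟩ := hB.Zne
  have hz : z₀ ∈ B.erase y := mem_erase.2 ⟨fun e => hB.yZ (e ▸ hz₀), hB.ZB hz₀⟩
  let c : V → (V → ℂ) → ℝ≥0∞ := fun x w => ENNReal.ofReal (P * ‖E.GG y h (fz E.r B w) x b‖ ^ 2)
  have hc : ∀ x w, c x (fz E.r (B.erase y) w) = c x w := fun x w => by
    simp only [c, fz_fz, union_eq_left.2 (erase_subset y B)]
  let t : V → (V → ℂ) → ℝ≥0∞ := fun x => (nS E y h P s x).indicator fun w =>
    ENNReal.ofReal (‖E.GG y h w y x‖ ^ 2 * ‖cl (w x) - cl (E.r x)‖ ^ 2)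
  have ht : ∀ x, Measurable (t x) := fun x => Measurable.indicator (by fun_prop) (ms_nS x)
  have hcm : ∀ x, Measurable (c x) := fun x =>
    (show Measurable fun w => ENNReal.ofReal (P * ‖E.GG y h w x b‖ ^ 2) by fun_prop).comp
      (measurable_fz E.r B)
  have h1 : Measurable ((nS E y h P s z₀).indicator fun _ => (1 : ℝ≥0∞)) :=
    measurable_const.indicator (ms_nS z₀)
  have hw0 : ∀ x ∈ B.erase y, 0 ≤ win x := fun x hx => E.η0.le.trans (hB.win0 x hx).1
  calc _ ≤ lmarginal E.μ (B.erase y) (fun w => c y w * (nS E y h P s z₀).indicator (fun _ => 1) w +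
        ∑ x ∈ B.erase y, c x w * t x w) w := by
        refine lm_mono _ _ (fun w => Set.indicator_apply_le' (fun hw => ?_) fun _ => zero_le) w
        have hw' : ∀ x ∈ B.erase y, w ∈ nS E y h P s x := by simpa using hw
        refine (ENNReal.ofReal_le_ofReal (expand hB b w)).trans
          (ENNReal.ofReal_add_le.trans (add_le_add ?_ ?_))
        · rw [Set.indicator_of_mem (hw' z₀ hz), mul_one]
        · rw [ENNReal.ofReal_sum_of_nonneg fun _ _ => by positivity]
          refine sum_le_sum fun x hx => ?_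
          simp only [t, Set.indicator_of_mem (hw' x hx)]
          rw [ENNReal.ofReal_mul (by positivity)]
    _ ≤ c y w * ENNReal.ofReal (10 * P ^ 6 * s ^ 4) + ∑ x ∈ B.erase y, c x w *
        (ENNReal.ofReal (8 * P ^ 2 * win x) * ENNReal.ofReal (10 * P ^ 6 * s ^ 4)) := by
        rw [lm_add _ _ ((hcm y).fun_mul h1), lm_sum _ _ _ fun x _ => (hcm x).fun_mul (ht x),
          lm_mul _ E.r _ (hc y) h1]
        refine add_le_add (mul_le_mul_right (pbad hB hz w) _) (sum_le_sum fun x hx => ?_)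
        rw [lm_mul _ E.r _ (hc x) (ht x)]
        exact mul_le_mul_right (term hB hx w) _
    _ = ENNReal.ofReal (10 * P ^ 7 * s ^ 4 * (‖E.GG y h (fz E.r B w) y b‖ ^ 2 +
        8 * P ^ 2 * ∑ x ∈ B.erase y, win x * ‖E.GG y h (fz E.r B w) x b‖ ^ 2)) := by
        rw [mul_add, ENNReal.ofReal_add (by positivity) (mul_nonneg (by positivity)
          (mul_nonneg (by positivity) (sum_nonneg fun x hx => mul_nonneg (hw0 x hx) (sq_nonneg _)))),
          mul_sum, mul_sum, ENNReal.ofReal_sum_of_nonneg fun x hx => by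
            have := hw0 x hx; positivity]
        refine congrArg₂ _ ?_ (sum_congr rfl fun x hx => ?_)
        · simp only [c]; rw [← ENNReal.ofReal_mul (by positivity)]; congr 1; ring
        · have := hw0 x hx
          simp only [c]
          rw [← ENNReal.ofReal_mul (by positivity), ← ENNReal.ofReal_mul (by positivity)]
          congr 1; ring
    _ ≤ _ := by
        rw [← ENNReal.ofReal_sum_of_nonneg fun _ _ => sq_nonneg _,
          ← ENNReal.ofReal_mul (by positivity), ← ENNReal.ofReal_add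
            (sum_nonneg fun _ _ => sq_nonneg _) (by positivity),
          ← ENNReal.ofReal_mul (by positivity)]
        refine ENNReal.ofReal_le_ofReal ?_
        have h2 := hB.flux_le hb w
        have h3 : 0 ≤ ∑ x ∈ B.erase y, win x * ‖E.GG y h (fz E.r B w) x b‖ ^ 2 :=
          sum_nonneg fun x hx => mul_nonneg (hw0 x hx) (sq_nonneg _)
        have h4 := sq_nonneg ‖E.GG y h (fz E.r B w) y b‖
        have h5 : 0 ≤ ∑ z ∈ Z, ‖Gr E.G E.η (fz E.r B w) z b‖ ^ 2 +
            s ^ 8 * ‖Gr E.G E.η (fz E.r B w) y b‖ ^ 2 :=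
          add_nonneg (sum_nonneg fun _ _ => sq_nonneg _) (by positivity)
        generalize ∑ x ∈ B.erase y, win x * ‖E.GG y h (fz E.r B w) x b‖ ^ 2 = a at *
        generalize ‖E.GG y h (fz E.r B w) y b‖ ^ 2 = a' at *
        generalize ∑ z ∈ Z, ‖Gr E.G E.η (fz E.r B w) z b‖ ^ 2 +
            s ^ 8 * ‖Gr E.G E.η (fz E.r B w) y b‖ ^ 2 = d at *
        have h6 : a' + 8 * P ^ 2 * a ≤ 8 * P ^ 2 * (P ^ 12 * d) :=
          le_trans (by nlinarith [mul_nonneg h4 (show (0 : ℝ) ≤ 8 * P ^ 2 - 1 by nlinarith)])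
            (mul_le_mul_of_nonneg_left h2 (by positivity))
        refine (mul_le_mul_of_nonneg_left h6 (by positivity)).trans ?_
        have h7 : 0 ≤ P ^ 21 * s ^ 4 * d := by positivity
        nlinarith

end BP

end Crest.Agent.N334.T
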