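import Crest.Agent.N334.T.Mat

/-!
# Row 334, engine T: the cavity at one site (leaf T-Cav)
-/

set_option autoImplicit false
set_option linter.unusedSectionVars false

open MeasureTheory Complex Finset Function
open scoped ENNReal

namespace Crest.Agent.N334.T

variable {V : Type} [Fintype V] [DecidableEq V] {G : SimpleGraph V} {η : ℝ}

namespace Cv

lemma cl_rem (hη1 : η ≤ 1) (w : V → ℂ) (x : V) : cl (rem η {x} w x) - η * I = -I := by
  rw [rem, fz_mem (mem_singleton_self x)]
  apply Complex.ext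
  · simp
  · simp [abs_sub_comm η, abs_of_nonneg (sub_nonneg.2 hη1)]

lemma nbr_cut_self (x : V) : nbr (cut G {x}) x = ∅ :=
  eq_empty_of_forall_notMem fun _ h => (mem_nbr_cut.1 h).2.1 (mem_singleton_self x)

lemma nbr_cut_ne {x p : V} (h : p ≠ x) : nbr (cut G {x}) p = (nbr G p).erase x := by
  ext n
  simp [mem_nbr_cut, h, and_comm]

lemma ne_of_nbr {x n : V} (h : n ∈ nbr G x) : n ≠ x := (mem_nbr.1 h).ne'

lemma row_self (hη : 0 < η) (hη1 : η ≤ 1) (w : V → ℂ) (x y : V) :
    -I * GrR G η {x} w x y = if x = y then 1 else 0 := by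
  have := row (G := cut G {x}) hη (rem η {x} w) x y
  rwa [cl_rem hη1, nbr_cut_self, sum_empty, add_zero] at this

lemma zero_self (hη : 0 < η) (hη1 : η ≤ 1) (w : V → ℂ) {x y : V} (h : y ≠ x) :
    GrR G η {x} w x y = 0 := by
  simpa [h.symm] using row_self (G := G) hη hη1 w x y

lemma row_ne (hη : 0 < η) (hη1 : η ≤ 1) (w : V → ℂ) {x p y : V} (hp : p ≠ x) (hy : y ≠ x) :
    (cl (w p) - η * I) * GrR G η {x} w p y + ∑ n ∈ nbr G p, GrR G η {x} w n y =
      if p = y then 1 else 0 := by
  have := row (G := cut G {x}) hη (rem η {x} w) p y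
  rw [nbr_cut_ne hp, show rem η {x} w p = w p from fz_notMem (by simpa using hp)] at this
  rwa [← sum_erase (f := fun n => GrR G η {x} w n y) _ (zero_self (G := G) hη hη1 w hy)]

/-- Cramer's rule on the diagonal -/
lemma det_mul (hη : 0 < η) (w : V → ℂ) (x : V) :
    (Mx G η w).det * Gr G η w x x = ((Mx G η w).updateRow x (Pi.single x 1)).det := by
  rw [Gr, Matrix.inv_def, Ring.inverse_eq_inv, Matrix.smul_apply, smul_eq_mul,
    mul_inv_cancel_left₀ (det_ne hη w), Matrix.adjugate_apply]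

lemma cof_eq (w : V → ℂ) (x : V) (z : ℂ) :
    ((Mx G η (update w x z)).updateRow x (Pi.single x 1)).det =
      ((Mx (cut G {x}) η (rem η {x} w)).updateRow x (Pi.single x 1)).det := by
  refine Matrix.det_eq_of_forall_row_eq_smul_add_const
    (fun p => if x ∈ nbr G p then 1 else 0) x (if_neg fun h => ne_of_nbr h rfl) fun i j => ?_
  by_cases hi : i = x
  · subst hi
    rw [Matrix.updateRow_self, Matrix.updateRow_self, if_neg fun h => ne_of_nbr h rfl, zero_mul,
      add_zero]
  · rw [Matrix.updateRow_ne hi, Matrix.updateRow_ne hi, Matrix.updateRow_self]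
    by_cases hj : j = x
    · subst hj
      simp [Mx, Matrix.diagonal_apply_ne _ hi, nbr_cut_ne hi]
    · simp [Mx, Matrix.diagonal_apply, nbr_cut_ne hi, hi, hj, rem, fz]

end Cv

open Cv in
/-- Schur complement.  `q p p' = GrR {x} w p p'` off `x`, `0` on the row and column of `x`;
`ρ p = -∑_{n ~ x} q p n`, `ρ x = 1`, `m = η i - ∑_{n ~ x} ρ n`.  `M(z) ρ = (cl z - m) e_x`, so
`Im ⟨ρ, M ρ⟩` gives `Im m = η + ∑_{p ≠ x} dmp |ρ p|²`; check `M(z) (q + ρ ρᵀ/(cl z - m)) = 1` with
`row` for the cut system (there `x` is isolated with diagonal entry `-i`).  Determinant: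
`M(z) (1 + (ρ - e_x) e_xᵀ)` has column `x` equal to `(cl z - m) e_x`; compare with the cut matrix
(`Matrix.det_succ…`/`det_updateCol`/adjugate: both determinants are entry × the same cofactor). -/
lemma exists_cav (hη : 0 < η) (hη1 : η ≤ 1) (w : V → ℂ) (x : V) :
    ∃ m ρ q, Cav G η w x m ρ q := by
  let q : V → V → ℂ := fun p p' => if p' = x then 0 else GrR G η {x} w p p'
  have q1 : ∀ p, q p x = 0 := fun p => if_pos rfl
  have q2 : ∀ p p', p' ≠ x → q p p' = GrR G η {x} w p p' := fun p p' h => if_neg h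
  have q3 : ∀ p, q x p = 0 := fun p => by
    by_cases h : p = x
    · rw [h, q1]
    · rw [q2 _ _ h, zero_self hη hη1 w h]
  have q4 : ∀ p p', q p p' = q p' p := fun p p' => by
    by_cases h : p = x
    · rw [h, q1, q3]
    by_cases h' : p' = x
    · rw [h', q1, q3]
    · rw [q2 _ _ h, q2 _ _ h']
      exact Gr_symm _ _ _
  have q5 : ∀ p, p ≠ x → ∀ y, (cl (w p) - η * I) * q p y + ∑ n ∈ nbr G p, q n y =
      if p = y then 1 else 0 := fun p hp y => by
    by_cases h : y = x
    · simp [h, q1, hp]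
    · simp only [q2 _ _ h]
      exact row_ne hη hη1 w hp h
  let ρ : V → ℂ := fun p => (if p = x then 1 else 0) - ∑ n ∈ nbr G x, q p n
  have r1 : ρ x = 1 := by simp [ρ, q3]
  let m : ℂ := η * I - ∑ n ∈ nbr G x, ρ n
  have r2 : ∀ z v, (cl (update w x z v) - η * I) * ρ v + ∑ n ∈ nbr G v, ρ n =
      if v = x then cl z - m else 0 := fun z v => by
    by_cases h : v = x
    · rw [h, update_self, r1, if_pos rfl]
      simp only [m]
      ring
    · have := sum_congr rfl fun n (_ : n ∈ nbr G x) => q5 v h n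
      rw [sum_add_distrib, ← mul_sum, sum_comm, sum_ite_eq, ← if_congr nbr_symm rfl rfl] at this
      rw [update_of_ne h, if_neg h]
      simp only [ρ, if_neg h, sum_sub_distrib, sum_ite_eq']
      linear_combination -this
  have hne : ∀ z, cl z - m ≠ 0 := fun z h => by
    have := apply_vec (G := G) hη (update w x z) ρ x
    simp only [r2, h, ite_self, mul_zero, sum_const_zero, r1] at this
    exact one_ne_zero this
  have gr : ∀ z p p', Gr G η (update w x z) p p' = q p p' + ρ p * ρ p' / (cl z - m) := by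
    intro z p p'
    have h1 : ∀ v, (cl (update w x z v) - η * I) * (q v p' + ρ v * ρ p' / (cl z - m)) +
        ∑ n ∈ nbr G v, (q n p' + ρ n * ρ p' / (cl z - m)) = if v = p' then 1 else 0 := fun v => by
      have h2 := r2 z v
      have h3 := hne z
      simp only [sum_add_distrib, mul_div_assoc, ← sum_mul]
      by_cases h : v = x
      · rw [if_pos h] at h2
        have h4 : ∑ n ∈ nbr G x, q n p' = (if x = p' then 1 else 0) - ρ p' := by
          simp only [ρ, q4 p', eq_comm (a := x)]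
          ring
        rw [h] at h2 ⊢
        rw [q3, h4]
        linear_combination (ρ p' / (cl z - m)) * h2 + mul_div_cancel₀ (ρ p') h3
      · rw [if_neg h] at h2
        have h4 := q5 v h p'
        rw [update_of_ne h] at h2 ⊢
        linear_combination (ρ p' / (cl z - m)) * h2 + h4
    have := apply_vec (G := G) hη (update w x z) (fun v => q v p' + ρ v * ρ p' / (cl z - m)) p
    simpa only [h1, mul_ite, mul_one, mul_zero, sum_ite_eq', mem_univ, if_true] using this.symm
  have wd : η + ∑ p ∈ univ.erase x, dmp η (w p) * ‖ρ p‖ ^ 2 = m.im := by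
    have h1 := ward (G := G) hη (update w x 0) x
    have h2 : ‖cl 0 - m‖ ^ 2 ≠ 0 := pow_ne_zero _ (norm_ne_zero_iff.2 (hne 0))
    simp only [gr, q1, r1, zero_add, mul_one, norm_div, div_pow, ← mul_div_assoc, ← sum_div] at h1
    rw [one_div, inv_im, ← Complex.sq_norm, div_left_inj' h2, ← add_sum_erase _ _ (mem_univ x),
      update_self, r1, sum_congr rfl fun p hp => by rw [update_of_ne (ne_of_mem_erase hp)]] at h1
    simpa [dmp] using h1
  have w0 : 0 ≤ ∑ p ∈ univ.erase x, dmp η (w p) * ‖ρ p‖ ^ 2 :=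
    sum_nonneg fun p _ => mul_nonneg (dmp_pos hη _).le (sq_nonneg _)
  refine ⟨m, ρ, q, by linarith, r1, fun p hp => by simp [ρ, hp], rfl, fun p => ⟨q1 p, q3 p⟩,
    fun p p' _ h => q2 p p' h, by linarith, gr, fun z => ?_⟩
  have h1 := det_mul (G := G) hη (update w x z) x
  have h2 := det_mul (G := cut G {x}) hη (rem η {x} w) x
  have h3 := row_self (G := G) hη hη1 w x x
  rw [gr, q1, r1, zero_add, mul_one, cof_eq, ← h2, mul_one_div, div_eq_iff (hne z)] at h1
  rw [if_pos rfl, GrR] at h3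
  rw [dt, cut_empty, rem_empty, h1, dt]
  linear_combination (I * (cl z - m) * (Mx (cut G {x}) η (rem η {x} w)).det) * h3 +
    ((cl z - m) * (Mx (cut G {x}) η (rem η {x} w)).det *
      Gr (cut G {x}) η (rem η {x} w) x x) * I_mul_I

namespace Cav

variable {w : V → ℂ} {x : V} {m : ℂ} {ρ : V → ℂ} {q : V → V → ℂ}

lemma update (h : Cav G η w x m ρ q) (z : ℂ) : Cav G η (update w x z) x m ρ q := by
  refine ⟨h.im_ge, h.rho_self, h.rho_eq, h.m_eq, h.q_self, fun p p' a b => ?_, ?_, fun z' => ?_,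
    fun z' => ?_⟩
  · rw [GrR_update_mem (mem_singleton_self x), h.q_eq p p' a b]
  · rw [sum_congr rfl fun p hp => by rw [update_of_ne (ne_of_mem_erase hp)]]
    exact h.ward
  · rw [update_idem]
    exact h.gr z'
  · rw [update_idem, dt_update_mem (mem_singleton_self x)]
    exact h.det z'

lemma ne (h : Cav G η w x m ρ q) (hη : 0 < η) (z : ℂ) : cl z - m ≠ 0 := by
  intro e
  have := congrArg Complex.im e
  rw [sub_im, cl_im, zero_im] at this
  linarith [h.im_ge, abs_nonneg z.im]

/-- Ward for one site -/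
lemma ward1 (h : Cav G η w x m ρ q) (hη : 0 < η) {p : V} (hp : p ≠ x) :
    dmp η (w p) * ‖ρ p‖ ^ 2 ≤ m.im :=
  (single_le_sum (f := fun p => dmp η (w p) * ‖ρ p‖ ^ 2)
    (fun _ _ => mul_nonneg (dmp_pos hη _).le (sq_nonneg _))
    (mem_erase.2 ⟨hp, mem_univ p⟩)).trans h.ward

lemma col (h : Cav G η w x m ρ q) (z : ℂ) (p : V) :
    Gr G η (Function.update w x z) p x = ρ p / (cl z - m) := by
  rw [h.gr, (h.q_self p).1, h.rho_self, zero_add, mul_one]

end Cav

/-- `Cav.det` in the system with `S` removed (`dt_cut`, `rem_update_notMem`) -/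
lemma diag_eq (hη : 0 < η) (hη1 : η ≤ 1) {S : Finset V} {x : V} (hx : x ∉ S) (w : V → ℂ) :
    ‖GrR G η S w x x‖ = ‖dt G η (insert x S) w / dt G η S w‖ := by
  obtain ⟨m, ρ, q, h⟩ := exists_cav (G := cut G S) hη hη1 (rem η S w) x
  have h1 := h.col (rem η S w x) x
  have h2 := h.det (rem η S w x)
  rw [update_eq_self] at h1 h2
  rw [dt_cut, dt_cut, union_empty, union_comm, ← insert_eq] at h2
  rw [GrR, h1, h2, h.rho_self, div_mul_cancel_right₀ (dt_ne hη _ _), norm_inv, norm_mul, norm_I,
    one_mul, one_div, norm_inv]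

/-- `phi T` is a Moebius function of `w x` with the pole of the Green function -/
lemma phi_update (hη : 0 < η) (hη1 : η ≤ 1) {T : Finset V} {x : V} (hx : x ∉ T) {w : V → ℂ}
    {m : ℂ} {ρ : V → ℂ} {q : V → V → ℂ} (h : Cav G η w x m ρ q) :
    ∃ m' : ℂ, η ≤ m'.im ∧ ∀ z z', phi G η T (update w x z) =
      phi G η T (update w x z') * ((cl z - m') / (cl z' - m')) / ((cl z - m) / (cl z' - m)) := by
  obtain ⟨m', ρ', q', h'⟩ := exists_cav (G := cut G T) hη hη1 (rem η T w) x
  refine ⟨m', h'.im_ge, fun z z' => ?_⟩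
  have e : ∀ z, dt G η T (update w x z) = I * (cl z - m') * dt (cut G T) η {x} (rem η T w) :=
    fun z => by rw [← h'.det, ← rem_update_notMem hx, dt_cut, union_empty]
  have h1 := h.ne hη z
  have h2 := h.ne hη z'
  have h3 := h'.ne hη z'
  have h4 := dt_ne (G := G) hη {x} w
  rw [phi, phi, e, e, h.det, h.det]
  field_simp

lemma Thread.mem {P : Finset V} {x z : V} (h : Thread G P x z) : z ∈ P := by
  induction h with
  | nil => exact mem_singleton_self _
  | cons _ _ _ _ _ _ _ _ ih => exact mem_insert_of_mem ih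

/-- induction on the thread: `G(x,z) = G(x,x) ρ_z`, `ρ_z = -GrR {x} z p`, then `diag_eq` -/
lemma Thread.norm_eq (hη : 0 < η) (hη1 : η ≤ 1) {P : Finset V} {x z : V} (h : Thread G P x z)
    (w : V → ℂ) : ‖Gr G η w x z‖ = ‖phi G η P w‖ := by
  induction h generalizing w with
  | nil G z => simpa [phi] using diag_eq (G := G) hη hη1 (notMem_empty z) w
  | cons G P x p z hx hn ht ih =>
    obtain ⟨m, ρ, q, h⟩ := exists_cav (G := G) hη hη1 w x
    have hz : z ≠ x := fun e => hx (e ▸ ht.mem)
    have hp : p ≠ x := Cv.ne_of_nbr (hn ▸ mem_singleton_self p)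
    have h1 := h.col (w x) z
    have h2 := h.col (w x) x
    have h3 := diag_eq (G := G) hη hη1 (notMem_empty x) w
    have h4 := ih (rem η {x} w)
    rw [update_eq_self] at h1 h2
    rw [phi, dt_cut, dt_cut, union_empty, ← insert_eq, Gr_symm] at h4
    rw [GrR_empty, h2, h.rho_self, insert_empty_eq] at h3
    rw [Gr_symm, h1, h.rho_eq z hz, hn, sum_singleton, h.q_eq z p hz hp, div_eq_mul_one_div,
      norm_mul, norm_neg, h3, GrR, h4, ← norm_mul, div_mul_div_cancel₀ (dt_ne hη _ _), phi]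

/-- induction on `T` (strengthen: for all `S ⊆ T`): `diag_eq` and `diag_ge` in the cut system -/
lemma phi_ge (hd : Deg G) (hη : 0 < η) (hη1 : η ≤ 1) {L : ℝ} (hL : 100 ≤ L) {w : V → ℂ}
    {T : Finset V} (hT : ∀ t ∈ T, ‖w t‖ ≤ L ∧ ∀ n ∈ nbr G t, L⁻¹ ≤ dmp η (w n)) :
    (L ^ (2 * T.card))⁻¹ ≤ ‖phi G η T w‖ := by
  induction T using Finset.induction_on with
  | empty => simp [phi, dt_ne hη]
  | insert x S hx ih =>
    have h1 := hT x (mem_insert_self x S)
    have h2 := diag_ge (hd.cut S) hη hη1 hL (w := rem η S w) (x := x)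
      (by rw [rem, fz_notMem hx]; exact h1.1) fun n hn => by
        rw [rem, fz_notMem (mem_nbr_cut.1 hn).2.2]
        exact h1.2 n (mem_nbr_cut.1 hn).1
    rw [card_insert_of_notMem hx, mul_add_one, add_comm, pow_add, mul_inv, phi,
      ← div_mul_div_cancel₀ (dt_ne (G := G) hη S w), norm_mul, ← diag_eq hη hη1 hx]
    exact mul_le_mul h2 (ih fun t ht => hT t (mem_insert_of_mem ht)) (by positivity) (norm_nonneg _)

end Crest.Agent.N334.T
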