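import Crest.Agent.N334.T.Mat

/-!
# Row 334, engine T: one-site integral inequalities (leaf T-Law)
-/

set_option autoImplicit false

open MeasureTheory Complex Finset Function
open scoped ENNReal

namespace Crest.Agent.N334.T

lemma nlog_pos {a : ℝ} (ha : 0 < a) : nlog a = ENNReal.ofReal (-Real.log a) := if_neg ha.ne'
@[simp] lemma nlog_zero : nlog 0 = ⊤ := if_pos rfl

@[fun_prop] lemma measurable_nlog : Measurable nlog := by
  unfold nlog
  exact Measurable.ite (measurableSet_eq_fun measurable_id measurable_const) measurable_const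
    Real.measurable_log.neg.ennreal_ofReal

lemma nlog_mul {a b : ℝ} (ha : 0 ≤ a) (hb : 0 ≤ b) : nlog (a * b) ≤ nlog a + nlog b := by
  rcases ha.eq_or_lt with rfl | ha
  · simp
  rcases hb.eq_or_lt with rfl | hb
  · simp
  rw [nlog_pos ha, nlog_pos hb, nlog_pos (mul_pos ha hb), Real.log_mul ha.ne' hb.ne', neg_add]
  exact ENNReal.ofReal_add_le

lemma nlog_mul_eq {a b : ℝ} (ha : 0 ≤ a) (ha1 : a ≤ 1) (hb : 0 ≤ b) (hb1 : b ≤ 1) :
    nlog (a * b) = nlog a + nlog b := by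
  rcases ha.eq_or_lt with rfl | ha
  · simp
  rcases hb.eq_or_lt with rfl | hb
  · simp
  rw [nlog_pos ha, nlog_pos hb, nlog_pos (mul_pos ha hb), Real.log_mul ha.ne' hb.ne', neg_add]
  exact ENNReal.ofReal_add (neg_nonneg.2 (Real.log_nonpos ha.le ha1))
    (neg_nonneg.2 (Real.log_nonpos hb.le hb1))

lemma nlog_anti {a b : ℝ} (ha : 0 ≤ a) (hab : a ≤ b) : nlog b ≤ nlog a := by
  rcases ha.eq_or_lt with rfl | ha
  · simp
  rw [nlog_pos ha, nlog_pos (ha.trans_le hab)]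
  exact ENNReal.ofReal_le_ofReal (neg_le_neg (Real.log_le_log ha hab))

/-- Jensen: `f² = B² e^{-2ℓ} ≥ B² e^{-2a} (1 + 2a - 2ℓ)` with `ℓ = nlog (f / B)`; here
`a = -log (c / B) + κ` -/
lemma jensen {X : Type} [MeasurableSpace X] (P : Measure X) [IsProbabilityMeasure P] {f : X → ℝ}
    (hf : Measurable f) {B c κ : ℝ} (hB : 0 < B) (h0 : ∀ x, 0 ≤ f x) (h1 : ∀ x, f x ≤ B)
    (hc : 0 ≤ c) (hcB : c ≤ B) (hκ : 0 ≤ κ)
    (h : ∫⁻ x, nlog (f x / B) ∂P ≤ nlog (c / B) + ENNReal.ofReal κ) :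
    ENNReal.ofReal (Real.exp (-(2 * κ)) * c ^ 2) ≤ ∫⁻ x, ENNReal.ofReal (f x ^ 2) ∂P := by
  rcases hc.eq_or_lt with rfl | hc
  · simp
  set K : ℝ := Real.exp (-(2 * κ)) * c ^ 2 with hK
  have hK0 : 0 < K := by positivity
  set a : ℝ := -Real.log (c / B) + κ with ha
  have hl0 : 0 ≤ -Real.log (c / B) :=
    neg_nonneg.2 (Real.log_nonpos (by positivity) ((div_le_one hB).2 hcB))
  have ha0 : 0 ≤ a := add_nonneg hl0 hκ
  have h' : ∫⁻ x, nlog (f x / B) ∂P ≤ ENNReal.ofReal a := by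
    rwa [nlog_pos (div_pos hc hB), ← ENNReal.ofReal_add hl0 hκ] at h
  have hpt : ∀ x, ENNReal.ofReal K + ENNReal.ofReal (2 * K * a) ≤
      ENNReal.ofReal (f x ^ 2) + ENNReal.ofReal (2 * K) * nlog (f x / B) := by
    intro x
    rcases (h0 x).eq_or_lt with hx | hx
    · rw [← hx, zero_div, nlog_zero, ENNReal.mul_top (by simpa using hK0)]
      simp
    have hl : 0 ≤ -Real.log (f x / B) :=
      neg_nonneg.2 (Real.log_nonpos (by positivity) ((div_le_one hB).2 (h1 x)))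
    rw [nlog_pos (div_pos hx hB), ← ENNReal.ofReal_mul (by positivity),
      ← ENNReal.ofReal_add (by positivity) (by positivity),
      ← ENNReal.ofReal_add (by positivity) (by positivity)]
    apply ENNReal.ofReal_le_ofReal
    have e1 : a + Real.log (f x / B) = κ + Real.log (f x / c) := by
      rw [ha, Real.log_div hc.ne' hB.ne', Real.log_div hx.ne' hB.ne', Real.log_div hx.ne' hc.ne']
      ring
    have e2 := Real.add_one_le_exp (2 * (κ + Real.log (f x / c)))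
    have e3 : K * Real.exp (2 * (κ + Real.log (f x / c))) = f x ^ 2 := by
      rw [hK, mul_add, Real.exp_add, Real.exp_neg,
        show 2 * Real.log (f x / c) = Real.log (f x / c) + Real.log (f x / c) by ring,
        Real.exp_add, Real.exp_log (div_pos hx hc)]
      field_simp
    have e4 := mul_le_mul_of_nonneg_left e2 hK0.le
    rw [e3, ← e1] at e4
    nlinarith
  have hint := lintegral_mono (μ := P) hpt
  rw [lintegral_const, measure_univ, mul_one, lintegral_add_left (by fun_prop),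
    lintegral_const_mul _ (by fun_prop)] at hint
  have h2 : ENNReal.ofReal (2 * K) * ∫⁻ x, nlog (f x / B) ∂P ≤ ENNReal.ofReal (2 * K * a) := by
    rw [ENNReal.ofReal_mul (p := 2 * K) (by positivity)]
    gcongr
  exact ENNReal.le_of_add_le_add_right ENNReal.ofReal_ne_top (hint.trans (by gcongr))

/-- `X ≤ a + log 2 * #{j | a + j log 2 < X}` -/
lemma lintegral_le_of_tail {X : Type} [MeasurableSpace X] (P : Measure X) [IsProbabilityMeasure P]
    {f : X → ℝ≥0∞} (hf : Measurable f) {a : ℝ} (ha : 0 ≤ a)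
    (h : ∀ j : ℕ, P {x | ENNReal.ofReal (a + j * Real.log 2) < f x} ≤ 2⁻¹ ^ j) :
    ∫⁻ x, f x ∂P ≤ ENNReal.ofReal (a + 2 * Real.log 2) := by
  have hl : 0 < Real.log 2 := Real.log_pos one_lt_two
  set A : ℕ → Set X := fun j => {x | ENNReal.ofReal (a + j * Real.log 2) < f x} with hA
  have hAm : ∀ j, MeasurableSet (A j) := fun j => measurableSet_lt measurable_const hf
  have hpt : ∀ x, f x ≤ ENNReal.ofReal a +
      ∑' j : ℕ, (A j).indicator (fun _ => ENNReal.ofReal (Real.log 2)) x := by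
    intro x
    by_cases hex : ∃ n : ℕ, f x ≤ ENNReal.ofReal (a + n * Real.log 2)
    · classical
      refine (Nat.find_spec hex).trans ?_
      rw [ENNReal.ofReal_add ha (by positivity)]
      gcongr
      refine le_trans ?_ (ENNReal.sum_le_tsum (range (Nat.find hex)))
      rw [ENNReal.ofReal_mul (by positivity), ENNReal.ofReal_natCast,
        Finset.sum_congr rfl (g := fun _ => ENNReal.ofReal (Real.log 2))]
      · simp
      · intro j hj
        have hx : x ∈ A j := not_le.1 (Nat.find_min hex (mem_range.1 hj))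
        exact Set.indicator_of_mem hx _
    · have : ∀ j : ℕ, (A j).indicator (fun _ => ENNReal.ofReal (Real.log 2)) x =
          ENNReal.ofReal (Real.log 2) := fun j =>
        Set.indicator_of_mem (s := A j) (not_le.1 (not_exists.1 hex j)) _
      simp only [this]
      rw [ENNReal.tsum_const_eq_top_of_ne_zero (by simpa using hl)]
      simp
  refine (lintegral_mono hpt).trans ?_
  rw [lintegral_add_left measurable_const, lintegral_const, measure_univ, mul_one,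
    lintegral_tsum fun j => (measurable_const.indicator (hAm j)).aemeasurable,
    ENNReal.ofReal_add ha (by positivity)]
  gcongr
  calc ∑' j : ℕ, ∫⁻ x, (A j).indicator (fun _ => ENNReal.ofReal (Real.log 2)) x ∂P
      ≤ ∑' j : ℕ, ENNReal.ofReal (Real.log 2) * 2⁻¹ ^ j := by
        refine ENNReal.tsum_le_tsum fun j => ?_
        rw [lintegral_indicator (hAm j), setLIntegral_const]
        gcongr
        exact h j
    _ = ENNReal.ofReal (2 * Real.log 2) := by
        rw [ENNReal.tsum_mul_left, ENNReal.tsum_geometric_two, mul_comm,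
          ENNReal.ofReal_mul zero_le_two, ENNReal.ofReal_ofNat]

/-- Poisson kernel -/
lemma seg_poisson (a l : ℝ) {m : ℂ} (hm : 0 < m.im) :
    ∫⁻ z, ENNReal.ofReal (m.im / ‖cl z - m‖ ^ 2) ∂seg a l 0 ≤ ENNReal.ofReal 4 := by
  unfold seg
  rw [lintegral_map (by fun_prop) (by fun_prop)]
  refine (setLIntegral_le_lintegral _ _).trans ?_
  obtain ⟨γ, hγm⟩ : ∃ γ : NNReal, (γ : ℝ) = m.im := ⟨⟨m.im, hm.le⟩, rfl⟩
  have hγ : γ ≠ 0 := fun h => hm.ne' (by rw [← hγm, h]; rfl)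
  calc ∫⁻ s : ℝ, ENNReal.ofReal (m.im / ‖cl ((s : ℂ) - (0 : ℝ) * I) - m‖ ^ 2)
      = ∫⁻ s : ℝ, ENNReal.ofReal Real.pi * ProbabilityTheory.cauchyPDF m.re γ s := by
        refine lintegral_congr fun s => ?_
        rw [ProbabilityTheory.cauchyPDF_def, ProbabilityTheory.cauchyPDFReal_def,
          ← ENNReal.ofReal_mul Real.pi_pos.le, Complex.sq_norm, Complex.normSq_apply]
        congr 1
        have := Real.pi_pos
        simp only [ofReal_zero, zero_mul, sub_zero, cl_ofReal, sub_re, ofReal_re, sub_im, ofReal_im,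
          zero_sub, hγm]
        have h2 : 0 < (s - m.re) ^ 2 + m.im ^ 2 := by positivity
        rw [show (s - m.re) * (s - m.re) + -m.im * -m.im = (s - m.re) ^ 2 + m.im ^ 2 by ring]
        field_simp
    _ ≤ ENNReal.ofReal 4 := by
        rw [lintegral_const_mul _ (by fun_prop), ProbabilityTheory.lintegral_cauchyPDF_eq_one _ hγ,
          mul_one]
        exact ENNReal.ofReal_le_ofReal Real.pi_le_four

variable {μ : Measure ℂ} {r : ℂ} {Λ κ : ℝ}

lemma two_inv_pow (j : ℕ) : (2⁻¹ : ℝ≥0∞) ^ j = ENNReal.ofReal ((2 ^ j)⁻¹) := by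
  rw [ENNReal.ofReal_inv_of_pos (by positivity), ENNReal.ofReal_pow zero_le_two,
    ENNReal.ofReal_ofNat, ENNReal.inv_pow]

/-- dyadic shells: with `I = Im m`, `I / |cl z - m|² ≤ ∑_j 4^(1-j) / I * 1{|Re z - Re m| ≤ 2^j I}` -/
lemma U2.u1 (h : U2 μ r Λ) (hΛ : 0 ≤ Λ) {m : ℂ} (hm : 0 < m.im) :
    ∫⁻ z, ENNReal.ofReal ((1 + ‖cl z - cl r‖ ^ 2) * (m.im / ‖cl z - m‖ ^ 2)) ∂μ ≤
      ENNReal.ofReal (8 * Λ) := by
  set A : ℕ → Set ℂ := fun j => {z : ℂ | |z.re - m.re| ≤ 2 ^ j * m.im} with hA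
  have hAm : ∀ j, MeasurableSet (A j) := fun j => measurableSet_le (by fun_prop) measurable_const
  have hpt : ∀ z : ℂ, ENNReal.ofReal ((1 + ‖cl z - cl r‖ ^ 2) * (m.im / ‖cl z - m‖ ^ 2)) ≤
      ∑' j : ℕ, (A j).indicator (fun z => ENNReal.ofReal (4 / (4 ^ j * m.im)) *
        ENNReal.ofReal (1 + ‖cl z - cl r‖ ^ 2)) z := by
    intro z
    have hex : ∃ j : ℕ, |z.re - m.re| ≤ 2 ^ j * m.im := by
      obtain ⟨j, hj⟩ := pow_unbounded_of_one_lt (|z.re - m.re| / m.im) (one_lt_two (α := ℝ))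
      exact ⟨j, ((div_lt_iff₀ hm).1 hj).le⟩
    classical
    refine le_trans ?_ (ENNReal.le_tsum (Nat.find hex))
    have hz : z ∈ A (Nat.find hex) := Nat.find_spec hex
    rw [Set.indicator_of_mem hz, ← ENNReal.ofReal_mul (by positivity), mul_comm]
    apply ENNReal.ofReal_le_ofReal
    refine mul_le_mul_of_nonneg_right ?_ (by positivity)
    have hn : (z.re - m.re) ^ 2 + m.im ^ 2 ≤ ‖cl z - m‖ ^ 2 := by
      rw [Complex.sq_norm, Complex.normSq_apply]
      simp only [sub_re, cl_re, sub_im, cl_im]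
      nlinarith [abs_nonneg z.im]
    have hn0 : 0 < ‖cl z - m‖ ^ 2 := lt_of_lt_of_le (by positivity) hn
    rw [div_le_div_iff₀ hn0 (by positivity)]
    rcases Nat.eq_zero_or_pos (Nat.find hex) with h0 | h0
    · rw [h0]
      nlinarith [sq_nonneg (z.re - m.re)]
    · obtain ⟨k, hk⟩ := Nat.exists_eq_succ_of_ne_zero h0.ne'
      have h1 : 2 ^ k * m.im < |z.re - m.re| := not_le.1 (Nat.find_min hex (by omega))
      have h2 : (2 ^ k * m.im) ^ 2 ≤ (z.re - m.re) ^ 2 := by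
        rw [← sq_abs (z.re - m.re)]
        gcongr
      have h3 : ((2 : ℝ) ^ k) ^ 2 = 4 ^ k := by rw [← pow_mul, mul_comm, pow_mul]; norm_num
      rw [mul_pow, h3] at h2
      rw [hk, pow_succ]
      nlinarith [sq_nonneg m.im]
  refine (lintegral_mono hpt).trans ?_
  rw [lintegral_tsum fun j => (Measurable.indicator (by fun_prop) (hAm j)).aemeasurable]
  calc _ ≤ ∑' j : ℕ, ENNReal.ofReal (4 * Λ) * 2⁻¹ ^ j := by
        refine ENNReal.tsum_le_tsum fun j => ?_
        rw [lintegral_indicator (hAm j), lintegral_const_mul _ (by fun_prop)]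
        refine (mul_le_mul_right (h m.re (2 ^ j * m.im) (by positivity)) _).trans (le_of_eq ?_)
        rw [← ENNReal.ofReal_mul (by positivity), two_inv_pow,
          ← ENNReal.ofReal_mul (by positivity)]
        congr 1
        rw [show (4 : ℝ) ^ j = 2 ^ j * 2 ^ j by rw [← mul_pow]; norm_num]
        field_simp
    _ = ENNReal.ofReal (8 * Λ) := by
        rw [ENNReal.tsum_mul_left, ENNReal.tsum_geometric_two, ← ENNReal.ofReal_ofNat 2,
          ← ENNReal.ofReal_mul (by positivity)]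
        congr 1
        ring

lemma U2.meas_le (h : U2 μ r Λ) {E : Set ℂ} (hE : MeasurableSet E) {x l k M : ℝ} (hl : 0 ≤ l)
    (hk : 0 < k) (hs : ∀ z ∈ E, |z.re - x| ≤ l) (hw : ∀ z ∈ E, k ≤ 1 + ‖cl z - cl r‖ ^ 2)
    (hM : Λ * l ≤ M * k) : μ E ≤ ENNReal.ofReal M := by
  have h1 : ENNReal.ofReal k * μ E ≤ ENNReal.ofReal (k * M) := by
    rw [← setLIntegral_const]
    calc ∫⁻ _ in E, ENNReal.ofReal k ∂μ
        ≤ ∫⁻ z in E, ENNReal.ofReal (1 + ‖cl z - cl r‖ ^ 2) ∂μ :=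
          setLIntegral_mono' hE fun z hz => ENNReal.ofReal_le_ofReal (hw z hz)
      _ ≤ ∫⁻ z in {z : ℂ | |z.re - x| ≤ l}, ENNReal.ofReal (1 + ‖cl z - cl r‖ ^ 2) ∂μ :=
          lintegral_mono_set fun z hz => hs z hz
      _ ≤ _ := (h x l hl).trans (ENNReal.ofReal_le_ofReal (by linarith))
  rw [ENNReal.ofReal_mul hk.le] at h1
  exact (ENNReal.mul_le_mul_iff_right (by simpa using hk) ENNReal.ofReal_ne_top).1 h1

lemma Law0.abs_im_pos (h : Law0 μ r Λ) : 0 < |r.im| :=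
  lt_of_lt_of_le (inv_pos.2 (by linarith [h.big])) h.sig

lemma Law0.small_ev (h : Law0 μ r Λ) (α : ℂ) {ε : ℝ} (hε : 0 ≤ ε) (hε1 : ε ≤ 1 / 2) :
    μ {z | ‖α + (cl z - cl r)‖ ≤ ε * (‖α‖ + |r.im|)} ≤ ENNReal.ofReal (3 * Λ ^ 2 * ε) := by
  have hΛ := h.big
  have hσ := h.abs_im_pos
  have hσΛ : |r.im| ≤ Λ := (Complex.abs_im_le_norm r).trans h.nr
  have hE : MeasurableSet {z | ‖α + (cl z - cl r)‖ ≤ ε * (‖α‖ + |r.im|)} :=
    measurableSet_le (by fun_prop) measurable_const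
  have hs : ∀ z ∈ {z | ‖α + (cl z - cl r)‖ ≤ ε * (‖α‖ + |r.im|)},
      |z.re - (r.re - α.re)| ≤ ε * (‖α‖ + |r.im|) := by
    intro z hz
    refine le_trans (le_of_eq ?_) ((Complex.abs_re_le_norm _).trans hz)
    simp only [add_re, sub_re, cl_re]
    congr 1
    ring
  rcases le_or_gt ‖α‖ (2 * Λ) with hα | hα
  · refine h.u2.meas_le hE (by positivity) one_pos hs (fun z _ => by simp) ?_
    have : ε * (‖α‖ + |r.im|) ≤ ε * (3 * Λ) := by gcongr; linarith
    nlinarith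
  · have hα0 : 0 < ‖α‖ := by linarith
    refine h.u2.meas_le hE (by positivity) (k := (‖α‖ / 4) ^ 2) (by positivity) hs ?_ ?_
    · intro z hz
      have h1 : ‖α‖ ≤ ‖α + (cl z - cl r)‖ + ‖cl z - cl r‖ := by
        simpa using norm_sub_le (α + (cl z - cl r)) (cl z - cl r)
      have h2 : ε * (‖α‖ + |r.im|) ≤ 1 / 2 * (‖α‖ + ‖α‖ / 2) := by gcongr; linarith
      have h3 : ‖α‖ / 4 ≤ ‖cl z - cl r‖ := by
        have : ‖α + (cl z - cl r)‖ ≤ ε * (‖α‖ + |r.im|) := hz
        linarith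
      have h4 : (‖α‖ / 4) ^ 2 ≤ ‖cl z - cl r‖ ^ 2 := by gcongr
      linarith
    · have h1 : ‖α‖ + |r.im| ≤ 3 * Λ * (‖α‖ / 4) ^ 2 := by nlinarith
      calc Λ * (ε * (‖α‖ + |r.im|)) ≤ Λ * (ε * (3 * Λ * (‖α‖ / 4) ^ 2)) := by gcongr
        _ = _ := by ring

lemma exp_tail {c : ℝ} (hc : 0 < c) (j : ℕ) :
    Real.exp (Real.log c + j * Real.log 2) = c * 2 ^ j := by
  rw [Real.exp_add, Real.exp_log hc, ← Real.log_pow, Real.exp_log (by positivity)]

lemma log_add_le {c Λ : ℝ} (hc : 0 < c) (h : 4 * c ≤ Λ ^ 3) :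
    Real.log c + 2 * Real.log 2 ≤ 3 * Real.log Λ := by
  have h1 := Real.log_le_log (by positivity) h
  rw [Real.log_pow, Real.log_mul (by norm_num) hc.ne', show (4 : ℝ) = 2 ^ 2 by norm_num,
    Real.log_pow] at h1
  push_cast at h1
  linarith

/-- `b = 0` trivial; else `α = a / b`: `P(|t + α| ≤ ε (|α| + σ)) ≤ 3 Λ² ε` for `ε ≤ 1/2`
(`|α| ≤ 2Λ`: `u2`; else `|t| ≥ |α| / 4` on the event and the weight of `u2` gives `12 ε`);
`lintegral_le_of_tail` with `a = log (3 Λ²)` -/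
lemma Law0.n1 (h : Law0 μ r Λ) {a b : ℂ} (hab : a ≠ 0 ∨ b ≠ 0) :
    ∫⁻ z, nlog (‖a + b * (cl z - cl r)‖ / (‖a‖ + |r.im| * ‖b‖)) ∂μ ≤
      ENNReal.ofReal (3 * Real.log Λ) := by
  have hΛ := h.big
  have hσ := h.abs_im_pos
  have := h.prob
  rcases eq_or_ne b 0 with rfl | hb
  · have ha : a ≠ 0 := by simpa using hab
    simp [div_self (norm_ne_zero_iff.2 ha), nlog]
  have hb0 : 0 < ‖b‖ := norm_pos_iff.2 hb
  have hD : 0 < ‖a / b‖ + |r.im| := by positivity
  have he : ∀ z, ‖a + b * (cl z - cl r)‖ / (‖a‖ + |r.im| * ‖b‖) =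
      ‖a / b + (cl z - cl r)‖ / (‖a / b‖ + |r.im|) := by
    intro z
    rw [show a + b * (cl z - cl r) = b * (a / b + (cl z - cl r)) by field_simp, norm_mul,
      show ‖a‖ + |r.im| * ‖b‖ = ‖b‖ * (‖a / b‖ + |r.im|) by rw [norm_div]; field_simp,
      mul_div_mul_left _ _ hb0.ne']
  simp only [he]
  have hc : (1 : ℝ) ≤ 3 * Λ ^ 2 := by nlinarith
  refine (lintegral_le_of_tail μ (by fun_prop) (Real.log_nonneg hc) fun j => ?_).trans
    (ENNReal.ofReal_le_ofReal (log_add_le (by positivity) (by nlinarith)))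
  have h2 : (1 : ℝ) ≤ 2 ^ j := one_le_pow₀ one_le_two
  have hε : (3 * Λ ^ 2 * 2 ^ j)⁻¹ ≤ 1 / 2 := by
    rw [one_div]
    exact inv_anti₀ two_pos (by nlinarith)
  refine le_trans (measure_mono fun z hz => ?_)
    ((h.small_ev (a / b) (by positivity) hε).trans (le_of_eq ?_))
  · simp only [Set.mem_ofPred_eq] at hz ⊢
    rw [← div_le_iff₀ hD]
    by_contra hlt
    have h3 := nlog_anti (by positivity) (not_le.1 hlt).le
    rw [nlog_pos (a := (3 * Λ ^ 2 * 2 ^ j)⁻¹) (by positivity), Real.log_inv, neg_neg,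
      ← exp_tail (by positivity), Real.log_exp] at h3
    exact absurd hz (not_lt.2 h3)
  · rw [two_inv_pow]
    congr 1
    field_simp

/-- `u3` and `lintegral_le_of_tail` with `a = log (1 + Λ²)` -/
lemma Law0.n2 (h : Law0 μ r Λ) :
    ∫⁻ z, ENNReal.ofReal (Real.log (1 + ‖cl z - cl r‖ / |r.im|)) ∂μ ≤
      ENNReal.ofReal (3 * Real.log Λ) := by
  have hΛ := h.big
  have hσ := h.abs_im_pos
  have := h.prob
  have hc : (1 : ℝ) ≤ 1 + Λ ^ 2 := by nlinarith
  refine (lintegral_le_of_tail μ (by fun_prop) (Real.log_nonneg hc) fun j => ?_).trans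
    (ENNReal.ofReal_le_ofReal (log_add_le (by positivity) (by nlinarith)))
  have h2 : (1 : ℝ) ≤ 2 ^ j := one_le_pow₀ one_le_two
  refine le_trans (measure_mono fun z hz => ?_)
    ((h.u3 (Λ * 2 ^ j) (by positivity)).trans (le_of_eq ?_))
  · simp only [Set.mem_ofPred_eq] at hz ⊢
    by_contra hle
    have h1 : 1 ≤ |r.im| * Λ := by
      have := mul_le_mul_of_nonneg_right h.sig (by linarith : 0 ≤ Λ)
      rwa [inv_mul_cancel₀ (by linarith)] at this
    have h3 : ‖cl z - cl r‖ / |r.im| ≤ Λ ^ 2 * 2 ^ j := by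
      rw [div_le_iff₀ hσ]
      calc _ ≤ Λ * 2 ^ j * 1 := by linarith [not_lt.1 hle]
        _ ≤ Λ * 2 ^ j * (|r.im| * Λ) := by gcongr
        _ = _ := by ring
    refine absurd hz (not_lt.2 (ENNReal.ofReal_le_ofReal ?_))
    rw [Real.log_le_iff_le_exp (by positivity), exp_tail (by positivity)]
    linarith
  · rw [two_inv_pow]
    congr 1
    field_simp

end Crest.Agent.N334.T
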