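import Crest.Agent.N334.End.Spec

/-!
# Row 334 (helper52): the scalar slice lemma of note 291
-/

set_option autoImplicit false

open MeasureTheory Complex Set
open scoped ENNReal

namespace Crest.Agent.N334.T.Sl

open Crest.Agent.N334.End

lemma lint_pk_le {η : ℝ} (hη : 0 < η) (l α β : ℝ) (h : α ≤ β) :
    ∫⁻ a in Icc α β, ENNReal.ofReal (pk η (l - a)) ≤ ENNReal.ofReal Real.pi := by
  rw [← ofReal_integral_eq_lintegral_ofReal (cont_pk' hη l).integrableOn_Icc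
    (Filter.Eventually.of_forall fun t => pk_nonneg hη.le _), integral_Icc_eq_integral_Ioc,
    ← intervalIntegral.integral_of_le h]
  exact ENNReal.ofReal_le_ofReal (int_pk_le hη _ _ _)

lemma normSq_sub (v : ℝ) (m : ℂ) : ‖(v : ℂ) - m‖ ^ 2 = (m.re - v) ^ 2 + m.im ^ 2 := by
  rw [← normSq_eq_norm_sq, normSq_apply]; simp; ring

lemma ne_pole {m : ℂ} (hm : 0 < m.im) (v : ℝ) : (v : ℂ) - m ≠ 0 := fun h => by
  have := congrArg im h; simp at this; linarith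

/-- upper bound near the pole -/
lemma upper {m : ℂ} (hm : 0 < m.im) (α β : ℂ) {w : ℝ} (hw : 0 ≤ w) :
    ∫⁻ v in Icc (m.re - w) (m.re + w), ENNReal.ofReal (‖α + β / (v - m)‖ ^ 2) ≤
      ENNReal.ofReal (4 * w * ‖α‖ ^ 2 + 8 * ‖β‖ ^ 2 / m.im) := by
  refine (lintegral_mono fun v => (ENNReal.ofReal_le_ofReal (q := 2 * ‖α‖ ^ 2 +
    2 * ‖β‖ ^ 2 / m.im * pk m.im (m.re - v)) ?_).trans ENNReal.ofReal_add_le).trans ?_
  · have : ‖β / (v - m)‖ ^ 2 = ‖β‖ ^ 2 / m.im * pk m.im (m.re - v) := by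
      rw [norm_div, div_pow, normSq_sub, pk]; field_simp
    rw [mul_div_assoc, mul_assoc, ← this]
    nlinarith [pow_le_pow_left₀ (norm_nonneg _) (norm_add_le α (β / (v - m))) 2,
      sq_nonneg (‖α‖ - ‖β / (v - m)‖)]
  · rw [lintegral_add_left measurable_const, setLIntegral_const, Real.volume_Icc,
      ← ENNReal.ofReal_mul (by positivity), ENNReal.ofReal_add (by positivity) (by positivity)]
    refine add_le_add (le_of_eq (by congr 1; ring)) ?_
    simp only [ENNReal.ofReal_mul (by positivity : 0 ≤ 2 * ‖β‖ ^ 2 / m.im)]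
    rw [lintegral_const_mul' _ _ ENNReal.ofReal_ne_top]
    refine (mul_le_mul_right (lint_pk_le hm _ _ _ (by linarith)) _).trans ?_
    rw [← ENNReal.ofReal_mul (by positivity)]
    refine ENNReal.ofReal_le_ofReal ?_
    have := mul_le_mul_of_nonneg_left Real.pi_le_four (by positivity : 0 ≤ 2 * ‖β‖ ^ 2 / m.im)
    linarith [mul_div_assoc 2 (‖β‖ ^ 2) m.im, mul_div_assoc 8 (‖β‖ ^ 2) m.im]

/-- lower bound on a segment at distance `~ w` from the pole -/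
lemma lower {m : ℂ} (hm : 0 < m.im) (α β : ℂ) {w p : ℝ} (hw : 0 < w)
    (h : ∀ v ∈ Icc p (p + w), ‖(v : ℂ) - m‖ ^ 2 ≤ 5 * w ^ 2) :
    ENNReal.ofReal ((w * ‖α‖ ^ 2 + ‖β‖ ^ 2 / w) / 2000) ≤
      ∫⁻ v in Icc p (p + w), ENNReal.ofReal (‖α + β / (v - m)‖ ^ 2) := by
  set F : ℝ → ℝ≥0∞ := fun v => ENNReal.ofReal (‖α + β / (v - m)‖ ^ 2)
  have hF : Measurable F := by fun_prop
  have h1 : ∫⁻ v in Icc p (p + w / 2), F (v + w / 2) ≤ ∫⁻ v in Icc p (p + w), F v := by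
    rw [← lintegral_indicator measurableSet_Icc, ← lintegral_indicator measurableSet_Icc,
      ← lintegral_add_right_eq_self ((Icc p (p + w)).indicator _) (w / 2)]
    refine lintegral_mono fun v => indicator_apply_le' (fun hv => ?_) fun _ => zero_le
    rw [indicator_of_mem (by constructor <;> linarith [hv.1, hv.2])]
  have h2 := add_le_add (lintegral_mono_set (μ := volume) (f := F)
    (Icc_subset_Icc (le_refl p) (by linarith : p + w / 2 ≤ p + w))) h1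
  rw [← lintegral_add_left hF, ← two_mul] at h2
  refine (ENNReal.mul_le_mul_iff_right two_ne_zero ENNReal.ofNat_ne_top).1 <| le_trans ?_
    ((setLIntegral_mono' measurableSet_Icc (f := fun _ => ENNReal.ofReal
    ((‖α‖ ^ 2 + ‖β‖ ^ 2 / w ^ 2) / 500)) fun v hv => ?_).trans h2)
  · rw [setLIntegral_const, Real.volume_Icc, ← ENNReal.ofReal_mul (by positivity),
      ← ENNReal.ofReal_ofNat 2, ← ENNReal.ofReal_mul (by positivity)]
    exact le_of_eq (by congr 1; field_simp; ring)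
  · rw [← ENNReal.ofReal_add (by positivity) (by positivity)]
    refine ENNReal.ofReal_le_ofReal ?_
    have h3 := h v ⟨hv.1, by linarith [hv.2]⟩
    have h4 := h (v + w / 2) ⟨by linarith [hv.1], by linarith [hv.2]⟩
    have n1 := ne_pole hm v
    have n2 := ne_pole hm (v + w / 2)
    set x := α + β / (v - m) with hx
    set y := α + β / ((v + w / 2 : ℝ) - m) with hy
    have e1 : α * (w / 2 : ℝ) = y * ((v + w / 2 : ℝ) - m) - x * (v - m) := by
      rw [hx, hy, add_mul, add_mul, div_mul_cancel₀ _ n1, div_mul_cancel₀ _ n2]; push_cast; ring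
    have e2 : β = (x - α) * (v - m) := by rw [hx, add_sub_cancel_left, div_mul_cancel₀ _ n1]
    have k1 := pow_le_pow_left₀ (norm_nonneg _) ((congrArg norm e1).trans_le (norm_sub_le _ _)) 2
    rw [norm_mul, norm_mul, norm_mul, norm_real, Real.norm_of_nonneg (by positivity)] at k1
    have k2 : ‖α‖ ^ 2 ≤ 40 * (‖x‖ ^ 2 + ‖y‖ ^ 2) := by
      refine le_of_mul_le_mul_right ?_ (by positivity : 0 < w ^ 2)
      nlinarith [sq_nonneg (‖y‖ * ‖((v + w / 2 : ℝ) : ℂ) - m‖ - ‖x‖ * ‖(v : ℂ) - m‖),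
        mul_le_mul_of_nonneg_left h3 (sq_nonneg ‖x‖), mul_le_mul_of_nonneg_left h4 (sq_nonneg ‖y‖)]
    have k3 : ‖β‖ ^ 2 / w ^ 2 ≤ 5 * ‖x - α‖ ^ 2 := by
      rw [div_le_iff₀ (by positivity), e2, norm_mul, mul_pow]
      nlinarith [mul_le_mul_of_nonneg_left h3 (sq_nonneg ‖x - α‖)]
    nlinarith [pow_le_pow_left₀ (norm_nonneg _) (norm_sub_le x α) 2, sq_nonneg (‖x‖ - ‖α‖)]

/-- the absorbed part `Re e - |e|²` is controlled by positivity alone -/
lemma absorbed_le {m e k : ℂ} (hm : 0 < m.im) (he : ‖e‖ ≤ 1 / 2)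
    (h : ∀ v : ℝ, ‖e + k / (v - m)‖ ^ 2 ≤ (e + k / (v - m)).re) (v : ℝ) :
    (e + k / (v - m)).re - ‖e + k / (v - m)‖ ^ 2 ≤ 3 * ‖e‖ + 4 * ‖k‖ * m.im / ‖(v : ℂ) - m‖ ^ 2 := by
  set l := k * (1 - 2 * (starRingEnd ℂ) e) with hl
  set n := e.re - ‖e‖ ^ 2 with hn
  set B := -l.im * m.im - ‖k‖ ^ 2 with hB
  have h0 : ∀ v : ℝ, 0 < (v - m.re) ^ 2 + m.im ^ 2 := fun v => by positivity
  have h1 : ∀ v : ℝ, (e + k / (v - m)).re - ‖e + k / (v - m)‖ ^ 2 =
      n + (l.re * (v - m.re) + B) / ((v - m.re) ^ 2 + m.im ^ 2) := fun v => by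
    have := h0 v
    simp only [hn, hB, hl, ← normSq_eq_norm_sq, normSq_apply, add_re, add_im, div_re, div_im, sub_re,
      sub_im, ofReal_re, ofReal_im, mul_re, mul_im, one_re, one_im, conj_re, conj_im, re_ofNat,
      im_ofNat, zero_sub, ← sq]
    field_simp; ring
  have h2 : ∀ t : ℝ, 0 ≤ n * (t * t) + l.re * t + (n * m.im ^ 2 + B) := fun t => by
    have := sub_nonneg.2 (h (t + m.re))
    rw [h1, add_sub_cancel_right, add_div' _ _ _ (by positivity), le_div_iff₀ (by positivity)] at this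
    linarith
  have h3 : ∀ t : ℝ, l.re * t ≤ n * (t * t) + (n * m.im ^ 2 + B) := fun t => by linarith [h2 (-t)]
  have h4 : n ≤ ‖e‖ := by linarith [re_le_norm e, sq_nonneg ‖e‖]
  have h5 : B ≤ 2 * ‖k‖ * m.im := by
    have : ‖l‖ ≤ ‖k‖ * 2 := by
      rw [hl, norm_mul]
      refine mul_le_mul_of_nonneg_left ((norm_sub_le _ _).trans ?_) (norm_nonneg _)
      simp only [norm_one, norm_mul, norm_ofNat, norm_conj]; linarith
    nlinarith [neg_abs_le l.im, abs_im_le_norm l, sq_nonneg ‖k‖]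
  rw [h1, normSq_sub, sub_sq_comm m.re, ← sub_nonneg, show ∀ a b c d D : ℝ, a + b / D - (c + d / D) =
    a - c + (b - d) / D from fun _ _ _ _ _ => by ring, add_div' _ _ _ (h0 v).ne']
  refine div_nonneg ?_ (h0 v).le
  nlinarith [h3 (v - m.re), mul_le_mul_of_nonneg_right h4 (h0 v).le,
    mul_nonneg (norm_nonneg e) (h0 v).le]

/-- **Slice lemma.** `e v = e₀ + k/(v-m)` is the distance to the good phase, `α + β/(v-m)` the wave. -/
theorem slice {μ : Measure ℝ} {c η a b e₁ e₀ γ : ℝ} {m e k : ℂ} (α β : ℂ) (hη : 0 < η) (ha : 0 < a)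
    (hb : 0 ≤ b) (hγ : 0 < γ) (h1 : 0 < e₁) (h10 : 72 * e₁ ≤ e₀) (h0 : e₀ ≤ 1) (hm : 0 < m.im)
    (hk : ‖k‖ ≤ m.im) (hpos : ∀ v : ℝ, ‖e + k / (v - m)‖ ^ 2 ≤ (e + k / (v - m)).re)
    (hlo : ENNReal.ofReal a • volume.restrict (Icc (c - η) (c + η)) ≤ μ)
    (hup : μ ≤ ENNReal.ofReal b • volume.restrict (Icc (c - η) (c + η)))
    (hS : μ {v | e₁ < ‖e + k / (v - m)‖} < ENNReal.ofReal (a * (η / 2))) :
    ∫⁻ v in {v : ℝ | e₀ < ‖e + k / (v - m)‖}, ENNReal.ofReal (‖α + β / (v - m)‖ ^ 2) ∂μ ≤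
      ENNReal.ofReal (10 ^ 6 * (b / a) * (e₀ + (γ + e₁) / e₀)) *
        ∫⁻ v in {v : ℝ | ‖e + k / (v - m)‖ ≤ e₀}, ENNReal.ofReal (‖α + β / (v - m)‖ ^ 2 /
          (γ + ((e + k / (v - m)).re - ‖e + k / (v - m)‖ ^ 2))) ∂μ := by
  have np := ne_pole hm
  have he0 : 0 < e₀ := by linarith
  have hgood : ∀ p, c - η ≤ p → p + η / 2 ≤ c + η →
      ∃ v ∈ Icc p (p + η / 2), ‖e + k / (v - m)‖ ≤ e₁ := fun p p1 p2 => by
    by_contra hc
    push Not at hc
    refine hS.not_ge (le_trans ?_ ((hlo _).trans (measure_mono (s := Icc p (p + η / 2)) hc)))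
    rw [Measure.smul_apply, Measure.restrict_apply measurableSet_Icc,
      inter_eq_left.2 (Icc_subset_Icc p1 p2), Real.volume_Icc, smul_eq_mul,
      ← ENNReal.ofReal_mul ha.le, add_sub_cancel_left]
  obtain ⟨v₁, i1, g1⟩ := hgood (c - η) le_rfl (by linarith)
  obtain ⟨v₂, i2, g2⟩ := hgood (c + η / 2) (by linarith) (by linarith)
  have hmB : MeasurableSet {v : ℝ | e₀ < ‖e + k / (v - m)‖} := measurableSet_lt (by fun_prop) (by fun_prop)
  refine (lintegral_mono' (Measure.restrict_mono subset_rfl hup) le_rfl).trans ?_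
  rw [Measure.restrict_smul, Measure.restrict_restrict hmB, lintegral_smul_measure]
  rcases ({v : ℝ | e₀ < ‖e + k / (v - m)‖} ∩ Icc (c - η) (c + η)).eq_empty_or_nonempty with hE | hE
  · simp [hE]
  obtain ⟨v₀, b0, i0⟩ := hE
  have hd : ∀ v v' : ℝ, ‖e + k / (v - m) - (e + k / (v' - m))‖ * (‖(v : ℂ) - m‖ * ‖(v' : ℂ) - m‖) =
      ‖k‖ * |v' - v| := fun v v' => by
    rw [← norm_mul, ← norm_mul, ← Real.norm_eq_abs, ← norm_real, ← norm_mul]
    congr 1; have := np v; have := np v'; push_cast; field_simp; ring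
  have ht : ∀ v v' : ℝ, ‖(v : ℂ) - m‖ ≤ ‖(v' : ℂ) - m‖ + |v - v'| := fun v v' => by
    rw [← Real.norm_eq_abs, ← norm_real, add_comm]
    exact (norm_sub_le_norm_sub_add_norm_sub _ (v' : ℂ) _).trans_eq (by push_cast; rfl)
  have q0 := norm_pos_iff.2 (np v₀)
  have q1 := norm_pos_iff.2 (np v₁)
  have q2 := norm_pos_iff.2 (np v₂)
  have k1 : ‖k‖ * η ≤ 2 * e₁ * (‖(v₁ : ℂ) - m‖ * ‖(v₂ : ℂ) - m‖) := by
    have := mul_le_mul_of_nonneg_right ((norm_sub_le _ _).trans (add_le_add g1 g2)) (mul_pos q1 q2).le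
    rw [hd, abs_of_nonneg (by linarith [i1.2, i2.1])] at this
    nlinarith [mul_le_mul_of_nonneg_left (show η ≤ v₂ - v₁ by linarith [i1.2, i2.1]) (norm_nonneg k)]
  have a1 : |v₁ - v₀| ≤ 2 * η := abs_le.2 ⟨by linarith [i1.1, i0.2], by linarith [i1.2, i0.1]⟩
  have a2 : |v₂ - v₀| ≤ 2 * η := abs_le.2 ⟨by linarith [i2.1, i0.2], by linarith [i2.2, i0.1]⟩
  have k2 : ‖(v₀ : ℂ) - m‖ ≤ η := by
    have := mul_le_mul_of_nonneg_right ((sub_le_sub (le_of_lt b0) g1).trans (norm_sub_norm_le _ _))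
      (mul_pos q0 q1).le
    rw [hd] at this
    have h2 : (e₀ - e₁) * ‖(v₀ : ℂ) - m‖ ≤ 4 * e₁ * ‖(v₂ : ℂ) - m‖ := le_of_mul_le_mul_right
      (by nlinarith [mul_le_mul_of_nonneg_left a1 (norm_nonneg k)]) q1
    have h3 := mul_le_mul_of_nonneg_left ((ht v₂ v₀).trans (add_le_add_right a2 _)) h1.le
    refine le_of_mul_le_mul_left ?_ h1
    nlinarith [mul_le_mul_of_nonneg_right h10 q0.le, mul_pos h1 hη]
  have t1 : ‖(v₁ : ℂ) - m‖ ≤ 3 * η := by linarith [ht v₁ v₀]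
  have t2 : ‖(v₂ : ℂ) - m‖ ≤ 3 * η := by linarith [ht v₂ v₀]
  have k3 : ‖k‖ ≤ 6 * e₁ * ‖(v₁ : ℂ) - m‖ := le_of_mul_le_mul_right
    (by nlinarith [mul_le_mul_of_nonneg_left t2 (mul_pos h1 q1).le]) hη
  have k4 : ‖e‖ ≤ 7 * e₁ := by
    have := norm_sub_le (e + k / (v₁ - m)) (k / (v₁ - m))
    rw [add_sub_cancel_right, norm_div] at this
    linarith [(div_le_iff₀ q1).2 k3]
  set w := 2 * ‖k‖ / e₀ with hw
  have hwe : w * e₀ = 2 * ‖k‖ := div_mul_cancel₀ _ he0.ne'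
  have k5 : ∀ v : ℝ, w ≤ ‖(v : ℂ) - m‖ → ‖e + k / (v - m)‖ ≤ e₀ := fun v hv => by
    refine (norm_add_le _ _).trans ?_
    have : ‖k‖ / ‖(v : ℂ) - m‖ ≤ e₀ / 2 := by
      rw [div_le_iff₀ (norm_pos_iff.2 (np v))]; nlinarith
    rw [norm_div]; linarith
  have k6 : ‖(v₀ : ℂ) - m‖ < w := not_le.1 fun h => (k5 v₀ h).not_gt b0
  have hw0 := q0.trans k6
  have hre : ∀ v : ℝ, |v - m.re| ≤ ‖(v : ℂ) - m‖ := fun v => by simpa using abs_re_le_norm (v - m)
  have hy : m.im ≤ w := by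
    have := abs_im_le_norm (v₀ - m)
    simp only [sub_im, ofReal_im, zero_sub, abs_neg] at this
    linarith [le_abs_self m.im]
  have hw2 : 2 * w ≤ η := le_of_mul_le_mul_right (by nlinarith [mul_le_mul_of_nonneg_left t1 h1.le]) he0
  obtain ⟨p, p1, p2, p3⟩ : ∃ p, c - η ≤ p ∧ p + w ≤ c + η ∧
      ∀ v ∈ Icc p (p + w), w ≤ |v - m.re| ∧ |v - m.re| ≤ 2 * w := by
    have := abs_le.1 ((hre v₀).trans k6.le)
    rcases le_total c m.re with h | h
    · exact ⟨m.re - 2 * w, by linarith, by linarith [i0.2], fun v hv => by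
        rw [abs_sub_comm, abs_of_nonneg (by linarith [hv.2])]; constructor <;> linarith [hv.1, hv.2]⟩
    · exact ⟨m.re + w, by linarith [i0.1], by linarith, fun v hv => by
        rw [abs_of_nonneg (by linarith [hv.1])]; constructor <;> linarith [hv.1, hv.2]⟩
  set D := γ + 21 * e₁ + 2 * e₀ * m.im / w with hD
  have hD0 : 0 < D := by positivity
  have L1 := (lintegral_mono_set (μ := volume) fun v hv => (by
    have := abs_le.1 ((hre v).trans (not_le.1 fun h => (k5 v h).not_gt hv.1).le)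
    constructor <;> linarith : v ∈ Icc (m.re - w) (m.re + w)) : ∫⁻ v in {v : ℝ | e₀ <
      ‖e + k / (v - m)‖} ∩ Icc (c - η) (c + η), ENNReal.ofReal (‖α + β / (v - m)‖ ^ 2) ≤ _).trans
    (upper hm α β hw0.le)
  have L2 := lower hm α β hw0 (p := p) fun v hv => by
    rw [normSq_sub, sub_sq_comm, ← sq_abs]
    nlinarith [(p3 v hv).2, abs_nonneg (v - m.re)]
  have L3 : ENNReal.ofReal a * (ENNReal.ofReal D⁻¹ * ∫⁻ v in Icc p (p + w),
      ENNReal.ofReal (‖α + β / (v - m)‖ ^ 2)) ≤ ∫⁻ v in {v : ℝ | ‖e + k / (v - m)‖ ≤ e₀},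
        ENNReal.ofReal (‖α + β / (v - m)‖ ^ 2 /
          (γ + ((e + k / (v - m)).re - ‖e + k / (v - m)‖ ^ 2))) ∂μ := by
    refine le_trans ?_ (lintegral_mono' (Measure.restrict_mono (s := Icc p (p + w))
      (fun v hv => k5 v ((p3 v hv).1.trans (hre v))) hlo) le_rfl)
    rw [Measure.restrict_smul, Measure.restrict_restrict measurableSet_Icc,
      inter_eq_left.2 (Icc_subset_Icc p1 p2), lintegral_smul_measure, smul_eq_mul,
      ← lintegral_const_mul' _ _ ENNReal.ofReal_ne_top]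
    refine mul_le_mul_right (setLIntegral_mono' measurableSet_Icc fun v hv => ?_) _
    rw [← ENNReal.ofReal_mul (by positivity), ← div_eq_inv_mul]
    refine ENNReal.ofReal_le_ofReal (div_le_div_of_nonneg_left (by positivity)
      (by linarith [hpos v]) ?_)
    have h2 := absorbed_le hm (by linarith) hpos v
    have h3 : 4 * ‖k‖ * m.im / ‖(v : ℂ) - m‖ ^ 2 ≤ 2 * e₀ * m.im / w :=
      (div_le_div_of_nonneg_left (by positivity) (by positivity) (pow_le_pow_left₀ hw0.le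
        ((p3 v hv).1.trans (hre v)) 2)).trans_eq (by
          rw [show 4 * ‖k‖ = 2 * (w * e₀) by linarith]; field_simp)
    linarith
  refine (mul_le_mul_right L1 _).trans (le_trans ?_ (mul_le_mul_right ((mul_le_mul_right
    (mul_le_mul_right L2 _) _).trans L3) _))
  rw [← ENNReal.ofReal_mul hb, ← ENNReal.ofReal_mul (by positivity), ← ENNReal.ofReal_mul ha.le,
    ← ENNReal.ofReal_mul (by positivity)]
  refine ENNReal.ofReal_le_ofReal ?_
  have h2 : w / m.im * D ≤ 42 * (e₀ + (γ + e₁) / e₀) := by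
    have h3 : w / m.im ≤ 2 / e₀ := by rw [div_le_div_iff₀ hm he0]; linarith
    have h4 : w / m.im * (2 * e₀ * m.im / w) = 2 * e₀ := by field_simp
    have h5 := mul_le_mul_of_nonneg_right h3 (by positivity : 0 ≤ γ + 21 * e₁)
    have h6 : 2 / e₀ * (γ + 21 * e₁) ≤ 42 * ((γ + e₁) / e₀) := by
      rw [div_mul_eq_mul_div, ← mul_div_assoc]
      exact div_le_div_of_nonneg_right (by linarith) he0.le
    rw [hD, mul_add, h4]; linarith
  have h3 : 4 * w * ‖α‖ ^ 2 + 8 * ‖β‖ ^ 2 / m.im ≤ 8 * (w / m.im * (w * ‖α‖ ^ 2 + ‖β‖ ^ 2 / w)) := by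
    have h4 : w / m.im * (‖β‖ ^ 2 / w) = ‖β‖ ^ 2 / m.im := by field_simp
    have h5 := mul_le_mul_of_nonneg_right ((one_le_div hm).2 hy) (by positivity : 0 ≤ w * ‖α‖ ^ 2)
    rw [mul_add, h4, mul_div_assoc]
    nlinarith [mul_nonneg hw0.le (sq_nonneg ‖α‖)]
  have hX : 0 ≤ w * ‖α‖ ^ 2 + ‖β‖ ^ 2 / w := by positivity
  have hZ : 0 ≤ e₀ + (γ + e₁) / e₀ := by positivity
  generalize w * ‖α‖ ^ 2 + ‖β‖ ^ 2 / w = X at h3 hX ⊢
  generalize e₀ + (γ + e₁) / e₀ = Z at h2 hZ ⊢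
  rw [show 10 ^ 6 * (b / a) * Z * (a * (D⁻¹ * (X / 2000))) = b * (500 * (Z / D * X)) by field_simp; ring]
  refine mul_le_mul_of_nonneg_left (h3.trans ?_) hb
  rw [← le_div_iff₀ hD0, mul_div_assoc] at h2
  nlinarith [mul_le_mul_of_nonneg_right h2 hX, mul_nonneg (div_nonneg hZ hD0.le) hX]

end Crest.Agent.N334.T.Sl
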