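import Crest.Agent.N334.T.Defs
import Crest.Agent.N334.T.SliceS

/-!
# Row 334, engine T: the scalar slice lemma (leaf T-Slice)
-/

set_option autoImplicit false
set_option linter.unusedSectionVars false

open MeasureTheory Complex Finset Function
open scoped ENNReal

namespace Crest.Agent.N334.T

namespace Sli

open Set Sl

/-- lower bound on a segment at distance `~ w` from the pole -/
lemma lower {m : ℂ} (hm : 0 < m.im) (α β : ℂ) {w p : ℝ} (hw : 0 < w)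
    (h : ∀ v ∈ Icc p (p + 2 * w), ‖(v : ℂ) - m‖ ^ 2 ≤ 10 * w ^ 2) :
    ENNReal.ofReal ((4 * w * ‖α‖ ^ 2 + 8 * ‖β‖ ^ 2 / w) / 3360) ≤
      ∫⁻ v in Icc p (p + 2 * w), ENNReal.ofReal (‖α + β / (v - m)‖ ^ 2) := by
  set F : ℝ → ℝ≥0∞ := fun v => ENNReal.ofReal (‖α + β / (v - m)‖ ^ 2)
  have hF : Measurable F := by fun_prop
  have h1 : ∫⁻ v in Icc p (p + w), F (v + w) ≤ ∫⁻ v in Icc p (p + 2 * w), F v := by
    rw [← lintegral_indicator measurableSet_Icc, ← lintegral_indicator measurableSet_Icc,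
      ← lintegral_add_right_eq_self ((Icc p (p + 2 * w)).indicator _) w]
    refine lintegral_mono fun v => indicator_apply_le' (fun hv => ?_) fun _ => zero_le
    rw [indicator_of_mem (by constructor <;> linarith [hv.1, hv.2])]
  have h2 := add_le_add (lintegral_mono_set (μ := volume) (f := F)
    (Icc_subset_Icc (le_refl p) (by linarith : p + w ≤ p + 2 * w))) h1
  rw [← lintegral_add_left hF, ← two_mul] at h2
  refine (ENNReal.mul_le_mul_iff_right two_ne_zero ENNReal.ofNat_ne_top).1 <| le_trans ?_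
    ((setLIntegral_mono' measurableSet_Icc (f := fun _ => ENNReal.ofReal
    ((4 * ‖α‖ ^ 2 + 8 * (‖β‖ ^ 2 / w ^ 2)) / 1680)) fun v hv => ?_).trans h2)
  · rw [setLIntegral_const, Real.volume_Icc, ← ENNReal.ofReal_mul (by positivity),
      ← ENNReal.ofReal_ofNat 2, ← ENNReal.ofReal_mul (by positivity)]
    exact le_of_eq (by congr 1; field_simp; ring)
  · rw [← ENNReal.ofReal_add (by positivity) (by positivity)]
    refine ENNReal.ofReal_le_ofReal ?_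
    have h3 := h v ⟨hv.1, by linarith [hv.2]⟩
    have h4 := h (v + w) ⟨by linarith [hv.1], by linarith [hv.2]⟩
    have n1 := ne_pole hm v
    have n2 := ne_pole hm (v + w)
    set x := α + β / (v - m) with hx
    set y := α + β / ((v + w : ℝ) - m) with hy
    have e1 : α * w = y * ((v + w : ℝ) - m) - x * (v - m) := by
      rw [hx, hy, add_mul, add_mul, div_mul_cancel₀ _ n1, div_mul_cancel₀ _ n2]; push_cast; ring
    have e2 : β * w = (x - y) * ((v - m) * ((v + w : ℝ) - m)) := by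
      rw [hx, hy]; field_simp; push_cast; ring
    have k1 := pow_le_pow_left₀ (norm_nonneg _) ((congrArg norm e1).trans_le (norm_sub_le _ _)) 2
    rw [norm_mul, norm_mul, norm_mul, norm_real, Real.norm_of_nonneg hw.le] at k1
    have k2 : ‖α‖ ^ 2 ≤ 20 * (‖x‖ ^ 2 + ‖y‖ ^ 2) := by
      refine le_of_mul_le_mul_right ?_ (by positivity : 0 < w ^ 2)
      nlinarith [sq_nonneg (‖y‖ * ‖((v + w : ℝ) : ℂ) - m‖ - ‖x‖ * ‖(v : ℂ) - m‖),
        mul_le_mul_of_nonneg_left h3 (sq_nonneg ‖x‖), mul_le_mul_of_nonneg_left h4 (sq_nonneg ‖y‖)]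
    have k3 : ‖β‖ ^ 2 / w ^ 2 ≤ 100 * ‖x - y‖ ^ 2 := by
      have k4 := congrArg (fun z => ‖z‖ ^ 2) e2
      simp only [norm_mul, mul_pow, norm_real, Real.norm_of_nonneg hw.le] at k4
      rw [div_le_iff₀ (by positivity)]
      refine le_of_mul_le_mul_right ?_ (by positivity : 0 < w ^ 2)
      rw [k4]
      exact (mul_le_mul_of_nonneg_left (mul_le_mul h3 h4 (by positivity) (by positivity))
        (sq_nonneg _)).trans_eq (by ring)
    nlinarith [pow_le_pow_left₀ (norm_nonneg _) (norm_sub_le x y) 2, sq_nonneg (‖x‖ - ‖y‖)]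

/-- reflection in the pole -/
lemma re_le {m e k : ℂ} (hm : 0 < m.im) (h : ∀ v : ℝ, 0 ≤ (e + k / (v - m)).re) (v : ℝ) :
    (e + k / (v - m)).re ≤ 2 * ‖e‖ + 2 * ‖k‖ * m.im / ‖(v : ℂ) - m‖ ^ 2 := by
  have h0 : 0 < (m.re - v) ^ 2 + m.im ^ 2 := by positivity
  have h1 : (e + k / (v - m)).re + (e + k / ((2 * m.re - v : ℝ) - m)).re =
      2 * e.re + 2 * -k.im * m.im / ((m.re - v) ^ 2 + m.im ^ 2) := by
    have a1 : normSq ((v : ℂ) - m) = (m.re - v) ^ 2 + m.im ^ 2 := by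
      rw [normSq_eq_norm_sq, Sl.normSq_sub]
    have a2 : normSq (((2 * m.re - v : ℝ) : ℂ) - m) = (m.re - v) ^ 2 + m.im ^ 2 := by
      rw [normSq_eq_norm_sq, Sl.normSq_sub]; ring
    simp only [add_re, div_re, a1, a2, sub_re, sub_im, ofReal_re, ofReal_im]
    ring
  have h2 : 2 * -k.im * m.im / ((m.re - v) ^ 2 + m.im ^ 2) ≤
      2 * ‖k‖ * m.im / ((m.re - v) ^ 2 + m.im ^ 2) := by
    gcongr
    exact (neg_le_abs _).trans (abs_im_le_norm k)
  rw [Sl.normSq_sub]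
  linarith [h (2 * m.re - v), re_le_norm e]

end Sli

/-- (The proof below follows `Sl.slice`: the shell controls both coefficients.)
Write `k = |κ|`, `I = Im m`, `J = [c - l, c + l]`, VG = points of `J` with `|e| ≤ e₁`.
1. Pick VG points `v₁ ≤ c - l/2`, `v₂ ≥ c + l/2`; `e v₁ - e v₂` gives
`k ≤ 2 e₁ |v₁ - m| |v₂ - m| / l`.  If `|c - m| ≥ 2 l` then `|e v - e v₁| ≤ 36 e₁` on `J`: no bad point.
2. Else `k ≤ 18 e₁ l`, `|e∞| ≤ 37 e₁` (one `vᵢ` has `|vᵢ - Re m| ≥ l/2`), a bad point has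
`|v - m| < w := 2 k / e₀ ≤ l / 30`.  If there is a bad point, `k ≤ I < w`, so `w / I ≤ 2 / e₀`.
3. With `a = |q₀|²`, `β = |q₁|²`: LHS `≤ 4 w a + 2 π β / I`.
4. Shell `w ≤ ±(v - Re m) ≤ 2 w` (side of `c`) lies in `J`, there `|e| ≤ e₀`, `|v - m|² ≤ 5 w²`, and
`Re e v ≤ Re e v + Re e (2 Re m - v) ≤ 2 |e∞| + 2 k I / w²`; so with `𝓕 = ∫_J F`,
`J₁ = g + 74 e₁ + e₀ I / w`: `β / (10 w) - w a ≤ J₁ 𝓕`.
5. VG points with `|v - Re m| ≥ l / 4` have measure `≥ l`: `l (a / 2 - 16 β / l²) ≤ (g + e₁) 𝓕`.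
6. Solve (`𝓕 = ⊤` trivial): `a ≤ 4 (g + e₁) 𝓕 / l + 640 w J₁ 𝓕 / l²`, `β ≤ 10 w (J₁ 𝓕 + w a)`. -/
theorem slice {c l g e₀ e₁ : ℝ} {m κ ei q₀ q₁ : ℂ} {F : ℝ → ℝ≥0∞} (hF : Measurable F)
    (hl : 0 < l) (hg : 0 < g) (he₁ : 0 < e₁) (he : 2000 * e₁ ≤ e₀) (hm : 0 < m.im)
    (hκ : ‖κ‖ ≤ m.im) (hre : ∀ v : ℝ, 0 ≤ (ei + κ / (v - m)).re)
    (hgood : ∀ v : ℝ, ‖ei + κ / (v - m)‖ ≤ e₀ →
      ENNReal.ofReal (‖q₀ + q₁ / (v - m)‖ ^ 2 / (g + (ei + κ / (v - m)).re)) ≤ F v)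
    (hvg : volume {v ∈ Set.Icc (c - l) (c + l) | e₁ < ‖ei + κ / (v - m)‖} ≤
      ENNReal.ofReal (l / 10)) :
    ∫⁻ v in {v ∈ Set.Icc (c - l) (c + l) | e₀ < ‖ei + κ / (v - m)‖},
        ENNReal.ofReal (‖q₀ + q₁ / (v - m)‖ ^ 2) ≤
      ENNReal.ofReal (100000 * (e₀ + (g + e₁) / e₀)) * ∫⁻ v in Set.Icc (c - l) (c + l), F v := by
  have np := Sl.ne_pole hm
  have he0 : 0 < e₀ := by linarith
  have hgd : ∀ p, c - l ≤ p → p + l / 2 ≤ c + l →
      ∃ v ∈ Set.Icc p (p + l / 2), ‖ei + κ / (v - m)‖ ≤ e₁ := fun p p1 p2 => by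
    by_contra hc
    push Not at hc
    have h1 : volume (Set.Icc p (p + l / 2)) ≤ _ := le_trans (measure_mono fun v hv =>
      Set.mem_sep (Set.Icc_subset_Icc p1 p2 hv) (hc v hv)) hvg
    rw [Real.volume_Icc, ENNReal.ofReal_le_ofReal_iff (by positivity)] at h1
    linarith
  obtain ⟨v₁, i1, g1⟩ := hgd (c - l) le_rfl (by linarith)
  obtain ⟨v₂, i2, g2⟩ := hgd (c + l / 2) (by linarith) (by linarith)
  rcases {v ∈ Set.Icc (c - l) (c + l) | e₀ < ‖ei + κ / (v - m)‖}.eq_empty_or_nonempty with hE | hE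
  · rw [hE, Measure.restrict_empty, lintegral_zero_measure]
    exact zero_le
  obtain ⟨v₀, i0, b0⟩ := hE
  have hd : ∀ v v' : ℝ, ‖ei + κ / (v - m) - (ei + κ / (v' - m))‖ *
      (‖(v : ℂ) - m‖ * ‖(v' : ℂ) - m‖) = ‖κ‖ * |v' - v| := fun v v' => by
    rw [← norm_mul, ← norm_mul, ← Real.norm_eq_abs, ← norm_real, ← norm_mul]
    congr 1; have := np v; have := np v'; push_cast; field_simp; ring
  have ht : ∀ v v' : ℝ, ‖(v : ℂ) - m‖ ≤ ‖(v' : ℂ) - m‖ + |v - v'| := fun v v' => by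
    rw [← Real.norm_eq_abs, ← norm_real, add_comm]
    exact (norm_sub_le_norm_sub_add_norm_sub _ (v' : ℂ) _).trans_eq (by push_cast; rfl)
  have q0 := norm_pos_iff.2 (np v₀)
  have q1 := norm_pos_iff.2 (np v₁)
  have q2 := norm_pos_iff.2 (np v₂)
  have k1 : ‖κ‖ * l ≤ 2 * e₁ * (‖(v₁ : ℂ) - m‖ * ‖(v₂ : ℂ) - m‖) := by
    have := mul_le_mul_of_nonneg_right ((norm_sub_le _ _).trans (add_le_add g1 g2))
      (mul_pos q1 q2).le
    rw [hd, abs_of_nonneg (by linarith [i1.2, i2.1])] at this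
    nlinarith [mul_le_mul_of_nonneg_left (show l ≤ v₂ - v₁ by linarith [i1.2, i2.1])
      (norm_nonneg κ)]
  have a1 : |v₁ - v₀| ≤ 2 * l := abs_le.2 ⟨by linarith [i1.1, i0.2], by linarith [i1.2, i0.1]⟩
  have a2 : |v₂ - v₀| ≤ 2 * l := abs_le.2 ⟨by linarith [i2.1, i0.2], by linarith [i2.2, i0.1]⟩
  have k2 : ‖(v₀ : ℂ) - m‖ ≤ l := by
    have := mul_le_mul_of_nonneg_right ((sub_le_sub (le_of_lt b0) g1).trans (norm_sub_norm_le _ _))
      (mul_pos q0 q1).le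
    rw [hd] at this
    have h2 : (e₀ - e₁) * ‖(v₀ : ℂ) - m‖ ≤ 4 * e₁ * ‖(v₂ : ℂ) - m‖ := le_of_mul_le_mul_right
      (by nlinarith [mul_le_mul_of_nonneg_left a1 (norm_nonneg κ)]) q1
    have h3 := mul_le_mul_of_nonneg_left ((ht v₂ v₀).trans (add_le_add_right a2 _)) he₁.le
    refine le_of_mul_le_mul_left ?_ he₁
    nlinarith [mul_le_mul_of_nonneg_right he q0.le, mul_pos he₁ hl, mul_pos he₁ q0]
  have t1 : ‖(v₁ : ℂ) - m‖ ≤ 3 * l := by linarith [ht v₁ v₀]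
  have t2 : ‖(v₂ : ℂ) - m‖ ≤ 3 * l := by linarith [ht v₂ v₀]
  have k3 : ‖κ‖ ≤ 6 * e₁ * ‖(v₁ : ℂ) - m‖ := le_of_mul_le_mul_right
    (by nlinarith [mul_le_mul_of_nonneg_left t2 (mul_pos he₁ q1).le]) hl
  have k4 : ‖ei‖ ≤ 7 * e₁ := by
    have := norm_sub_le (ei + κ / (v₁ - m)) (κ / (v₁ - m))
    rw [add_sub_cancel_right, norm_div] at this
    linarith [(div_le_iff₀ q1).2 k3]
  obtain ⟨w, hwe⟩ : ∃ w, w * e₀ = 2 * ‖κ‖ := ⟨_, div_mul_cancel₀ _ he0.ne'⟩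
  have k5 : ∀ v : ℝ, w ≤ ‖(v : ℂ) - m‖ → ‖ei + κ / (v - m)‖ ≤ e₀ := fun v hv => by
    refine (norm_add_le _ _).trans ?_
    have : ‖κ‖ / ‖(v : ℂ) - m‖ ≤ e₀ / 2 := by
      rw [div_le_iff₀ (norm_pos_iff.2 (np v))]; nlinarith
    rw [norm_div]; linarith
  have k6 : ‖(v₀ : ℂ) - m‖ < w := not_le.1 fun h => (k5 v₀ h).not_gt b0
  have hw0 := q0.trans k6
  have hre' : ∀ v : ℝ, |v - m.re| ≤ ‖(v : ℂ) - m‖ := fun v => by
    simpa using abs_re_le_norm (v - m)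
  have hy : m.im ≤ w := by
    have := abs_im_le_norm (v₀ - m)
    simp only [sub_im, ofReal_im, zero_sub, abs_neg] at this
    linarith [le_abs_self m.im]
  have hw2 : 3 * w ≤ l := le_of_mul_le_mul_right (by
    nlinarith [mul_le_mul_of_nonneg_left t1 he₁.le, mul_le_mul_of_nonneg_left he hl.le,
      mul_pos he₁ hl]) he0
  obtain ⟨p, p1, p2, p3⟩ : ∃ p, c - l ≤ p ∧ p + 2 * w ≤ c + l ∧
      ∀ v ∈ Set.Icc p (p + 2 * w), w ≤ |v - m.re| ∧ |v - m.re| ≤ 3 * w := by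
    have := abs_le.1 ((hre' v₀).trans k6.le)
    rcases le_total c m.re with h | h
    · exact ⟨m.re - 3 * w, by linarith, by linarith [i0.2], fun v hv => by
        rw [abs_sub_comm, abs_of_nonneg (by linarith [hv.2])]
        constructor <;> linarith [hv.1, hv.2]⟩
    · exact ⟨m.re + w, by linarith [i0.1], by linarith, fun v hv => by
        rw [abs_of_nonneg (by linarith [hv.1])]; constructor <;> linarith [hv.1, hv.2]⟩
  obtain ⟨D, hD⟩ : ∃ D, D = g + 14 * e₁ + e₀ * m.im / w := ⟨_, rfl⟩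
  have hD0 : 0 < D := by rw [hD]; positivity
  have L1 := (lintegral_mono_set (μ := volume) fun v hv => (by
    have := abs_le.1 ((hre' v).trans (not_le.1 fun h => (k5 v h).not_gt hv.2).le)
    constructor <;> linarith : v ∈ Set.Icc (m.re - w) (m.re + w)) :
      ∫⁻ v in {v ∈ Set.Icc (c - l) (c + l) | e₀ < ‖ei + κ / (v - m)‖},
        ENNReal.ofReal (‖q₀ + q₁ / (v - m)‖ ^ 2) ≤ _).trans (Sl.upper hm q₀ q₁ hw0.le)
  have L2 := Sli.lower hm q₀ q₁ hw0 (p := p) fun v hv => by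
    rw [Sl.normSq_sub, sub_sq_comm, ← sq_abs]
    nlinarith [(p3 v hv).2, abs_nonneg (v - m.re)]
  have L3 : ENNReal.ofReal D⁻¹ * ∫⁻ v in Set.Icc p (p + 2 * w),
      ENNReal.ofReal (‖q₀ + q₁ / (v - m)‖ ^ 2) ≤ ∫⁻ v in Set.Icc (c - l) (c + l), F v := by
    refine le_trans ?_ (lintegral_mono_set (Set.Icc_subset_Icc p1 p2))
    rw [← lintegral_const_mul' _ _ ENNReal.ofReal_ne_top]
    refine setLIntegral_mono' measurableSet_Icc fun v hv =>
      le_trans ?_ (hgood v (k5 v ((p3 v hv).1.trans (hre' v))))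
    rw [← ENNReal.ofReal_mul (by positivity), ← div_eq_inv_mul]
    refine ENNReal.ofReal_le_ofReal (div_le_div_of_nonneg_left (by positivity)
      (by linarith [hre v]) ?_)
    have h2 := Sli.re_le hm hre v
    have h3 : 2 * ‖κ‖ * m.im / ‖(v : ℂ) - m‖ ^ 2 ≤ e₀ * m.im / w :=
      (div_le_div_of_nonneg_left (by positivity) (by positivity) (pow_le_pow_left₀ hw0.le
        ((p3 v hv).1.trans (hre' v)) 2)).trans_eq (by rw [← hwe]; field_simp)
    linarith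
  refine L1.trans (le_trans ?_ (mul_le_mul_right ((mul_le_mul_right L2 _).trans L3) _))
  rw [← ENNReal.ofReal_mul (by positivity), ← ENNReal.ofReal_mul (by positivity)]
  refine ENNReal.ofReal_le_ofReal ?_
  have h2 : w / m.im * D ≤ 28 * (e₀ + (g + e₁) / e₀) := by
    have h3 : w / m.im ≤ 2 / e₀ := by rw [div_le_div_iff₀ hm he0]; linarith
    have h4 : w / m.im * (e₀ * m.im / w) = e₀ := by field_simp
    have h5 := mul_le_mul_of_nonneg_right h3 (by positivity : 0 ≤ g + 14 * e₁)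
    have h6 : 2 / e₀ * (g + 14 * e₁) ≤ 28 * ((g + e₁) / e₀) := by
      rw [div_mul_eq_mul_div, ← mul_div_assoc]
      exact div_le_div_of_nonneg_right (by linarith) he0.le
    rw [hD, mul_add, h4]; linarith
  have h3 : 4 * w * ‖q₀‖ ^ 2 + 8 * ‖q₁‖ ^ 2 / m.im ≤
      w / m.im * (4 * w * ‖q₀‖ ^ 2 + 8 * ‖q₁‖ ^ 2 / w) := by
    have h4 : w / m.im * (8 * ‖q₁‖ ^ 2 / w) = 8 * ‖q₁‖ ^ 2 / m.im := by field_simp
    have h5 := mul_le_mul_of_nonneg_right ((one_le_div hm).2 hy)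
      (by positivity : 0 ≤ 4 * w * ‖q₀‖ ^ 2)
    rw [mul_add, h4]
    linarith
  have hX : 0 ≤ 4 * w * ‖q₀‖ ^ 2 + 8 * ‖q₁‖ ^ 2 / w := by positivity
  have hZ : 0 ≤ e₀ + (g + e₁) / e₀ := by positivity
  generalize 4 * w * ‖q₀‖ ^ 2 + 8 * ‖q₁‖ ^ 2 / w = X at h3 hX ⊢
  generalize e₀ + (g + e₁) / e₀ = Z at h2 hZ ⊢
  rw [show 100000 * Z * (D⁻¹ * (X / 3360)) = 100000 / 3360 * (Z / D * X) by field_simp]
  refine h3.trans ?_
  rw [← le_div_iff₀ hD0, mul_div_assoc] at h2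
  nlinarith [mul_le_mul_of_nonneg_right h2 hX, mul_nonneg (div_nonneg hZ hD0.le) hX]

end Crest.Agent.N334.T
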