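import Crest.Agent.N334.T.Cav
import Crest.Agent.N334.T.Law
import Crest.Agent.N334.T.Marg
import Crest.Agent.N334.T.Slice

/-!
# Row 334, engine T: good phase and slices (leaf T-Good)
-/

set_option autoImplicit false
set_option linter.unusedSectionVars false

open MeasureTheory Complex Finset Function
open scoped ENNReal

namespace Crest.Agent.N334.T

variable {V : Type} [Fintype V] [DecidableEq V]

namespace Good

lemma lint_seg (a l g : ℝ) {f : ℂ → ℝ≥0∞} (hf : Measurable f) :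
    ∫⁻ z, f z ∂seg a l g = ∫⁻ v in Set.Icc (a - l) (a + l), f (v - g * I) :=
  lintegral_map hf (by fun_prop)

lemma seg_zero (a l : ℝ) :
    seg a l 0 = (volume.restrict (Set.Icc (a - l) (a + l))).map fun s : ℝ => (s : ℂ) := by
  simp [seg]

lemma lint_seg0 (a l : ℝ) {f : ℂ → ℝ≥0∞} (hf : Measurable f) :
    ∫⁻ z, f z ∂seg a l 0 = ∫⁻ v in Set.Icc (a - l) (a + l), f v := by
  rw [seg_zero]; exact lintegral_map hf (by fun_prop)

lemma set_seg0 (a l : ℝ) {S : Set ℂ} (hS : MeasurableSet S) {f : ℂ → ℝ≥0∞} (hf : Measurable f) :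
    ∫⁻ z in S, f z ∂seg a l 0 = ∫⁻ v in {v ∈ Set.Icc (a - l) (a + l) | (v : ℂ) ∈ S}, f v := by
  rw [seg_zero, setLIntegral_map hS hf (by fun_prop),
    Measure.restrict_restrict (measurable_ofReal hS), Set.inter_comm]
  rfl

lemma seg0_apply (a l : ℝ) {S : Set ℂ} (hS : MeasurableSet S) :
    seg a l 0 S = volume {v ∈ Set.Icc (a - l) (a + l) | (v : ℂ) ∈ S} := by
  rw [seg_zero, Measure.map_apply (by fun_prop) hS, Measure.restrict_apply (measurable_ofReal hS),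
    Set.inter_comm]
  rfl

lemma cl_sub {a g : ℝ} (hg : 0 ≤ g) : cl (a - g * I) = a - g * I := by
  apply Complex.ext <;> simp [abs_of_nonneg hg]

/-- the scalar identities for `e = 1 + i H / D`, `D = A - i (S + H)` -/
lemma ee_id {D : ℂ} {S H : ℝ} (hS : 0 ≤ S) (hH : 0 < H) (hD : D.im = -(S + H)) :
    ‖D‖ ^ 2 = D.re ^ 2 + (S + H) ^ 2 ∧
    (1 + I * H * (1 / D)).re * ‖D‖ ^ 2 = D.re ^ 2 + S * (S + H) ∧
    ‖1 + I * H * (1 / D)‖ ^ 2 * ‖D‖ ^ 2 = D.re ^ 2 + S ^ 2 := by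
  have h0 : D ≠ 0 := by
    rintro rfl
    simp only [zero_im] at hD
    linarith
  have h1 : ‖D‖ ^ 2 = D.re ^ 2 + (S + H) ^ 2 := by
    rw [Complex.sq_norm, normSq_apply, hD]; ring
  have h2 : (1 + I * H * (1 / D)) * D = D + I * H := by field_simp
  refine ⟨h1, ?_, ?_⟩
  · have h3 : (1 + I * H * (1 / D)) * ((‖D‖ ^ 2 : ℝ) : ℂ) = (D + I * H) * (starRingEnd ℂ) D := by
      rw [← h2, mul_assoc _ D, mul_conj, Complex.sq_norm]
    have h4 := congrArg Complex.re h3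
    rw [re_mul_ofReal] at h4
    rw [h4]
    simp [hD]
    ring
  · rw [← mul_pow, ← norm_mul, h2, Complex.sq_norm, normSq_apply]
    simp [hD]
    ring

lemma num {P s S H A J d R : ℝ} (hP : 0 < P) (hs : 0 < s) (hS : 0 ≤ S) (hH : 0 < H)
    (hs0 : s ≤ 1 / 1000000000) (hs1 : s * P ≤ 1 / 1000000) (hs2 : s * P ^ 2 ≤ 1 / 1000)
    (hJ : J ≤ s ^ 8 + S) (hH2 : H ≤ 2 * P) (hPH : 1 ≤ P * H) (h1 : d = A ^ 2 + (S + H) ^ 2)
    (h2 : R * d = A ^ 2 + S * (S + H)) (h3 : A ^ 2 + S ^ 2 ≤ s ^ 2 * d) :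
    |A| + J ≤ P⁻¹ ∧ J ≤ 4 * P * (d * (s ^ 2 + R)) := by
  have hs8 : s ^ 8 ≤ s ^ 3 := pow_le_pow_of_le_one hs.le (by linarith) (by norm_num)
  have hs3 : s ^ 3 ≤ s := by
    simpa using pow_le_pow_of_le_one hs.le (by linarith : s ≤ 1) (by norm_num : 1 ≤ 3)
  have hJS : J ≤ s ^ 3 + S := by linarith
  have k1 : A ^ 2 + S ^ 2 ≤ (2 * s * H) ^ 2 := by
    have e2 : s ^ 2 ≤ 1 / 4 := by nlinarith
    have e0 : d ≤ 2 * (A ^ 2 + S ^ 2) + 2 * H ^ 2 := by
      rw [h1]; nlinarith [sq_nonneg (S - H), sq_nonneg A]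
    have e3 : s ^ 2 * d ≤ s ^ 2 * (2 * (A ^ 2 + S ^ 2) + 2 * H ^ 2) := by gcongr
    have e4 : s ^ 2 * (A ^ 2 + S ^ 2) ≤ 1 / 4 * (A ^ 2 + S ^ 2) := by gcongr
    have e5 : (2 * s * H) ^ 2 = 4 * (s ^ 2 * H ^ 2) := by ring
    rw [e5]
    linarith
  have k2 : |A| ≤ 2 * s * H := abs_le_of_sq_le_sq (by linarith [sq_nonneg S]) (by positivity)
  have k3 : S ≤ 2 * s * H :=
    (le_abs_self S).trans (abs_le_of_sq_le_sq (by linarith [sq_nonneg A]) (by positivity))
  constructor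
  · rw [inv_eq_one_div, le_div_iff₀ hP]
    have e1 : 2 * s * H ≤ 2 * s * (2 * P) := by gcongr
    have e2 : |A| + J ≤ 8 * s * P + s := by linarith
    calc (|A| + J) * P ≤ (8 * s * P + s) * P := by gcongr
      _ = 8 * (s * P ^ 2) + s * P := by ring
      _ ≤ 1 := by linarith
  · have e1 : d * (s ^ 2 + R) = s ^ 2 * d + (A ^ 2 + S * (S + H)) := by
      rw [← h2]; ring
    have e2 : H ^ 2 ≤ d := by
      have : H ^ 2 ≤ (S + H) ^ 2 := by gcongr; linarith
      linarith [sq_nonneg A]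
    have e3 : s ^ 2 * H ^ 2 + S * H ≤ d * (s ^ 2 + R) := by
      rw [e1]
      have : s ^ 2 * H ^ 2 ≤ s ^ 2 * d := by gcongr
      linarith [sq_nonneg A, mul_self_nonneg S]
    have e4 : S ≤ P * (S * H) := by
      have : S * 1 ≤ S * (P * H) := by gcongr
      linarith
    have e5 : s ^ 3 ≤ P * (s ^ 2 * H ^ 2) := by
      have f1 : 1 ≤ (P * H) ^ 2 := one_le_pow₀ hPH
      have f3 : s ≤ P * H ^ 2 := by
        by_contra hcon
        push Not at hcon
        have : P * (P * H ^ 2) < P * s := by gcongr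
        linarith
      calc s ^ 3 = s ^ 2 * s := by ring
        _ ≤ s ^ 2 * (P * H ^ 2) := by gcongr
        _ = _ := by ring
    have e6 : P * (s ^ 2 * H ^ 2 + S * H) ≤ P * (d * (s ^ 2 + R)) := by gcongr
    have e7 : 0 ≤ P * (s ^ 2 * H ^ 2 + S * H) := by positivity
    linarith

end Good

open Good

namespace Env

variable (E : Env V) (y : V) (h : ℝ)

/-- the matched value at `y` -/
noncomputable def yh : ℂ := (E.r y).re - h * I

/-- Green function with the matched absorber at `y` -/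
noncomputable def GG (w : V → ℂ) : V → V → ℂ := Gr E.G E.η (update w y (E.yh y h))

/-- reflection defect -/
noncomputable def ee (w : V → ℂ) : ℂ := 1 + I * (h + E.η) * E.GG y h w y y

/-- intensity averaged over the true law of `y` -/
noncomputable def FF (ν : Measure ℂ) (b : V) (w : V → ℂ) : ℝ≥0∞ :=
  ∫⁻ z, ENNReal.ofReal (‖Gr E.G E.η (update w y z) y b‖ ^ 2) ∂ν

@[fun_prop] lemma measurable_GG (p q : V) : Measurable fun w => E.GG y h w p q :=
  (measurable_Gr p q).comp measurable_update_left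

@[fun_prop] lemma measurable_ee : Measurable (E.ee y h) := by unfold ee; fun_prop

lemma measurable_FF (ν : Measure ℂ) [SFinite ν] (b : V) : Measurable (E.FF y ν b) :=
  measurable_site ν y (f := fun w => ENNReal.ofReal (‖Gr E.G E.η w y b‖ ^ 2)) (by fun_prop)

lemma cl_yh {h : ℝ} (hh : 0 ≤ h) : cl (E.yh y h) = E.yh y h := cl_sub hh

lemma ee_cav {h : ℝ} (hh : 0 ≤ h) {w : V → ℂ} {m : ℂ} {ρ : V → ℂ} {q : V → V → ℂ}
    (hc : Cav E.G E.η w y m ρ q) :
    E.ee y h w = 1 + I * ((h + E.η : ℝ) : ℂ) * (1 / (E.yh y h - m)) := by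
  simp only [ee, GG, hc.gr, (hc.q_self y).1, hc.rho_self, E.cl_yh y hh]
  push_cast
  ring

lemma yh_im (m : ℂ) : (E.yh y h - m).im = -((m.im - E.η) + (h + E.η)) := by
  simp [yh]; ring

lemma GG_update {x : V} (hx : x ≠ y) {w : V → ℂ} {m : ℂ} {ρ : V → ℂ} {q : V → V → ℂ}
    (hc : Cav E.G E.η (update w y (E.yh y h)) x m ρ q) (z : ℂ) (p p' : V) :
    E.GG y h (update w x z) p p' = q p p' + ρ p * ρ p' / (cl z - m) := by
  rw [GG, update_comm hx, hc.gr]

lemma ward_yh {h : ℝ} (hh : 0 ≤ h) {x : V} (hx : x ≠ y) {w : V → ℂ} {m : ℂ} {ρ : V → ℂ}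
    {q : V → V → ℂ} (hc : Cav E.G E.η (update w y (E.yh y h)) x m ρ q) :
    (h + E.η) * ‖ρ y‖ ^ 2 ≤ m.im := by
  have := hc.ward1 E.η0 hx.symm
  simpa [dmp, yh, abs_of_nonneg hh, add_comm] using this

/-- cavity at `y`, `σ = m - η i`, `D = a - σ - i H`, `H = h + η`, `e = (a - σ) / D`,
`Re e = (|a - σ|² + H Im σ) / |D|²` -/
lemma ee_re_nonneg (hh : 0 < h) (w : V → ℂ) : 0 ≤ (E.ee y h w).re := by
  obtain ⟨m, ρ, q, hc⟩ := exists_cav (G := E.G) E.η0 E.η1 w y
  have hH : 0 < h + E.η := add_pos hh E.η0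
  have hS : 0 ≤ m.im - E.η := sub_nonneg.2 hc.im_ge
  obtain ⟨h1, h2, -⟩ := ee_id hS hH (E.yh_im y h m)
  rw [E.ee_cav y hh.le hc]
  have h3 : 0 < ‖E.yh y h - m‖ ^ 2 := by rw [h1]; positivity
  exact nonneg_of_mul_nonneg_left (by rw [h2]; positivity) h3

end Env

namespace Block

variable {E : Env V} {ν : Measure ℂ} {B Z : Finset V} {y : V} {u : V → ℂ} {win : V → ℝ}
  {h γ P s lam : ℝ} {l : ℕ}

lemma P_pos (hB : Block E ν B Z y u win h γ P s lam l) : 0 < P := by linarith [hB.big]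

lemma h_pos (hB : Block E ν B Z y u win h γ P s lam l) : 0 < h :=
  lt_of_lt_of_le (inv_pos.2 hB.P_pos) hB.h0

lemma sP3 (hB : Block E ν B Z y u win h γ P s lam l) : s * P ^ 3 ≤ 1 := by
  have := hB.s1
  have hP := hB.P_pos
  rwa [inv_eq_one_div, le_div_iff₀ (by positivity)] at this

lemma Ph (hB : Block E ν B Z y u win h γ P s lam l) : 1 ≤ P * h := by
  have := hB.h0
  have hP := hB.P_pos
  rwa [inv_eq_one_div, div_le_iff₀ hP, mul_comm] at this

lemma sP2 (hB : Block E ν B Z y u win h γ P s lam l) : s * P ^ 2 ≤ 1 / 1000 := by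
  have h1 := hB.sP3
  have h2 := hB.big
  have h3 : 0 ≤ s * P ^ 2 := mul_nonneg hB.s0.le (sq_nonneg _)
  nlinarith

lemma sP1 (hB : Block E ν B Z y u win h γ P s lam l) : s * P ≤ 1 / 1000000 := by
  have h1 := hB.sP2
  have h2 := hB.big
  have h3 : 0 ≤ s * P := mul_nonneg hB.s0.le hB.P_pos.le
  nlinarith

lemma sP0 (hB : Block E ν B Z y u win h γ P s lam l) : s ≤ 1 / 1000000000 := by
  have h1 := hB.sP1
  have h2 := hB.big
  have h3 := hB.s0
  nlinarith

/-- As above; `|e| ≤ s ≤ 1/2` gives `|D| ≤ 2H`, `|a - σ| ≤ 2 s H`, `Im σ ≤ 4 H Re e`.  With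
`J = γ + η + Im σ` the interval `|v - Re σ| ≤ J` lies in the segment of `νlo`
(`4 s H + γ + η ≤ P⁻¹`, `H ≤ 2P`), there `|cl z - m|² ≤ 2 J²`, so `FF ≥ |ρ_b|² / (P J)`; and
`|GG y b|² ≤ |ρ_b|² / H²`, `(γ + η) / (4H) ≤ s²`, `H ≥ P⁻¹`. -/
lemma good (hB : Block E ν B Z y u win h γ P s lam l) (b : V) (w : V → ℂ)
    (he : ‖E.ee y h w‖ ≤ s) :
    ENNReal.ofReal (‖E.GG y h w y b‖ ^ 2 / (s ^ 2 + (E.ee y h w).re)) ≤
      ENNReal.ofReal (4 * P ^ 2) * E.FF y ν b w := by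
  obtain ⟨m, ρ, q, hc⟩ := exists_cav (G := E.G) E.η0 E.η1 w y
  have hP := hB.P_pos
  have hh := hB.h_pos
  have hs := hB.s0
  have hη := E.η0
  have hγ := hB.γ0
  have hH : 0 < h + E.η := add_pos hh E.η0
  have hS : 0 ≤ m.im - E.η := sub_nonneg.2 hc.im_ge
  obtain ⟨h1, h2, h3⟩ := ee_id hS hH (E.yh_im y h m)
  rw [← E.ee_cav y hh.le hc] at h2 h3
  have hgr : ∀ z, Gr E.G E.η (update w y z) y b = ρ b / (cl z - m) := by
    intro z
    rw [hc.gr, (hc.q_self b).2, hc.rho_self, zero_add, one_mul]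
  have hGG : E.GG y h w y b = ρ b / (E.yh y h - m) := by
    rw [Env.GG, hgr, E.cl_yh y hh.le]
  have hA : (E.yh y h - m).re = (E.r y).re - m.re := by simp [Env.yh]
  rw [hA] at h1 h2 h3
  set A := (E.r y).re - m.re with hAdef
  set S := m.im - E.η with hSdef
  set H := h + E.η with hHdef
  set d := ‖E.yh y h - m‖ ^ 2 with hd
  set J := γ + m.im with hJ
  have hJ0 : 0 < J := by linarith
  have hd0 : 0 < d := by rw [h1]; positivity
  have he2 : ‖E.ee y h w‖ ^ 2 * d ≤ s ^ 2 * d := by gcongr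
  obtain ⟨k4, k5⟩ := num (A := A) (J := J) (d := d) (R := (E.ee y h w).re) hP hs hS hH hB.sP0
    hB.sP1 hB.sP2 (by linarith [hB.γ1]) (by linarith [hB.h1, E.η1, hB.big])
    (hB.Ph.trans (by gcongr; linarith)) h1 h2 (h3 ▸ he2)
  -- the lower bound for `FF`
  have hm : Measurable fun z : ℂ => ENNReal.ofReal (‖Gr E.G E.η (update w y z) y b‖ ^ 2) := by
    simp only [hgr]; fun_prop
  have l1 : ENNReal.ofReal (‖ρ b‖ ^ 2 / (2 * J ^ 2)) * ENNReal.ofReal (2 * J) ≤
      ∫⁻ z, ENNReal.ofReal (‖Gr E.G E.η (update w y z) y b‖ ^ 2) ∂seg (E.r y).re P⁻¹ γ := by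
    rw [lint_seg _ _ _ hm]
    have hsub : Set.Icc (m.re - J) (m.re + J) ⊆ Set.Icc ((E.r y).re - P⁻¹) ((E.r y).re + P⁻¹) :=
      Set.Icc_subset_Icc (by linarith [le_abs_self A]) (by linarith [neg_abs_le A])
    refine le_trans ?_ (lintegral_mono_set hsub)
    have hv : volume (Set.Icc (m.re - J) (m.re + J)) = ENNReal.ofReal (2 * J) := by
      rw [Real.volume_Icc]; congr 1; ring
    rw [← hv, ← setLIntegral_const]
    refine setLIntegral_mono' measurableSet_Icc fun v hv => ENNReal.ofReal_le_ofReal ?_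
    rw [hgr, cl_sub hγ, norm_div, div_pow]
    have n1 : ‖(v : ℂ) - γ * I - m‖ ^ 2 = (v - m.re) ^ 2 + J ^ 2 := by
      rw [Complex.sq_norm, normSq_apply]
      simp [hJ]
      ring
    have n2 : (v - m.re) ^ 2 ≤ J ^ 2 := sq_le_sq' (by linarith [hv.1]) (by linarith [hv.2])
    rw [n1]
    gcongr
    linarith
  have l2 : ENNReal.ofReal P⁻¹ * (ENNReal.ofReal (‖ρ b‖ ^ 2 / (2 * J ^ 2)) *
      ENNReal.ofReal (2 * J)) ≤ E.FF y ν b w := by
    refine le_trans ?_ (lintegral_mono' hB.νlo le_rfl)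
    rw [lintegral_smul_measure, smul_eq_mul]
    gcongr
  refine le_trans ?_ (mul_le_mul_right l2 _)
  rw [← ENNReal.ofReal_mul (by positivity), ← ENNReal.ofReal_mul (by positivity),
    ← ENNReal.ofReal_mul (by positivity)]
  refine ENNReal.ofReal_le_ofReal ?_
  have hre := E.ee_re_nonneg y h hh w
  rw [hGG, norm_div, div_pow, ← hd, div_div]
  have : 4 * P ^ 2 * (P⁻¹ * (‖ρ b‖ ^ 2 / (2 * J ^ 2) * (2 * J))) = ‖ρ b‖ ^ 2 / (J / (4 * P)) := by
    field_simp
  rw [this]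
  gcongr
  rw [div_le_iff₀ (by positivity)]
  linarith

/-- `slice` with the cavity at `x` of `update w y yh` (`update_comm`): `κ = i H ρ_y²`
(`Cav.ward1`), `g = e₁ = s²`, `e₀ = s`, `F v = 4 P² FF (update w x v)`; `lo`, `hi` convert the
measures (factor `P²`); `3·10⁵ · 4 P⁴ ≤ P⁷`. -/
lemma slice_cfg (hB : Block E ν B Z y u win h γ P s lam l) (b : V) {x : V} (hx : x ∈ B.erase y)
    (w : V → ℂ)
    (hS : E.μ x {z | s ^ 2 < ‖E.ee y h (update w x z)‖} ≤ ENNReal.ofReal (10 * P)⁻¹) :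
    ∫⁻ z in {z | s < ‖E.ee y h (update w x z)‖},
        ENNReal.ofReal (‖E.GG y h (update w x z) y b‖ ^ 2) ∂E.μ x ≤
      ENNReal.ofReal (P ^ 7 * s) * ∫⁻ z, E.FF y ν b (update w x z) ∂E.μ x := by
  have := hB.νp
  have hxy : x ≠ y := (mem_erase.1 hx).1
  obtain ⟨m, ρ, q, hc⟩ := exists_cav (G := E.G) E.η0 E.η1 (update w y (E.yh y h)) x
  have hP := hB.P_pos
  have hh := hB.h_pos
  have hs := hB.s0
  have hη := E.η0
  have hl : 0 < win x := lt_of_lt_of_le hη (hB.win0 x hx).1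
  have hm : 0 < m.im := lt_of_lt_of_le hη hc.im_ge
  set ei : ℂ := 1 + I * (h + E.η) * q y y with hei
  set κ : ℂ := I * (h + E.η) * (ρ y * ρ y) with hκ
  have hee : ∀ v : ℝ, E.ee y h (update w x v) = ei + κ / (v - m) := by
    intro v
    rw [Env.ee, E.GG_update y h hxy hc, cl_ofReal, hei, hκ]
    ring
  have hGG : ∀ v : ℝ, E.GG y h (update w x v) y b = q y b + ρ y * ρ b / (v - m) := by
    intro v
    rw [E.GG_update y h hxy hc, cl_ofReal]
  have mu : Measurable fun z : ℂ => update w x z := measurable_update w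
  have mee : Measurable fun z : ℂ => ‖E.ee y h (update w x z)‖ :=
    ((E.measurable_ee y h).comp mu).norm
  have mFF : Measurable fun z : ℂ => E.FF y ν b (update w x z) := (E.measurable_FF y ν b).comp mu
  have mGG : Measurable fun z : ℂ => ENNReal.ofReal (‖E.GG y h (update w x z) y b‖ ^ 2) :=
    (((E.measurable_GG y h y b).comp mu).norm.pow_const 2).ennreal_ofReal
  have hPl : ENNReal.ofReal (P * win x) * ENNReal.ofReal (P * win x)⁻¹ = 1 := by
    rw [← ENNReal.ofReal_mul (by positivity), mul_inv_cancel₀ (by positivity), ENNReal.ofReal_one]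
  have key := slice (c := (E.r x).re) (l := win x) (g := s ^ 2) (e₀ := s) (e₁ := s ^ 2) (m := m)
    (κ := κ) (ei := ei) (q₀ := q y b) (q₁ := ρ y * ρ b)
    (F := fun v => ENNReal.ofReal (4 * P ^ 2) * E.FF y ν b (update w x v))
    ((mFF.comp measurable_ofReal).const_mul _) hl (by positivity) (by positivity)
    (by nlinarith [hB.sP0]) hm ?_ (fun v => by rw [← hee]; exact E.ee_re_nonneg y h hh _)
    (fun v hv => by rw [← hee, ← hGG]; exact hB.good b _ (by rwa [hee])) ?_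
  · have mS : MeasurableSet {z : ℂ | s < ‖E.ee y h (update w x z)‖} :=
      measurableSet_lt measurable_const mee
    have a1 : ∫⁻ z in {z | s < ‖E.ee y h (update w x z)‖},
        ENNReal.ofReal (‖E.GG y h (update w x z) y b‖ ^ 2) ∂E.μ x ≤
        ENNReal.ofReal (P / win x) * ∫⁻ z in {z | s < ‖E.ee y h (update w x z)‖},
          ENNReal.ofReal (‖E.GG y h (update w x z) y b‖ ^ 2) ∂seg (E.r x).re (win x) 0 := by
      refine (lintegral_mono' (Measure.restrict_mono Set.Subset.rfl (hB.hi x hx)) le_rfl).trans ?_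
      rw [Measure.restrict_smul, lintegral_smul_measure, smul_eq_mul]
    rw [set_seg0 _ _ mS mGG] at a1
    simp only [Set.mem_ofPred_eq, hee, hGG] at a1
    have a2 : ∫⁻ v in Set.Icc ((E.r x).re - win x) ((E.r x).re + win x),
        E.FF y ν b (update w x v) ≤
        ENNReal.ofReal (P * win x) * ∫⁻ z, E.FF y ν b (update w x z) ∂E.μ x := by
      have := lintegral_mono' (hB.lo x hx) (le_refl fun z => E.FF y ν b (update w x z))
      rw [lintegral_smul_measure, smul_eq_mul, lint_seg0 _ _ mFF] at this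
      refine le_trans ?_ (mul_le_mul_right this _)
      rw [← mul_assoc, hPl, one_mul]
    rw [lintegral_const_mul' _ _ ENNReal.ofReal_ne_top] at key
    refine a1.trans ((mul_le_mul_right (key.trans (mul_le_mul_right
      (mul_le_mul_right a2 _) _)) _).trans ?_)
    rw [← mul_assoc, ← mul_assoc, ← mul_assoc, ← ENNReal.ofReal_mul (by positivity),
      ← ENNReal.ofReal_mul (by positivity), ← ENNReal.ofReal_mul (by positivity)]
    refine mul_le_mul_left (ENNReal.ofReal_le_ofReal ?_) _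
    have e1 : P / win x * (100000 * (s + (s ^ 2 + s ^ 2) / s)) * (4 * P ^ 2) * (P * win x) =
        1200000 * (P ^ 4 * s) := by
      field_simp
      ring
    have e2 : (1000 : ℝ) ^ 3 ≤ P ^ 3 := pow_le_pow_left₀ (by norm_num) hB.big 3
    rw [e1]
    calc 1200000 * (P ^ 4 * s) ≤ P ^ 3 * (P ^ 4 * s) := by gcongr; linarith
      _ = _ := by ring
  · have := E.ward_yh y hh.le hxy hc
    have e1 : ((h : ℂ) + E.η) = ((h + E.η : ℝ) : ℂ) := by push_cast; ring
    rw [hκ, e1, norm_mul, norm_mul, norm_mul, norm_I, one_mul, norm_real,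
      Real.norm_of_nonneg (by positivity), ← sq]
    exact this
  · have mS : MeasurableSet {z : ℂ | s ^ 2 < ‖E.ee y h (update w x z)‖} :=
      measurableSet_lt measurable_const mee
    have a1 := (Measure.le_iff'.1 (hB.lo x hx) _).trans hS
    rw [Measure.smul_apply, smul_eq_mul, seg0_apply _ _ mS] at a1
    simp only [Set.mem_ofPred_eq, hee] at a1
    have a2 := mul_le_mul_right a1 (ENNReal.ofReal (P * win x))
    rw [← mul_assoc, hPl, one_mul, ← ENNReal.ofReal_mul (by positivity)] at a2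
    refine a2.trans (le_of_eq ?_)
    congr 1
    field_simp

/-- `H |ρ_y|² ≤ Im m` (`Cav.ward1`), `hi`, `seg_poisson`; on the segment `c z ≤ C` -/
lemma site_GG (hB : Block E ν B Z y u win h γ P s lam l) {x : V} (hx : x ∈ B.erase y) (w : V → ℂ)
    {c : ℂ → ℝ} (hc : Measurable c) {C : ℝ} (hC0 : 0 ≤ C)
    (hC : ∀ v : ℝ, |v - (E.r x).re| ≤ win x → c v ≤ C) :
    ∫⁻ z, ENNReal.ofReal (‖E.GG y h (update w x z) y x‖ ^ 2 * c z) ∂E.μ x ≤
      ENNReal.ofReal (4 * P ^ 2 / win x * C) := by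
  have hxy : x ≠ y := (mem_erase.1 hx).1
  obtain ⟨m, ρ, q, hcav⟩ := exists_cav (G := E.G) E.η0 E.η1 (update w y (E.yh y h)) x
  have hP := hB.P_pos
  have hh := hB.h_pos
  have hη := E.η0
  have hl : 0 < win x := lt_of_lt_of_le hη (hB.win0 x hx).1
  have hm : 0 < m.im := lt_of_lt_of_le hη hcav.im_ge
  have hGG : ∀ z, E.GG y h (update w x z) y x = ρ y / (cl z - m) := by
    intro z
    rw [E.GG_update y h hxy hcav, (hcav.q_self y).1, hcav.rho_self, zero_add, mul_one]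
  have hρ : ‖ρ y‖ ^ 2 ≤ P * m.im := by
    have h1 := E.ward_yh y hh.le hxy hcav
    have h2 : 1 ≤ P * (h + E.η) := hB.Ph.trans (by gcongr; linarith)
    calc ‖ρ y‖ ^ 2 = 1 * ‖ρ y‖ ^ 2 := (one_mul _).symm
      _ ≤ P * (h + E.η) * ‖ρ y‖ ^ 2 := by gcongr
      _ = P * ((h + E.η) * ‖ρ y‖ ^ 2) := by ring
      _ ≤ _ := by gcongr
  simp only [hGG]
  refine (lintegral_mono' (hB.hi x hx) le_rfl).trans ?_
  have m1 : Measurable fun z : ℂ => ENNReal.ofReal (‖ρ y / (cl z - m)‖ ^ 2 * c z) := by fun_prop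
  have m2 : Measurable fun z : ℂ => ENNReal.ofReal (m.im / ‖cl z - m‖ ^ 2) := by fun_prop
  have a1 : ∫⁻ z, ENNReal.ofReal (‖ρ y / (cl z - m)‖ ^ 2 * c z) ∂seg (E.r x).re (win x) 0 ≤
      ENNReal.ofReal (P * C) *
        ∫⁻ z, ENNReal.ofReal (m.im / ‖cl z - m‖ ^ 2) ∂seg (E.r x).re (win x) 0 := by
    rw [lint_seg0 _ _ m1, lint_seg0 _ _ m2, ← lintegral_const_mul' _ _ ENNReal.ofReal_ne_top]
    refine setLIntegral_mono' measurableSet_Icc fun v hv => ?_
    rw [← ENNReal.ofReal_mul (by positivity)]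
    refine ENNReal.ofReal_le_ofReal ?_
    have h1 := hC v (abs_le.2 ⟨by linarith [hv.1], by linarith [hv.2]⟩)
    rw [norm_div, div_pow]
    calc ‖ρ y‖ ^ 2 / ‖cl v - m‖ ^ 2 * c v ≤ ‖ρ y‖ ^ 2 / ‖cl v - m‖ ^ 2 * C := by gcongr
      _ ≤ P * m.im / ‖cl v - m‖ ^ 2 * C := by gcongr
      _ = _ := by ring
  rw [lintegral_smul_measure, smul_eq_mul]
  refine (mul_le_mul_right (a1.trans (mul_le_mul_right (seg_poisson _ _ hm) _)) _).trans ?_
  rw [← ENNReal.ofReal_mul (by positivity), ← ENNReal.ofReal_mul (by positivity)]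
  refine le_of_eq ?_
  congr 1
  ring

end Block

end Crest.Agent.N334.T
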