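import Crest.Agent.N334.T.Law

/-!
# Row 334, engine T: the Moebius lemma (leaf T-Moeb)
-/

set_option autoImplicit false

open MeasureTheory Complex Finset Function
open scoped ENNReal

namespace Crest.Agent.N334.T

variable {μ : Measure ℂ} {r : ℂ} {Λ : ℝ}

/-- the Moebius function `(cl z - m') / (cl z - m)` is `ε` times smaller than at the reference -/
def small (r m m' : ℂ) (ε : ℝ) : Set ℂ :=
  {z | ‖(cl z - m') / (cl r - m')‖ < ε * ‖(cl z - m) / (cl r - m)‖}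

lemma measurableSet_small (r m m' : ℂ) (ε : ℝ) : MeasurableSet (small r m m' ε) :=
  measurableSet_lt (by fun_prop) (by fun_prop)

namespace Mo

lemma im_le (r m : ℂ) : m.im + |r.im| ≤ ‖cl r - m‖ := by
  refine le_trans ?_ (abs_im_le_norm _)
  rw [sub_im, abs_sub_comm]
  exact le_trans (by simp [cl]) (le_abs_self _)

lemma ev {m m' z : ℂ} (hm : 0 < m.im) (hm' : 0 < m'.im) {ε : ℝ} (hz : z ∈ small r m m' ε) :
    ‖cl z - m'‖ * ‖cl r - m‖ < ε * ‖cl r - m'‖ * ‖cl z - m‖ := by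
  have hA : 0 < ‖cl r - m'‖ := by linarith [im_le r m', abs_nonneg r.im]
  have hB : 0 < ‖cl r - m‖ := by linarith [im_le r m, abs_nonneg r.im]
  have h : ‖(cl z - m') / (cl r - m')‖ < ε * ‖(cl z - m) / (cl r - m)‖ := hz
  rw [norm_div, norm_div, ← mul_div_assoc, div_lt_div_iff₀ hA hB] at h
  linarith

lemma tri (p q s : ℂ) : ‖p - s‖ ≤ ‖p - q‖ + ‖q - s‖ := norm_sub_le_norm_sub_add_norm_sub p q s

lemma near (h : Law0 μ r Λ) {S : Set ℂ} (hS : MeasurableSet S) {F : ℂ → ℝ} {m' : ℂ} {c l : ℝ}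
    (hc : 0 ≤ c) (hl : 0 ≤ l)
    (hF : ∀ z ∈ S, ‖cl z - m'‖ ≤ l ∧ F z ≤ c * (1 + ‖cl z - cl r‖ ^ 2)) :
    ∫⁻ z in S, ENNReal.ofReal (F z) ∂μ ≤ ENNReal.ofReal (c * (Λ * l)) := by
  refine (setLIntegral_mono' hS fun z hz => (ENNReal.ofReal_le_ofReal (hF z hz).2).trans_eq
    (ENNReal.ofReal_mul hc)).trans ?_
  rw [lintegral_const_mul' _ _ ENNReal.ofReal_ne_top, ENNReal.ofReal_mul hc]
  refine mul_le_mul_right ((lintegral_mono_set fun z hz => ?_).trans (h.u2 m'.re l hl)) _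
  exact le_trans (abs_re_le_norm (cl z - m')) (hF z hz).1

lemma far (h : Law0 μ r Λ) {S : Set ℂ} (hS : MeasurableSet S) {F : ℂ → ℝ} {c s : ℝ}
    (hc : 0 ≤ c) (hs : 0 < s) (hF : ∀ z ∈ S, s < ‖cl z - cl r‖ ∧ F z ≤ c) :
    ∫⁻ z in S, ENNReal.ofReal (F z) ∂μ ≤ ENNReal.ofReal (c * (Λ / s)) := by
  refine (setLIntegral_mono' hS fun z hz => ENNReal.ofReal_le_ofReal (hF z hz).2).trans ?_
  rw [setLIntegral_const, ENNReal.ofReal_mul hc]
  exact mul_le_mul_right ((measure_mono fun z hz => (hF z hz).1).trans (h.u3 s hs)) _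

/-- on the event `|t| > min (|a| / 2, |b| / (4 ε))` -/
lemma large {m m' z : ℂ} (hm : 0 < m.im) (hm' : 0 < m'.im) {ε : ℝ} (hε : 0 < ε) (hε1 : ε ≤ 1 / 4)
    (hz : z ∈ small r m m' ε) :
    ‖cl r - m'‖ < 2 * ‖cl z - cl r‖ ∨ ‖cl r - m‖ < 4 * ε * ‖cl z - cl r‖ := by
  have hA : 0 < ‖cl r - m'‖ := by linarith [im_le r m', abs_nonneg r.im]
  have hB : 0 < ‖cl r - m‖ := by linarith [im_le r m, abs_nonneg r.im]
  refine (lt_or_ge _ _).imp_right fun hT => ?_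
  have e := ev hm hm' hz
  have t1 := tri (cl r) (cl z) m'
  have t2 := tri (cl z) (cl r) m
  rw [norm_sub_rev (cl r) (cl z)] at t1
  have h1 : ‖cl r - m'‖ * (‖cl r - m‖ / 2) <
      ‖cl r - m'‖ * (ε * (‖cl z - cl r‖ + ‖cl r - m‖)) := by
    nlinarith [mul_le_mul_of_nonneg_left t2 (mul_pos hε hA).le]
  have h2 := lt_of_mul_lt_mul_left h1 hA.le
  nlinarith [mul_nonneg hε.le (norm_nonneg (cl z - cl r))]

/-- the case `ε |a| ≤ |b| / 2` -/
lemma close {m m' z : ℂ} (hm : 0 < m.im) (hm' : 0 < m'.im) {ε : ℝ} (hε : 0 < ε)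
    (hc : 2 * ε * ‖cl r - m'‖ ≤ ‖cl r - m‖) (hz : z ∈ small r m m' ε) :
    ‖cl z - m'‖ < 2 * ε * ‖cl r - m'‖ * ‖m - m'‖ / ‖cl r - m‖ ∧
      2 * ‖m - m'‖ ≤ 3 * ‖cl z - m‖ ∧ ‖cl z - m'‖ < ‖m - m'‖ := by
  have hA : 0 < ‖cl r - m'‖ := by linarith [im_le r m', abs_nonneg r.im]
  have hB : 0 < ‖cl r - m‖ := by linarith [im_le r m, abs_nonneg r.im]
  have e := ev hm hm' hz
  have t1 := tri (cl z) m' m
  have t2 := tri m (cl z) m'
  rw [norm_sub_rev m' m] at t1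
  rw [norm_sub_rev m (cl z)] at t2
  have h1 : 2 * ‖cl z - m'‖ < ‖cl z - m‖ := by
    refine lt_of_mul_lt_mul_right ?_ hB.le
    nlinarith [mul_le_mul_of_nonneg_right hc (norm_nonneg (cl z - m))]
  refine ⟨(lt_div_iff₀ hB).2 ?_, by linarith, by linarith⟩
  nlinarith [mul_le_mul_of_nonneg_left t1 (mul_pos hε hA).le,
    mul_le_mul_of_nonneg_right hc (norm_nonneg (cl z - m'))]

lemma basic (h : Law0 μ r Λ) {m : ℂ} (hm : 0 < m.im) {ε : ℝ} (hε1 : ε ≤ (Λ ^ 2)⁻¹) :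
    1 ≤ Λ * ‖cl r - m‖ ∧ ε * Λ ≤ 1 / 100 ∧ ε ≤ 1 / 10000 := by
  have hΛ := h.big
  have h0 : 0 < Λ := by linarith
  have h1 : ε * Λ ^ 2 ≤ 1 := by rwa [← le_div_iff₀ (by positivity), one_div]
  refine ⟨?_, ?_, ?_⟩
  · rw [← div_le_iff₀' h0, one_div]
    linarith [h.sig, im_le r m]
  · by_contra hc
    nlinarith
  · by_contra hc
    have : (10000 : ℝ) ≤ Λ ^ 2 := by nlinarith
    nlinarith

end Mo

open Mo

/-- `t = cl z - cl r`, `a = m' - cl r`, `b = m - cl r`, `|a|, |b| ≥ σ ≥ Λ⁻¹`, `ρ = |a| / |b|`; the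
event is `|t - a| < ε ρ |t - b|`.  Case `ε (1 + ρ) ≤ 1/4`: `|t - a| < l := 2 ε ρ |a - b| ≤
2 ε |a| (1 + ρ) ≤ |a| / 2`; `|a| ≤ 4`: `u2` gives `40 Λ² ε`; `|a| > 4`: `|t| ≥ |a| / 2`, the weight
gives `4 Λ l / |a|² ≤ 8 Λ ε (1/|a| + 1/|b|)`.  Else `|a| > |b| / (8 ε)` and the event forces
`|t| > |b| / (16 ε)` (if `|t| ≤ |a| / 2` then `1/2 < ε (1 + |t| / |b|)`): `u3`. -/
lemma Law0.moeb_prob (h : Law0 μ r Λ) {m m' : ℂ} (hm : 0 < m.im) (hm' : 0 < m'.im) {ε : ℝ}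
    (hε : 0 < ε) (hε1 : ε ≤ (Λ ^ 2)⁻¹) : μ (small r m m' ε) ≤ ENNReal.ofReal (Λ ^ 3 * ε) := by
  have hS := measurableSet_small r m m' ε
  have hΛ := h.big
  obtain ⟨b1, b2, b3⟩ := basic h hm hε1
  have hA : 0 < ‖cl r - m'‖ := by linarith [im_le r m', abs_nonneg r.im]
  have hB : 0 < ‖cl r - m‖ := by linarith [im_le r m, abs_nonneg r.im]
  have hB' : ‖cl r - m‖⁻¹ ≤ Λ := by rwa [inv_le_iff_one_le_mul₀ hB]
  have hΛε : 0 < Λ * ε := by positivity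
  have e1 : μ (small r m m' ε) = ∫⁻ _ in small r m m' ε, ENNReal.ofReal 1 ∂μ := by simp
  rw [e1]
  have hD : ‖m - m'‖ ≤ ‖cl r - m'‖ + ‖cl r - m‖ := by
    have := tri m (cl r) m'
    rw [norm_sub_rev m (cl r)] at this
    linarith
  rcases le_or_gt (8 * ε * ‖cl r - m'‖) ‖cl r - m‖ with hc | hc
  · refine (near h hS (m' := m') (c := (1 + ‖cl r - m'‖ ^ 2 / 4)⁻¹)
      (l := 2 * ε * ‖cl r - m'‖ * ‖m - m'‖ / ‖cl r - m‖) (by positivity) (by positivity)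
      fun z hz => ?_).trans (ENNReal.ofReal_le_ofReal ?_)
    · have h1 := (close hm hm' hε (by nlinarith) hz).1
      refine ⟨h1.le, ?_⟩
      have h2 : 2 * ε * ‖cl r - m'‖ * ‖m - m'‖ / ‖cl r - m‖ ≤ ‖cl r - m'‖ / 2 := by
        rw [div_le_iff₀ hB]
        nlinarith [mul_le_mul_of_nonneg_left hD (mul_pos hε hA).le, mul_pos hA hB,
          mul_le_mul_of_nonneg_left hc hA.le]
      have t1 := tri (cl r) (cl z) m'
      rw [norm_sub_rev (cl r) (cl z)] at t1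
      rw [le_inv_mul_iff₀ (by positivity)]
      nlinarith
    · rw [inv_mul_le_iff₀ (by positivity), div_eq_mul_inv]
      have h1 : ‖m - m'‖ * ‖cl r - m‖⁻¹ ≤ ‖cl r - m'‖ * Λ + 1 := by
        calc _ ≤ (‖cl r - m'‖ + ‖cl r - m‖) * ‖cl r - m‖⁻¹ := by gcongr
          _ = ‖cl r - m'‖ * ‖cl r - m‖⁻¹ + 1 := by field_simp
          _ ≤ _ := by gcongr
      have h2 : 2 * ‖cl r - m'‖ * (‖cl r - m'‖ * Λ + 1) ≤ (1 + ‖cl r - m'‖ ^ 2 / 4) * Λ ^ 2 := by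
        nlinarith [sq_nonneg (‖cl r - m'‖ - 1), mul_nonneg (sq_nonneg ‖cl r - m'‖)
          (mul_nonneg (show 0 ≤ Λ by linarith) (show 0 ≤ Λ - 100 by linarith)),
          mul_nonneg (sq_nonneg ‖cl r - m'‖) (show 0 ≤ Λ - 100 by linarith)]
      calc _ = Λ * ε * (2 * ‖cl r - m'‖ * (‖m - m'‖ * ‖cl r - m‖⁻¹)) := by ring
        _ ≤ Λ * ε * ((1 + ‖cl r - m'‖ ^ 2 / 4) * Λ ^ 2) :=
          mul_le_mul_of_nonneg_left (le_trans (by gcongr) h2) hΛε.le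
        _ = _ := by ring
  · refine (far h hS (c := 1) (s := ‖cl r - m‖ / (16 * ε)) zero_le_one (by positivity)
      fun z hz => ⟨?_, le_rfl⟩).trans (ENNReal.ofReal_le_ofReal ?_)
    · rw [div_lt_iff₀ (by positivity)]
      rcases large hm hm' hε (by linarith) hz with h1 | h1
      · nlinarith
      · nlinarith [mul_nonneg hε.le (norm_nonneg (cl z - cl r))]
    · calc _ = Λ * ε * (16 * ‖cl r - m‖⁻¹) := by field_simp
        _ ≤ Λ * ε * Λ ^ 2 := by gcongr; nlinarith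
        _ = _ := by ring

/-- Case `ε ρ ≤ 1/2`: on the event `|t - a| < l := 2 ε ρ |a - b| ≤ |a - b|`,
`|t - b| ≥ 2/3 |a - b|`, `Im m ≤ Im m' + |a - b| ≤ 2 |a - b|` (event nonempty); `u2` gives
`9/2 Λ ε ρ Im m / |a - b| ≤ 18 Λ ε` (`ρ ≤ 2`: done; `ρ ≥ 2`: `|a - b| ≥ |a| / 2`, `Im m ≤ |b|`).
Case `ε ρ > 1/2`: `|t| > |b| / (4 ε)`, `|t - b| ≥ |t| / 2`, the integrand is at most
`4 |b| (1 + 16 ε² / σ²)`, `u3` gives `17 Λ ε`. -/
lemma Law0.moeb_wt (h : Law0 μ r Λ) {m m' : ℂ} (hm : 0 < m.im) (hm' : 0 < m'.im) {ε : ℝ}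
    (hε : 0 < ε) (hε1 : ε ≤ (Λ ^ 2)⁻¹) :
    ∫⁻ z in small r m m' ε,
      ENNReal.ofReal ((1 + ‖cl z - cl r‖ ^ 2) * (m.im / ‖cl z - m‖ ^ 2)) ∂μ ≤
        ENNReal.ofReal (Λ ^ 2 * ε) := by
  have hS := measurableSet_small r m m' ε
  have hΛ := h.big
  obtain ⟨b1, b2, b3⟩ := basic h hm hε1
  have hA : 0 < ‖cl r - m'‖ := by linarith [im_le r m', abs_nonneg r.im]
  have hB : 0 < ‖cl r - m‖ := by linarith [im_le r m, abs_nonneg r.im]
  have hI : m.im ≤ ‖cl r - m‖ := by linarith [im_le r m, abs_nonneg r.im]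
  have hΛε : 0 < Λ * ε := by positivity
  rcases (small r m m' ε).eq_empty_or_nonempty with hE | ⟨z₀, hz₀⟩
  · simp [hE]
  rcases le_or_gt (2 * ε * ‖cl r - m'‖) ‖cl r - m‖ with hc | hc
  · have h0 := (close hm hm' hε hc hz₀).2.2
    have hD : 0 < ‖m - m'‖ := (norm_nonneg _).trans_lt h0
    have hI' : m.im ≤ 2 * ‖m - m'‖ := by
      have h1 := (le_abs_self _).trans (abs_im_le_norm (m - m'))
      rw [sub_im] at h1
      linarith [im_le z₀ m', abs_nonneg z₀.im]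
    refine (near h hS (m' := m') (c := 9 / 4 * m.im / ‖m - m'‖ ^ 2)
      (l := 2 * ε * ‖cl r - m'‖ * ‖m - m'‖ / ‖cl r - m‖) (by positivity) (by positivity)
      fun z hz => ?_).trans (ENNReal.ofReal_le_ofReal ?_)
    · obtain ⟨h1, h2, -⟩ := close hm hm' hε hc hz
      refine ⟨h1.le, ?_⟩
      rw [mul_comm]
      refine mul_le_mul_of_nonneg_right ?_ (by positivity)
      rw [div_le_div_iff₀ (pow_pos (by linarith) 2) (by positivity)]
      nlinarith [mul_le_mul_of_nonneg_left (pow_le_pow_left₀ (by positivity) h2 2) hm.le]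
    · have h1 : ‖cl r - m'‖ * m.im ≤ 3 * (‖cl r - m‖ * ‖m - m'‖) := by
        nlinarith [mul_le_mul_of_nonneg_right (tri (cl r) m m') hm.le,
          mul_le_mul_of_nonneg_left hI' hB.le, mul_le_mul_of_nonneg_left hI hD.le]
      calc _ = Λ * ε * (9 / 2 * (‖cl r - m'‖ * m.im / (‖cl r - m‖ * ‖m - m'‖))) := by
            field_simp; ring
        _ ≤ Λ * ε * Λ := by
          gcongr
          linarith [(div_le_iff₀ (mul_pos hB hD)).2 h1]
        _ = _ := by ring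
  · refine (far h hS (c := 8 * ‖cl r - m‖) (s := ‖cl r - m‖ / (4 * ε)) (by positivity)
      (by positivity) fun z hz => ?_).trans (ENNReal.ofReal_le_ofReal ?_)
    · have h1 : ‖cl r - m‖ < 4 * ε * ‖cl z - cl r‖ :=
        (large hm hm' hε (by linarith) hz).elim (fun h1 => by nlinarith) id
      refine ⟨by rwa [div_lt_iff₀ (by positivity), mul_comm], ?_⟩
      have hT := norm_nonneg (cl z - cl r)
      have h2 : 1 ≤ ‖cl z - cl r‖ := by
        nlinarith [mul_le_mul_of_nonneg_left h1.le (show 0 ≤ Λ by linarith),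
          mul_le_mul_of_nonneg_right b2 hT]
      have t1 := tri (cl z) m (cl r)
      rw [norm_sub_rev m] at t1
      have h3 : ‖cl z - cl r‖ ≤ 2 * ‖cl z - m‖ := by nlinarith
      have h4 : 1 + ‖cl z - cl r‖ ^ 2 ≤ 8 * ‖cl z - m‖ ^ 2 := by nlinarith
      rw [← mul_div_assoc, div_le_iff₀ (pow_pos (by linarith) 2)]
      nlinarith [mul_le_mul h4 hI hm.le (by positivity)]
    · calc _ = Λ * ε * 32 := by field_simp; ring
        _ ≤ Λ * ε * Λ := by gcongr; linarith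
        _ = _ := by ring

end Crest.Agent.N334.T
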