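import Crest.Agent.N334.T.Mat

/-!
# Row 334, engine T: graph combinatorics (leaf T-Path)
-/

set_option autoImplicit false
set_option linter.unusedSectionVars false

open MeasureTheory Complex Finset Function
open scoped ENNReal

namespace Crest.Agent.N334.T

variable {V : Type} [Fintype V] [DecidableEq V] {G : SimpleGraph V}

lemma mem_ball_succ {x y : V} {n : ℕ} :
    y ∈ ball G x (n + 1) ↔ y ∈ ball G x n ∨ ∃ v ∈ ball G x n, y ∈ nbr G v := by
  simp [ball]

lemma ball_mono (x : V) {n m : ℕ} (h : n ≤ m) : ball G x n ⊆ ball G x m := by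
  induction m, h using Nat.le_induction with
  | base => exact Subset.rfl
  | succ m _ ih => exact fun y hy => mem_ball_succ.2 (Or.inl (ih hy))

lemma self_mem_ball (x : V) (n : ℕ) : x ∈ ball G x n := ball_mono x n.zero_le (by simp [ball])

lemma nbr_subset_ball (x : V) : nbr G x ⊆ ball G x 1 := by
  intro y hy
  exact mem_ball_succ.2 (Or.inr ⟨x, self_mem_ball x 0, hy⟩)

lemma ball_add {x y : V} {n : ℕ} (h : y ∈ ball G x n) (m : ℕ) :
    ball G y m ⊆ ball G x (n + m) := by
  induction m with
  | zero =>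
    intro v hv
    have : v = y := by simpa [ball] using hv
    simpa [this] using h
  | succ m ih =>
    intro v hv
    rw [← add_assoc, mem_ball_succ]
    rcases mem_ball_succ.1 hv with hv | ⟨u, hu, hv⟩
    · exact Or.inl (ih hv)
    · exact Or.inr ⟨u, ih hu, hv⟩

lemma mem_ball_iff {x y : V} {n : ℕ} : y ∈ ball G x n ↔ ∃ p : G.Walk x y, p.length ≤ n := by
  constructor
  · intro h
    induction n generalizing y with
    | zero =>
      have : y = x := by simpa [ball] using h
      subst this
      exact ⟨.nil, le_rfl⟩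
    | succ n ih =>
      rcases mem_ball_succ.1 h with h | ⟨u, hu, h⟩
      · obtain ⟨p, hp⟩ := ih h
        exact ⟨p, hp.trans n.le_succ⟩
      · obtain ⟨p, hp⟩ := ih hu
        exact ⟨p.concat (mem_nbr.1 h), by simpa using hp⟩
  · rintro ⟨p, hp⟩
    refine ball_mono x hp ?_
    clear hp
    induction p with
    | nil => exact self_mem_ball _ _
    | cons h p ih =>
      have := ball_add (nbr_subset_ball _ (mem_nbr.2 h)) _ ih
      simpa [add_comm] using this

lemma ball_symm {x y : V} {n : ℕ} (h : y ∈ ball G x n) : x ∈ ball G y n := by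
  obtain ⟨p, hp⟩ := mem_ball_iff.1 h
  exact mem_ball_iff.2 ⟨p.reverse, by simpa using hp⟩

lemma ball_subset_insert (x : V) (n : ℕ) :
    ball G x (n + 1) ⊆ insert x ((ball G x n).biUnion (nbr G)) := by
  induction n with
  | zero =>
    intro y hy
    rcases mem_ball_succ.1 hy with h | h
    · have : y = x := by simpa [ball] using h
      simp [this]
    · exact mem_insert_of_mem (mem_biUnion.2 h)
  | succ n ih =>
    intro y hy
    rcases mem_ball_succ.1 hy with h | h
    · rcases mem_insert.1 (ih h) with h | h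
      · simp [h]
      · obtain ⟨v, hv, h⟩ := mem_biUnion.1 h
        exact mem_insert_of_mem (mem_biUnion.2 ⟨v, ball_mono x n.le_succ hv, h⟩)
    · exact mem_insert_of_mem (mem_biUnion.2 h)

lemma card_ball_succ (hd : Deg G) (x : V) (n : ℕ) :
    (ball G x (n + 1)).card ≤ 4 * (ball G x n).card + 1 := by
  refine (card_le_card (ball_subset_insert x n)).trans ((card_insert_le _ _).trans ?_)
  have := card_biUnion_le_card_mul (ball G x n) (nbr G) 4 fun v _ => hd v
  omega

lemma card_ball3 (hd : Deg G) (x : V) : (ball G x 3).card ≤ 85 := by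
  have h0 : (ball G x 0).card = 1 := by simp [ball]
  have h1 := card_ball_succ hd x 0
  have h2 := card_ball_succ hd x 1
  have h3 := card_ball_succ hd x 2
  norm_num at h1 h2 h3
  omega

/-- a vertex of a walk is close to both ends -/
lemma support_ball {x y v : V} (p : G.Walk x y) (hv : v ∈ p.support) :
    ∃ i j, i + j = p.length ∧ v ∈ ball G x i ∧ v ∈ ball G y j := by
  refine ⟨(p.takeUntil v hv).length, (p.dropUntil v hv).length, ?_,
    mem_ball_iff.2 ⟨_, le_rfl⟩, ball_symm (mem_ball_iff.2 ⟨_, le_rfl⟩)⟩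
  rw [← SimpleGraph.Walk.length_append, SimpleGraph.Walk.take_spec]

/-- the part of a walk after its last visit to `S` -/
lemma last_visit (S : Finset V) {y z : V} (p : G.Walk y z) (h : ∃ v ∈ p.support, v ∈ S) :
    ∃ v ∈ S, ∃ q : G.Walk v z, q.length ≤ p.length ∧ (∀ u ∈ q.support, u ∈ p.support) ∧
      ∀ u ∈ q.support, u ∈ S → u = v := by
  induction p with
  | nil =>
    obtain ⟨v, hv, hS⟩ := h
    simp only [SimpleGraph.Walk.support_nil, List.mem_singleton] at hv
    subst hv
    exact ⟨v, hS, .nil, le_rfl, fun _ h => h, by simp⟩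
  | @cons a b c hab p ih =>
    by_cases h' : ∃ v ∈ p.support, v ∈ S
    · obtain ⟨v, hv, q, h1, h2, h3⟩ := ih h'
      refine ⟨v, hv, q, by simp; omega, fun u hu => ?_, h3⟩
      simp [h2 u hu]
    · obtain ⟨v, hv, hS⟩ := h
      simp only [SimpleGraph.Walk.support_cons, List.mem_cons] at hv
      rcases hv with rfl | hv
      · refine ⟨v, hS, .cons hab p, le_rfl, fun _ h => h, fun u hu huS => ?_⟩
        simp only [SimpleGraph.Walk.support_cons, List.mem_cons] at hu
        exact hu.resolve_right fun hu => h' ⟨u, hu, huS⟩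
      · exact absurd ⟨v, hv, hS⟩ h'

/-- a walk that avoids `S` lives in `cut G S` -/
lemma walk_cut (S : Finset V) {y z : V} (p : G.Walk y z) (h : ∀ u ∈ p.support, u ∉ S) :
    ∃ q : (cut G S).Walk y z, q.length = p.length ∧ q.support = p.support := by
  induction p with
  | nil => exact ⟨.nil, rfl, rfl⟩
  | @cons a b c hab p ih =>
    obtain ⟨q, h1, h2⟩ := ih fun u hu => h u (by simp [hu])
    exact ⟨.cons ⟨hab, h a (by simp), h b (by simp)⟩ q, by simp [h1], by simp [h2]⟩

lemma exists_thread_aux (n : ℕ) : ∀ (G : SimpleGraph V), Deg G → ∀ (x z : V) (p : G.Walk x z),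
    p.length ≤ n →
    ∃ P N : Finset V, (∀ v ∈ P, v ∈ p.support) ∧ x ∈ P ∧ z ∈ P ∧ Disjoint P N ∧
      (∀ n ∈ N, ∃ v ∈ P, v ≠ z ∧ n ∈ nbr G v) ∧ P.card ≤ p.length + 1 ∧
      N.card ≤ 4 * p.length ∧ Thread (cut G N) P x z := by
  have triv : ∀ (G : SimpleGraph V) (z : V) (p : G.Walk z z),
      ∃ P N : Finset V, (∀ v ∈ P, v ∈ p.support) ∧ z ∈ P ∧ z ∈ P ∧ Disjoint P N ∧
      (∀ n ∈ N, ∃ v ∈ P, v ≠ z ∧ n ∈ nbr G v) ∧ P.card ≤ p.length + 1 ∧
      N.card ≤ 4 * p.length ∧ Thread (cut G N) P z z := fun G z p =>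
    ⟨{z}, ∅, by simp, by simp, by simp, by simp, by simp, by simp, by simp, .nil _ _⟩
  induction n with
  | zero =>
    intro G _ x z p hp
    obtain rfl := p.eq_of_length_eq_zero (by omega)
    exact triv G _ p
  | succ n ih =>
    intro G hd x z p hp
    by_cases hxz : x = z
    · subst hxz
      exact triv G _ p
    cases p with
    | nil => exact absurd rfl hxz
    | @cons _ a _ hxa p =>
      obtain ⟨v, hv, q, h1, h2, h3⟩ := last_visit (insert x (nbr G x)) p
        ⟨a, p.start_mem_support, mem_insert_of_mem (mem_nbr.2 hxa)⟩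
      have hvx : v ≠ x := by
        rintro rfl
        cases q with
        | nil => exact hxz rfl
        | @cons _ b _ hb q =>
          exact hb.ne' (h3 b (by simp) (mem_insert_of_mem (mem_nbr.2 hb)))
      have hvn : v ∈ nbr G x := (mem_insert.1 hv).resolve_left hvx
      set N₀ := (nbr G x).erase v with hN₀
      have hav : ∀ u ∈ q.support, u ∉ insert x N₀ := by
        intro u hu hu'
        rcases mem_insert.1 hu' with rfl | hu'
        · exact hvx (h3 u hu (mem_insert_self _ _)).symm
        · exact (mem_erase.1 hu').1 (h3 u hu (mem_insert_of_mem (mem_erase.1 hu').2))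
      obtain ⟨q', e1, e2⟩ := walk_cut (insert x N₀) q hav
      simp only [SimpleGraph.Walk.length_cons] at hp ⊢
      obtain ⟨P, N, k1, k2, k3, k4, k5, k6, k7, k8⟩ :=
        ih (cut G (insert x N₀)) (hd.cut _) v z q' (by omega)
      rw [e2] at k1
      have hxP : x ∉ P := fun h => hav x (k1 x h) (mem_insert_self _ _)
      have hxN : x ∉ N := by
        intro h
        obtain ⟨u, -, -, hu⟩ := k5 x h
        exact (mem_nbr_cut.1 hu).2.2 (mem_insert_self _ _)
      have hxN₀ : x ∉ N₀ := fun h => G.irrefl (mem_nbr.1 (mem_erase.1 h).2)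
      refine ⟨insert x P, N₀ ∪ N, ?_, mem_insert_self _ _, mem_insert_of_mem k3, ?_, ?_, ?_, ?_, ?_⟩
      · intro u hu
        rcases mem_insert.1 hu with rfl | hu
        · simp
        · simp [h2 u (k1 u hu)]
      · rw [disjoint_left]
        intro u hu hu'
        rcases mem_insert.1 hu with rfl | hu <;> rcases mem_union.1 hu' with hu' | hu'
        · exact hxN₀ hu'
        · exact hxN hu'
        · exact hav u (k1 u hu) (mem_insert_of_mem hu')
        · exact disjoint_left.1 k4 hu hu'
      · intro u hu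
        rcases mem_union.1 hu with hu | hu
        · exact ⟨x, mem_insert_self _ _, hxz, (mem_erase.1 hu).2⟩
        · obtain ⟨w, w1, w2, w3⟩ := k5 u hu
          exact ⟨w, mem_insert_of_mem w1, w2, (mem_nbr_cut.1 w3).1⟩
      · have := card_insert_le x P
        omega
      · have := card_union_le N₀ N
        have h4 : N₀.card ≤ 4 := (card_erase_le).trans (hd x)
        omega
      · refine .cons _ P x v z hxP ?_ ?_
        · ext y
          rw [mem_nbr_cut, mem_singleton]
          constructor
          · rintro ⟨y1, -, y2⟩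
            by_contra hy
            exact y2 (mem_union_left _ (mem_erase.2 ⟨hy, y1⟩))
          · rintro rfl
            refine ⟨hvn, by simp [hxN, hxN₀], fun h => ?_⟩
            rcases mem_union.1 h with h | h
            · exact (mem_erase.1 h).1 rfl
            · exact disjoint_left.1 k4 k2 h
        · rw [cut_cut] at k8 ⊢
          have : N₀ ∪ N ∪ {x} = insert x N₀ ∪ N := by
            ext y; simp only [mem_union, mem_singleton, mem_insert]; tauto
          rw [this]
          exact k8

/-- Strong induction on the length, for all graphs.  If `x = z` take `P = {z}`, `N = ∅`.  Else let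
`p'` be the LAST vertex of the walk adjacent to `x` after the last visit of `x`; the rest of the walk
lives in `cut G (insert x N₀)`, `N₀ = (nbr G x).erase p'`; take `N = N₀ ∪ N'`. -/
lemma exists_thread (hd : Deg G) {x z : V} (p : G.Walk x z) :
    ∃ P N : Finset V, (∀ v ∈ P, v ∈ p.support) ∧ x ∈ P ∧ z ∈ P ∧ Disjoint P N ∧
      (∀ n ∈ N, ∃ v ∈ P, v ≠ z ∧ n ∈ nbr G v) ∧ P.card ≤ p.length + 1 ∧
      N.card ≤ 4 * p.length ∧ Thread (cut G N) P x z := by
  exact exists_thread_aux _ G hd x z p le_rfl

/-- `exists_thread` for the reversed walk of the invariant -/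
lemma Inv.thread (hd : Deg G) {R : Finset V} {z x₀ : V} {l : ℕ} (h : Inv G R z x₀ l) :
    ∃ P N : Finset V, P ∪ N ⊆ R ∧ x₀ ∈ P ∧ z ∈ P ∧ Disjoint P N ∧ P.card ≤ l + 1 ∧
      N.card ≤ 4 * l ∧ Thread (cut G N) P x₀ z ∧ z ∈ ball G x₀ l ∧
      ∀ t ∈ P ∪ N, t ∈ ball G x₀ (l + 3) ∧ nbr G t ⊆ (R ∪ ball G z 3) ∩ ball G x₀ (l + 3) := by
  obtain ⟨hz, p, hp, hs⟩ := h
  obtain ⟨P, N, k1, k2, k3, k4, k5, k6, k7, k8⟩ := exists_thread hd p.reverse
  simp only [SimpleGraph.Walk.support_reverse, List.mem_reverse,
    SimpleGraph.Walk.length_reverse] at k1 k6 k7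
  refine ⟨P, N, ?_, k2, k3, k4, by omega, by omega, k8,
    ball_symm (mem_ball_iff.2 ⟨p, hp⟩), ?_⟩
  · intro u hu
    rcases mem_union.1 hu with hu | hu
    · by_cases huz : u = z
      · exact huz ▸ hz
      · exact (hs u (k1 u hu)).1 huz (self_mem_ball _ _)
    · obtain ⟨v, v1, v2, v3⟩ := k5 u hu
      exact (hs v (k1 v v1)).1 v2 (nbr_subset_ball _ v3)
  · intro t ht
    obtain ⟨v, v1, v2⟩ : ∃ v ∈ p.support, t ∈ ball G v 1 := by
      rcases mem_union.1 ht with ht | ht
      · exact ⟨t, k1 t ht, self_mem_ball _ _⟩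
      · obtain ⟨v, v1, -, v3⟩ := k5 t ht
        exact ⟨v, k1 v v1, nbr_subset_ball _ v3⟩
    obtain ⟨i, j, hij, -, hj⟩ := support_ball p v1
    have h2 : nbr G t ⊆ ball G v 2 := (nbr_subset_ball t).trans (ball_add v2 1)
    refine ⟨ball_mono x₀ (by omega) (ball_add hj 1 v2), subset_inter (h2.trans (hs v v1).2) ?_⟩
    exact h2.trans ((ball_add hj 2).trans (ball_mono x₀ (by omega)))

/-- prepend a shortest walk from `z'` to `z`: its `j`-th vertex is in `ball z (3 - j)` and in
`ball z' j` -/
lemma Inv.step {R : Finset V} {z x₀ z' : V} {l : ℕ} (h : Inv G R z x₀ l) (hz : z' ∈ ball G z 3) :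
    Inv G (R ∪ ball G z 3) z' x₀ (l + 3) := by
  obtain ⟨-, p, hp, hs⟩ := h
  obtain ⟨s, hs'⟩ := mem_ball_iff.1 (ball_symm hz)
  refine ⟨mem_union_right _ hz, s.append p, by simp; omega, fun q hq => ?_⟩
  rcases (SimpleGraph.Walk.mem_support_append_iff s p).1 hq with hq | hq
  · obtain ⟨i, j, hij, hi, hj⟩ := support_ball s hq
    constructor
    · intro hne
      have hi0 : i ≠ 0 := by
        rintro rfl
        exact hne (by simpa [ball] using hi)
      exact ((ball_add hj 1).trans (ball_mono z (by omega))).trans subset_union_right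
    · rcases le_or_gt i 1 with h1 | h1
      · exact ((ball_add hi 2).trans (ball_mono z' (by omega))).trans subset_union_right
      · exact (((ball_add hj 2).trans (ball_mono z (by omega))).trans subset_union_right).trans
          subset_union_left
  · exact ⟨fun _ => (ball_mono q (by omega)).trans (hs q hq).2,
      (hs q hq).2.trans subset_union_left⟩

/-- a walk of length `≤ ρ` from `x` to `y`: its `j`-th vertex is in
`ball y (ρ - j)` and in `ball x j` -/
lemma inv_ball {x y : V} {ρ : ℕ} (h : x ∈ ball G y ρ) : Inv G (ball G y ρ) x y ρ := by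
  obtain ⟨s, hs'⟩ := mem_ball_iff.1 (ball_symm h)
  refine ⟨h, s, hs', fun q hq => ?_⟩
  obtain ⟨i, j, hij, hi, hj⟩ := support_ball s hq
  constructor
  · intro hne
    have hi0 : i ≠ 0 := by
      rintro rfl
      exact hne (by simpa [ball] using hi)
    exact (ball_add hj 1).trans (ball_mono y (by omega))
  · rcases le_or_gt i 1 with h1 | h1
    · exact ((ball_add hi 2).trans (ball_mono x (by omega))).trans subset_union_right
    · exact ((ball_add hj 2).trans (ball_mono y (by omega))).trans subset_union_left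

end Crest.Agent.N334.T
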