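import Crest.Agent.N334.T.Lower
import Crest.Agent.N334.T.Moeb
import Crest.Agent.N334.T.Path

/-!
# Row 334, engine T: one step of the recursion (helper86)
-/

set_option autoImplicit false
set_option linter.unusedSectionVars false

open MeasureTheory Complex Finset Function
open scoped ENNReal

namespace Crest.Agent.N334.T

variable {V : Type} [Fintype V] [DecidableEq V] (E : Env V)

namespace Hv

/-- indicator of `|phi T| < c` with `Q` frozen -/
noncomputable def HI (T Q : Finset V) (c : ℝ) (w : V → ℂ) : ℝ≥0∞ :=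
  if ‖phi E.G E.η T (fz E.r Q w)‖ < c then 1 else 0

/-- indicator of a loss of a factor `ε` at the site `x` -/
noncomputable def SI (T Q : Finset V) (x : V) (ε : ℝ) (w : V → ℂ) : ℝ≥0∞ :=
  if ‖phi E.G E.η T (fz E.r Q w)‖ < ε * ‖phi E.G E.η T (fz E.r (insert x Q) w)‖ then 1 else 0

/-- the weight of the site `x` in the resolvent expansion -/
noncomputable def UW (Q : Finset V) (z x : V) (w : V → ℂ) : ℝ≥0∞ :=
  ENNReal.ofReal (‖Gr E.G E.η (fz E.r Q w) z x‖ ^ 2 * ‖cl (w x) - cl (E.r x)‖ ^ 2)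

lemma measurable_HI (T Q : Finset V) (c : ℝ) : Measurable (HI E T Q c) :=
  Measurable.ite (measurableSet_lt ((measurable_phi T).comp (measurable_fz _ _)).norm
    measurable_const) measurable_const measurable_const

lemma measurable_SI (T Q : Finset V) (x : V) (ε : ℝ) : Measurable (SI E T Q x ε) :=
  Measurable.ite (measurableSet_lt ((measurable_phi T).comp (measurable_fz _ _)).norm
    (((measurable_phi T).comp (measurable_fz _ _)).norm.const_mul ε)) measurable_const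
    measurable_const

lemma measurable_UW (Q : Finset V) (z x : V) : Measurable (UW E Q z x) :=
  ((((measurable_Gr z x).comp (measurable_fz _ _)).norm.pow_const 2).fun_mul
    (((measurable_cl.comp (measurable_pi_apply x)).sub_const _).norm.pow_const 2)).ennreal_ofReal

lemma HI_split (T Q : Finset V) (x : V) {ε : ℝ} (hε : 0 ≤ ε) (c : ℝ) (w : V → ℂ) :
    HI E T Q (ε * c) w ≤ SI E T Q x ε w + HI E T (insert x Q) c w := by
  unfold HI SI
  split_ifs with h1 h2 h3 h3 <;> try simp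
  exact absurd (h1.trans_le (mul_le_mul_of_nonneg_left (not_lt.1 h3) hε)) h2

lemma HI_update (T Q : Finset V) (x : V) (c : ℝ) (w : V → ℂ) (z : ℂ) :
    HI E T (insert x Q) c (update w x z) = HI E T (insert x Q) c w := by
  simp only [HI, fz_update_mem _ _ (mem_insert_self x Q)]

lemma SI_update {T Q : Finset V} {x : V} (hT : x ∉ T) (hQ : x ∉ Q) (ε : ℝ) {w : V → ℂ} {m : ℂ}
    {ρ : V → ℂ} {q : V → V → ℂ} (h : Cav E.G E.η (fz E.r Q w) x m ρ q) :
    ∃ m' : ℂ, 0 < m'.im ∧ ∀ z, SI E T Q x ε (update w x z) ≤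
      (small (E.r x) m m' ε).indicator 1 z := by
  obtain ⟨m', h1, h2⟩ := phi_update E.η0 E.η1 hT h
  refine ⟨m', E.η0.trans_le h1, fun z => ?_⟩
  rw [SI, fz_update_mem _ _ (mem_insert_self x Q), fz_update_notMem _ _ hQ, fz_insert]
  split_ifs with h3
  · refine (Set.indicator_of_mem ?_ (1 : ℂ → ℝ≥0∞)).ge
    have hA : 0 < ‖phi E.G E.η T (update (fz E.r Q w) x (E.r x))‖ :=
      norm_pos_iff.2 (div_ne_zero (dt_ne E.η0 _ _) (dt_ne E.η0 _ _))
    have hB : 0 < ‖(cl z - m) / (cl (E.r x) - m)‖ :=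
      norm_pos_iff.2 (div_ne_zero (h.ne E.η0 _) (h.ne E.η0 _))
    rw [h2 z (E.r x), norm_div, norm_mul, div_lt_iff₀ hB, mul_right_comm, mul_comm] at h3
    exact lt_of_mul_lt_mul_right h3 hA.le
  · exact zero_le

variable {E} {Λ ε : ℝ}

lemma eps_le {x : V} (hΛ : E.Λ x ≤ Λ) (hε1 : ε ≤ (Λ ^ 2)⁻¹) : ε ≤ (E.Λ x ^ 2)⁻¹ := by
  have := (E.law x).big
  exact hε1.trans (inv_anti₀ (by positivity) (by gcongr))

lemma site_SI {T Q : Finset V} {x : V} (hT : x ∉ T) (hQ : x ∉ Q) (hΛ : E.Λ x ≤ Λ) (hε : 0 < ε)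
    (hε1 : ε ≤ (Λ ^ 2)⁻¹) (w : V → ℂ) :
    ∫⁻ z, SI E T Q x ε (update w x z) ∂E.μ x ≤ ENNReal.ofReal (Λ ^ 3 * ε) := by
  obtain ⟨m, ρ, q, h⟩ := exists_cav (G := E.G) E.η0 E.η1 (fz E.r Q w) x
  obtain ⟨m', h1, h2⟩ := SI_update E hT hQ ε h
  refine (lintegral_mono h2).trans ?_
  rw [lintegral_indicator_one (measurableSet_small _ _ _ _)]
  have := (E.law x).big
  exact ((E.law x).toLaw0.moeb_prob (E.η0.trans_le h.im_ge) h1 hε (eps_le hΛ hε1)).trans
    (ENNReal.ofReal_le_ofReal (by gcongr))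

/-- LEMMA A -/
lemma lm_HI {T X : Finset V} (hT : Disjoint X T) (hΛ0 : 0 ≤ Λ) (hΛ : ∀ x ∈ X, E.Λ x ≤ Λ)
    (hε : 0 < ε) (hε1 : ε ≤ (Λ ^ 2)⁻¹) {c : ℝ} (S : Finset V) (hS : S ⊆ X) :
    ∀ Q : Finset V, Disjoint S Q → (∀ w, c ≤ ‖phi E.G E.η T (fz E.r (Q ∪ S) w)‖) → ∀ w,
      lmarginal E.μ X (HI E T Q (ε ^ S.card * c)) w ≤ ENNReal.ofReal (S.card * (Λ ^ 3 * ε)) := by
  induction S using Finset.induction_on with
  | empty =>
    intro Q _ hc w
    refine (lm_mono E.μ X (g := fun _ => 0) (fun w => ?_) w).trans (by simp [lm_const])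
    have := hc w
    rw [union_empty] at this
    simp [HI, this]
  | insert x S hx ih =>
    intro Q hQ hc w
    have hxX := hS (mem_insert_self x S)
    rw [card_insert_of_notMem hx, pow_succ', mul_assoc]
    refine (lm_mono E.μ X (HI_split E T Q x hε.le _) w).trans ?_
    rw [lm_add _ _ (measurable_SI E T Q x ε), Nat.cast_succ, add_mul, one_mul, add_comm _ (_ * ε),
      ENNReal.ofReal_add (by positivity) (by positivity)]
    refine add_le_add ?_ (ih ((subset_insert x S).trans hS) _ ?_ (fun w => ?_) w)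
    · rw [lm_site E.μ hxX (measurable_SI E T Q x ε)]
      exact (lm_mono E.μ X (site_SI (disjoint_left.1 hT hxX) (disjoint_left.1 hQ
        (mem_insert_self x S)) (hΛ x hxX) hε hε1) w).trans_eq (lm_const _ _ _ _)
    · exact disjoint_insert_right.2 ⟨hx, (disjoint_insert_left.1 hQ).2⟩
    · rw [insert_union, ← union_insert]
      exact hc w

lemma UW_update {Q : Finset V} {x z : V} (hQ : x ∉ Q) (hz : z ∈ Q) (hΛ : E.Λ z ≤ Λ) {w : V → ℂ}
    {m : ℂ} {ρ : V → ℂ} {q : V → V → ℂ} (h : Cav E.G E.η (fz E.r Q w) x m ρ q) (v : ℂ) :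
    UW E Q z x (update w x v) ≤ ENNReal.ofReal Λ *
      ENNReal.ofReal ((1 + ‖cl v - cl (E.r x)‖ ^ 2) * (m.im / ‖cl v - m‖ ^ 2)) := by
  have h0 := (E.law z).big
  have h1 := h.ward1 E.η0 (p := z) fun e => hQ (e ▸ hz)
  rw [fz_mem hz] at h1
  have h2 : Λ⁻¹ ≤ dmp E.η (E.r z) :=
    (inv_anti₀ (by positivity) hΛ).trans ((E.law z).sig.trans (le_add_of_nonneg_left E.η0.le))
  have h3 : ‖ρ z‖ ^ 2 ≤ Λ * m.im := by
    rw [← inv_mul_le_iff₀ (by linarith)]
    exact (mul_le_mul_of_nonneg_right h2 (sq_nonneg _)).trans h1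
  rw [UW, fz_update_notMem _ _ hQ, h.col, update_self, ← ENNReal.ofReal_mul (by linarith)]
  refine ENNReal.ofReal_le_ofReal ?_
  have h4 : 0 ≤ Λ * m.im := (sq_nonneg _).trans h3
  calc _ = ‖ρ z‖ ^ 2 * ‖cl v - cl (E.r x)‖ ^ 2 / ‖cl v - m‖ ^ 2 := by
        rw [norm_div, div_pow]; ring
    _ ≤ Λ * m.im * (1 + ‖cl v - cl (E.r x)‖ ^ 2) / ‖cl v - m‖ ^ 2 := by
        gcongr
        linarith
    _ = _ := by ring

/-- LEMMA B -/
lemma lm_UW {T X Q : Finset V} (hT : Disjoint X T) (hQ : Disjoint X Q) (hX : X.card ≤ 85)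
    (hΛ0 : 100 ≤ Λ) (hΛ : ∀ x ∈ X, E.Λ x ≤ Λ) (hε : 0 < ε) (hε1 : ε ≤ (Λ ^ 2)⁻¹) {c : ℝ}
    (hc : ∀ w, c ≤ ‖phi E.G E.η T (fz E.r (Q ∪ X) w)‖) {x z : V} (hx : x ∈ X) (hz : z ∈ Q)
    (hΛz : E.Λ z ≤ Λ) (w : V → ℂ) :
    lmarginal E.μ X (fun w => UW E Q z x w * HI E T Q (ε ^ X.card * c) w) w ≤
      ENNReal.ofReal (681 * Λ ^ 5 * ε) := by
  have hxQ := disjoint_left.1 hQ hx
  have hb := (E.law x).big
  have hΛx := hΛ x hx
  rw [← card_erase_add_one hx, pow_succ', mul_assoc ε]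
  refine (lm_mono E.μ X (fun w => (mul_le_mul_right (HI_split E T Q x hε.le _ w) _).trans_eq
    (mul_add _ _ _)) w).trans ?_
  have m1 := (measurable_UW E Q z x).fun_mul (measurable_SI E T Q x ε)
  have m2 := (measurable_UW E Q z x).fun_mul
    (measurable_HI E T (insert x Q) (ε ^ (X.erase x).card * c))
  have e : 681 * Λ ^ 5 * ε = Λ ^ 5 * ε + 8 * Λ ^ 2 * (85 * (Λ ^ 3 * ε)) := by ring
  rw [lm_add _ _ m1, e, ENNReal.ofReal_add (by positivity) (by positivity)]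
  refine add_le_add ?_ ?_
  · rw [lm_site E.μ hx m1]
    refine (lm_mono E.μ X (fun w => ?_) w).trans_eq (lm_const _ _ _ _)
    obtain ⟨m, ρ, q, h⟩ := exists_cav (G := E.G) E.η0 E.η1 (fz E.r Q w) x
    obtain ⟨m', h1, h2⟩ := SI_update E (disjoint_left.1 hT hx) hxQ ε h
    refine (lintegral_mono (g := (small (E.r x) m m' ε).indicator fun v => ENNReal.ofReal Λ *
      ENNReal.ofReal ((1 + ‖cl v - cl (E.r x)‖ ^ 2) * (m.im / ‖cl v - m‖ ^ 2))) fun v => ?_).trans ?_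
    · refine (mul_le_mul' (UW_update hxQ hz hΛz h v) (h2 v)).trans_eq ?_
      by_cases hv : v ∈ small (E.r x) m m' ε <;> simp [hv]
    · rw [lintegral_indicator (measurableSet_small _ _ _ _),
        lintegral_const_mul' _ _ ENNReal.ofReal_ne_top]
      refine (mul_le_mul_right ((E.law x).toLaw0.moeb_wt (E.η0.trans_le h.im_ge) h1 hε
        (eps_le hΛx hε1)) _).trans ?_
      rw [← ENNReal.ofReal_mul (by linarith)]
      refine ENNReal.ofReal_le_ofReal ?_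
      calc _ ≤ Λ * (Λ ^ 2 * ε) * 1 := by rw [mul_one]; gcongr
        _ ≤ Λ * (Λ ^ 2 * ε) * Λ ^ 2 := by gcongr; nlinarith
        _ = _ := by ring
  · rw [lm_site E.μ hx m2]
    refine (lm_mono E.μ X (g := fun w => ENNReal.ofReal (8 * Λ ^ 2) *
      HI E T (insert x Q) (ε ^ (X.erase x).card * c) w) (fun w => ?_) w).trans ?_
    · obtain ⟨m, ρ, q, h⟩ := exists_cav (G := E.G) E.η0 E.η1 (fz E.r Q w) x
      simp only [HI_update]
      rw [lintegral_mul_const' _ _ (by unfold HI; split_ifs <;> simp)]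
      refine mul_le_mul_left ((lintegral_mono (UW_update hxQ hz hΛz h)).trans ?_) _
      rw [lintegral_const_mul' _ _ ENNReal.ofReal_ne_top]
      refine (mul_le_mul_right ((E.law x).u2.u1 (by linarith) (E.η0.trans_le h.im_ge)) _).trans ?_
      rw [← ENNReal.ofReal_mul (by linarith)]
      exact ENNReal.ofReal_le_ofReal (by nlinarith)
    · rw [lm_const_mul _ _ _ (measurable_HI E T _ _), ENNReal.ofReal_mul (p := 8 * Λ ^ 2) (by positivity)]
      refine mul_le_mul_right ((lm_HI hT (by linarith) hΛ hε hε1 _ (erase_subset x X) _ ?_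
        (fun w => ?_) w).trans (ENNReal.ofReal_le_ofReal ?_)) _
      · exact disjoint_insert_right.2 ⟨notMem_erase x X, hQ.mono_left (erase_subset x X)⟩
      · rw [insert_union, ← union_insert, insert_erase hx]
        exact hc w
      · have : ((X.erase x).card : ℝ) ≤ 85 := by exact_mod_cast card_erase_le.trans hX
        gcongr

/-- the resolvent expansion -/
lemma expand {X Q : Finset V} (hQ : Disjoint X Q) (hX : X.card ≤ 85) (z b : V) (w : V → ℂ) :
    ENNReal.ofReal (‖Gr E.G E.η (fz E.r Q w) z b‖ ^ 2) ≤ ENNReal.ofReal 170 *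
      (ENNReal.ofReal (‖Gr E.G E.η (fz E.r (Q ∪ X) w) z b‖ ^ 2) + ∑ x ∈ X,
        ENNReal.ofReal (‖Gr E.G E.η (fz E.r (Q ∪ X) w) x b‖ ^ 2) * UW E Q z x w) := by
  have h1 := resolvent_fz (G := E.G) E.η0 E.r (fz E.r Q w) X z b
  rw [fz_fz, union_comm] at h1
  simp only [UW]
  rw [sum_congr rfl fun x _ => (ENNReal.ofReal_mul (sq_nonneg _)).symm,
    ← ENNReal.ofReal_sum_of_nonneg fun x _ => by positivity,
    ← ENNReal.ofReal_add (by positivity) (by positivity), ← ENNReal.ofReal_mul (by norm_num)]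
  refine ENNReal.ofReal_le_ofReal ?_
  set f : V → ℝ := fun v => ‖Gr E.G E.η (fz E.r Q w) z v * (cl (fz E.r Q w v) - cl (E.r v)) *
    Gr E.G E.η (fz E.r (Q ∪ X) w) v b‖ with hf
  have h2 : ‖Gr E.G E.η (fz E.r Q w) z b‖ ≤ ‖Gr E.G E.η (fz E.r (Q ∪ X) w) z b‖ + ∑ v ∈ X, f v :=
    h1.symm ▸ (norm_sub_le _ _).trans (add_le_add_right (norm_sum_le _ _) _)
  have h3 : (∑ v ∈ X, f v) ^ 2 ≤ 85 * ∑ v ∈ X, f v ^ 2 :=
    sq_sum_le_card_mul_sum_sq.trans (mul_le_mul_of_nonneg_right (by exact_mod_cast hX)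
      (sum_nonneg fun _ _ => sq_nonneg _))
  have h4 : ∑ v ∈ X, f v ^ 2 = ∑ x ∈ X, ‖Gr E.G E.η (fz E.r (Q ∪ X) w) x b‖ ^ 2 *
      (‖Gr E.G E.η (fz E.r Q w) z x‖ ^ 2 * ‖cl (w x) - cl (E.r x)‖ ^ 2) :=
    sum_congr rfl fun v hv => by
      simp only [hf, norm_mul, fz_notMem (disjoint_left.1 hQ hv)]
      ring
  rw [← h4]
  have h5 := pow_le_pow_left₀ (norm_nonneg _) h2 2
  nlinarith [sq_nonneg (‖Gr E.G E.η (fz E.r (Q ∪ X) w) z b‖ - ∑ v ∈ X, f v),
    sq_nonneg ‖Gr E.G E.η (fz E.r (Q ∪ X) w) z b‖]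

variable {W : (V → ℂ) → ℝ≥0∞} {b : V} {k : ℝ}

/-- the part of the average on the exceptional set -/
lemma on_H (hW : Temp W b k) {T X Q : Finset V} (hb : b ∉ X) (hT : Disjoint X T)
    (hQ : Disjoint X Q) (hX : X.card ≤ 85) (hΛ0 : 100 ≤ Λ) (hΛ : ∀ x ∈ X, E.Λ x ≤ Λ) (hε : 0 < ε)
    (hε1 : ε ≤ (Λ ^ 2)⁻¹) {c : ℝ} (hc : ∀ w, c ≤ ‖phi E.G E.η T (fz E.r (Q ∪ X) w)‖) {z : V}
    (hz : z ∈ Q) (hΛz : E.Λ z ≤ Λ) :
    ∫⁻ w, W (fz E.r Q w) * ENNReal.ofReal (‖Gr E.G E.η (fz E.r Q w) z b‖ ^ 2) *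
        HI E T Q (ε ^ X.card * c) w ∂Measure.pi E.μ ≤
      ENNReal.ofReal (Real.exp 90 * Λ ^ 7 * ε) * ∑ v ∈ insert z X, E.Aq W b (Q ∪ X) v := by
  set a : V → (V → ℂ) → ℝ≥0∞ := fun v w => W (fz E.r (Q ∪ X) w) *
    ENNReal.ofReal (‖Gr E.G E.η (fz E.r (Q ∪ X) w) v b‖ ^ 2) with ha
  have ma : ∀ v, Measurable (a v) := fun v => (hW.1.comp (measurable_fz _ _)).fun_mul
    (((measurable_Gr v b).comp (measurable_fz _ _)).norm.pow_const 2).ennreal_ofReal
  have ia : ∀ v w, a v (fz E.r X w) = a v w := fun v w => by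
    simp only [ha, fz_fz, union_assoc, union_idempotent]
  have mH := measurable_HI E T Q (ε ^ X.card * c)
  have mU := fun x => (measurable_UW E Q z x).fun_mul mH
  have hzX : z ∉ X := disjoint_right.1 hQ hz
  have h1 : ∀ w, W (fz E.r Q w) * ENNReal.ofReal (‖Gr E.G E.η (fz E.r Q w) z b‖ ^ 2) *
      HI E T Q (ε ^ X.card * c) w ≤ ENNReal.ofReal (Real.exp 85 * 170) *
        (a z w * HI E T Q (ε ^ X.card * c) w +
          ∑ x ∈ X, a x w * (UW E Q z x w * HI E T Q (ε ^ X.card * c) w)) := fun w => by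
    have h2 := hW.le_fz E.r hb (fz E.r Q w)
    rw [fz_fz, union_comm] at h2
    have h3 : ENNReal.ofReal (Real.exp (k * X.card)) ≤ ENNReal.ofReal (Real.exp 85) := by
      have : (X.card : ℝ) ≤ 85 := by exact_mod_cast hX
      exact ENNReal.ofReal_le_ofReal (Real.exp_le_exp.2
        ((mul_le_of_le_one_left (Nat.cast_nonneg _) hW.2.2.1).trans this))
    refine (mul_le_mul_left (mul_le_mul' (h2.trans (mul_le_mul_left h3 _))
      (expand hQ hX z b w)) _).trans_eq ?_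
    simp only [ENNReal.ofReal_mul (Real.exp_pos _).le, ha, mul_add, add_mul, mul_sum, sum_mul]
    congr 1
    · ring
    · exact sum_congr rfl fun x _ => by ring
  refine (lintegral_mono h1).trans ((lint_le_of_lm E.μ X (g := fun w =>
    ENNReal.ofReal (Real.exp 90 * Λ ^ 7 * ε) * ∑ v ∈ insert z X, a v w)
    ((((ma z).fun_mul mH).fun_add (measurable_sum _ fun x _ => (ma x).fun_mul (mU x))).const_mul _)
    fun w => ?_).trans_eq ?_)
  · rw [lm_const_mul _ _ _ (((ma z).fun_mul mH).fun_add (measurable_sum _ fun x _ => (ma x).fun_mul (mU x))),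
      lm_add _ _ ((ma z).fun_mul mH), lm_sum _ _ _ fun x _ => (ma x).fun_mul (mU x),
      lm_mul _ E.r X (ia z) mH, sum_congr rfl fun x _ => lm_mul _ E.r X (ia x) (mU x) w]
    have h2 : lmarginal E.μ X (HI E T Q (ε ^ X.card * c)) w ≤ ENNReal.ofReal (681 * Λ ^ 5 * ε) := by
      refine (lm_HI hT (by linarith) hΛ hε hε1 X Subset.rfl Q hQ hc w).trans
        (ENNReal.ofReal_le_ofReal ?_)
      have : (X.card : ℝ) ≤ 85 := by exact_mod_cast hX
      calc _ ≤ 681 * (Λ ^ 3 * ε) * 1 := by rw [mul_one]; gcongr; linarith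
        _ ≤ 681 * (Λ ^ 3 * ε) * Λ ^ 2 := by gcongr; nlinarith
        _ = _ := by ring
    refine (mul_le_mul_right (add_le_add (mul_le_mul_right h2 _) (sum_le_sum fun x hx =>
      mul_le_mul_right (lm_UW hT hQ hX hΛ0 hΛ hε hε1 hc hx hz hΛz w) _)) _).trans ?_
    rw [← sum_mul, ← add_mul, ← sum_insert (f := fun v => a v w) hzX, mul_comm (∑ v ∈ _, _),
      ← mul_assoc, ← ENNReal.ofReal_mul (by positivity)]
    refine mul_le_mul_left (ENNReal.ofReal_le_ofReal ?_) _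
    have h3 : Real.exp 90 = Real.exp 85 * Real.exp 5 := by rw [← Real.exp_add]; norm_num
    have h4 : 18 ≤ Real.exp 5 := le_trans (by norm_num)
      (Real.quadratic_le_exp_of_nonneg (show (0 : ℝ) ≤ 5 by norm_num))
    calc _ = Real.exp 85 * (Λ ^ 5 * ε) * (170 * 681) := by ring
      _ ≤ Real.exp 85 * (Λ ^ 5 * ε) * (Real.exp 5 * Λ ^ 2) :=
          mul_le_mul_of_nonneg_left (le_trans (by norm_num) (mul_le_mul h4
            (show (10000 : ℝ) ≤ Λ ^ 2 by nlinarith) (by norm_num) (Real.exp_pos _).le))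
            (by positivity)
      _ = _ := by rw [h3]; ring
  · rw [lintegral_const_mul _ (measurable_sum _ fun v _ => ma v),
      lintegral_finsetSum _ fun v _ => ma v]
    rfl

end Hv

open Hv

namespace Env

theorem hover {W : (V → ℂ) → ℝ≥0∞} {b : V} {k : ℝ} (hW : Temp W b k) {R : Finset V} {z y x₀ : V}
    {l : ℕ} (hI : Inv E.G R z x₀ l) (hb : b ∉ R ∪ ball E.G z 3) {L a₀ ε : ℝ}
    (hL : ∀ x ∈ ball E.G x₀ (l + 3), Real.log (E.Λ x) ≤ L) (ha : 0 < a₀)
    (hobs : ∀ w, a₀ ≤ ‖Gr E.G E.η (fz E.r R w) y x₀‖) (hε : 0 < ε) (hε1 : ε ≤ Real.exp (-(2 * L))) :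
    E.Aq W b R z ≤
      ENNReal.ofReal (Real.exp (k * R.card + 12 * ∑ x ∈ R, E.κ x + 80 * (l + 1) * L) /
        (a₀ ^ 2 * ε ^ 170)) * Rq E.G E.η E.μ W y b +
      if ball E.G z 3 ⊆ R then 0 else ENNReal.ofReal (Real.exp (90 + 7 * L) * ε) *
        ∑ z' ∈ ball E.G z 3, E.Aq W b (R ∪ ball E.G z 3) z' := by
  obtain ⟨P, N, hR, hx, hz, hd, hP, hN, ht, hzb, hnb⟩ := hI.thread E.deg
  have hΛ : ∀ x ∈ ball E.G x₀ (l + 3), E.Λ x ≤ Real.exp L := fun x hx =>
    (Real.log_le_iff_le_exp (by linarith [(E.law x).big])).1 (hL x hx)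
  have hΛ0 : 100 ≤ Real.exp L := (E.law x₀).big.trans (hΛ x₀ (self_mem_ball _ _))
  have hL0 : 0 ≤ L := Real.one_le_exp_iff.1 (by linarith)
  have hε2 : ε ≤ (Real.exp L ^ 2)⁻¹ := by
    rwa [← Real.exp_nat_mul, ← Real.exp_neg]
  have hε3 : ε ≤ 1 := hε1.trans (Real.exp_le_one_iff.2 (by linarith))
  set X := ball E.G z 3 \ R with hX
  have hRX : R ∪ ball E.G z 3 = R ∪ X := union_sdiff_self_eq_union.symm
  have hX85 : X.card ≤ 85 := (card_le_card sdiff_subset).trans (card_ball3 E.deg z)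
  have hXR : Disjoint X R := sdiff_disjoint
  set c := (Real.exp L ^ (2 * (P ∪ N).card))⁻¹ with hc
  have hc0 : 0 < c := by positivity
  have hcφ : ∀ w, c ≤ ‖phi E.G E.η (P ∪ N) (fz E.r (R ∪ X) w)‖ := fun w => by
    refine phi_ge E.deg E.η0 E.η1 hΛ0 fun t ht => ⟨?_, fun n hn => ?_⟩
    · rw [fz_mem (mem_union_left _ (hR ht))]
      exact (E.law t).nr.trans (hΛ t (hnb t ht).1)
    · obtain ⟨h1, h2⟩ := mem_inter.1 ((hnb t ht).2 hn)
      rw [fz_mem (hRX ▸ h1)]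
      exact (inv_anti₀ (by linarith [(E.law n).big]) (hΛ n h2)).trans
        ((E.law n).sig.trans (le_add_of_nonneg_left E.η0.le))
  set C := Real.exp (12 * ∑ x ∈ R, E.κ x + 80 * (l + 1) * L) / (a₀ ^ 2 * ε ^ 170) with hC
  set f : (V → ℂ) → ℝ≥0∞ := fun w => ENNReal.ofReal (‖Gr E.G E.η w y b‖ ^ 2) with hf
  have mf : Measurable f := ((measurable_Gr y b).norm.pow_const 2).ennreal_ofReal
  have mW : Measurable fun w => W (fz E.r R w) := hW.1.comp (measurable_fz _ _)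
  have h1 : ∀ w, W (fz E.r R w) * ENNReal.ofReal (‖Gr E.G E.η (fz E.r R w) z b‖ ^ 2) ≤
      ENNReal.ofReal C * lmarginal E.μ R (fun w => W (fz E.r R w) * f w) w +
      W (fz E.r R w) * ENNReal.ofReal (‖Gr E.G E.η (fz E.r R w) z b‖ ^ 2) *
        HI E (P ∪ N) R (ε ^ X.card * c) w := fun w => by
    unfold HI
    split_ifs with h2
    · rw [mul_one]
      exact le_add_self
    rw [mul_zero, add_zero, lm_mul E.μ E.r R (a := fun w => W (fz E.r R w))
      (fun w => by simp only [fz_fz, union_idempotent]) mf, mul_left_comm]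
    refine mul_le_mul_right (le_trans ?_ (mul_le_mul_right
      (E.lower hR hd hx hz ht (fun t ht => hL t (hnb t ht).1) w) _)) _
    rw [← ENNReal.ofReal_mul (by positivity)]
    refine ENNReal.ofReal_le_ofReal ?_
    have h3 : ε ^ 85 * c ≤ ‖phi E.G E.η (P ∪ N) (fz E.r R w)‖ :=
      le_trans (mul_le_mul_of_nonneg_right (pow_le_pow_of_le_one hε.le hε3 hX85) hc0.le)
        (not_lt.1 h2)
    have h4 : ((P ∪ N).card : ℝ) ≤ 5 * l + 1 := by
      have := card_union_le P N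
      exact_mod_cast (by omega : (P ∪ N).card ≤ 5 * l + 1)
    have h5 : (N.card : ℝ) ≤ 4 * l := by exact_mod_cast hN
    have h6 : 1 ≤ C * (Real.exp (-(12 * ∑ x ∈ R, E.κ x + 14 * (N.card + 2) * L)) *
        (a₀ * (ε ^ 85 * c)) ^ 2) := by
      have e : C * (Real.exp (-(12 * ∑ x ∈ R, E.κ x + 14 * (N.card + 2) * L)) *
          (a₀ * (ε ^ 85 * c)) ^ 2) = Real.exp (12 * ∑ x ∈ R, E.κ x + 80 * (l + 1) * L) *
          Real.exp (-(12 * ∑ x ∈ R, E.κ x + 14 * (N.card + 2) * L)) * c ^ 2 := by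
        rw [hC]
        field_simp
      rw [e, hc, ← Real.exp_nat_mul, ← Real.exp_neg, ← Real.exp_nat_mul, ← Real.exp_add,
        ← Real.exp_add, Real.one_le_exp_iff]
      push_cast
      nlinarith [mul_le_mul_of_nonneg_right h4 hL0, mul_le_mul_of_nonneg_right h5 hL0,
        mul_nonneg (Nat.cast_nonneg l) hL0]
    have h7 := hobs w
    calc _ ≤ C * (Real.exp (-(12 * ∑ x ∈ R, E.κ x + 14 * (N.card + 2) * L)) *
          (a₀ * (ε ^ 85 * c)) ^ 2) * ‖Gr E.G E.η (fz E.r R w) z b‖ ^ 2 :=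
          le_mul_of_one_le_left (sq_nonneg _) h6
      _ = C * (Real.exp (-(12 * ∑ x ∈ R, E.κ x + 14 * (N.card + 2) * L)) *
          (a₀ * (ε ^ 85 * c) * ‖Gr E.G E.η (fz E.r R w) z b‖) ^ 2) := by ring
      _ ≤ _ := by gcongr
  refine (lintegral_mono h1).trans ?_
  rw [lintegral_add_left (((mW.fun_mul mf).lmarginal E.μ).const_mul _)]
  refine add_le_add ?_ ?_
  · rw [lintegral_const_mul _ ((mW.fun_mul mf).lmarginal E.μ), lint_lm E.μ R (mW.fun_mul mf)]
    refine (mul_le_mul_right (lintegral_mono fun w => mul_le_mul_left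
      (hW.fz_le E.r (fun h => hb (mem_union_left _ h)) w) (f w)) _).trans_eq ?_
    simp only [mul_assoc]
    rw [lintegral_const_mul _ (hW.1.fun_mul mf), ← mul_assoc, ← ENNReal.ofReal_mul (by positivity),
      hC, div_mul_eq_mul_div, ← Real.exp_add]
    congr 4
    ring
  · split_ifs with h2
    · have h3 : X = ∅ := sdiff_eq_empty_iff_subset.2 h2
      refine (lintegral_mono (g := fun _ => 0) fun w => ?_).trans_eq lintegral_zero
      have := hcφ w
      rw [h3, union_empty] at this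
      simp [HI, h3, this]
    · refine (on_H hW (fun h => hb (hRX ▸ mem_union_right _ h)) (hXR.mono_right hR) hXR hX85 hΛ0
        (fun x hx => hΛ x (ball_add hzb 3 (mem_sdiff.1 hx).1)) hε hε2 hcφ hI.1
        (hΛ z (ball_mono _ (Nat.le_add_right l 3) hzb))).trans ?_
      rw [← Real.exp_nat_mul, ← Real.exp_add, hRX]
      exact mul_le_mul_right (sum_le_sum_of_subset
        (insert_subset (self_mem_ball _ _) sdiff_subset)) _

end Env

end Crest.Agent.N334.T
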