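import Crest.Agent.N334.T.Cav
import Crest.Agent.N334.T.Log
import Crest.Agent.N334.T.Marg

/-!
# Row 334, engine T: the conditional lower bound (leaf T-Lower)
-/

set_option autoImplicit false
set_option linter.unusedSectionVars false

open MeasureTheory Complex Finset Function
open scoped ENNReal

namespace Crest.Agent.N334.T

variable {V : Type} [Fintype V] [DecidableEq V] (E : Env V)

namespace Lo

lemma ref_site (x p p' : V) {B : ℝ} (hB : E.η⁻¹ ≤ B) (w : V → ℂ) :
    ∫⁻ z, nlog (‖Gr E.G E.η (update w x z) p p'‖ / B) ∂E.μ x ≤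
      nlog (‖Gr E.G E.η (update w x (E.r x)) p p'‖ / B) + ENNReal.ofReal (2 * E.κ x) := by
  obtain ⟨m, ρ, q, h⟩ := exists_cav (G := E.G) E.η0 E.η1 w x
  have e : ∀ z, Gr E.G E.η (update w x z) p p' =
      (q p p' * (cl (E.r x) - m) + ρ p * ρ p' + q p p' * (cl z - cl (E.r x))) / (cl z - m) :=
    fun z => by
      have := h.ne E.η0 z
      rw [h.gr]; field_simp; ring
  have := (E.law x).ref (E.η0.trans_le h.im_ge) (q p p' * (cl (E.r x) - m) + ρ p * ρ p') (q p p')
    ((inv_pos.2 E.η0).trans_le hB) fun z => by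
      rw [← e]; exact (norm_Gr_le E.η0 _ _ _).trans hB
  simp only [e, sub_self, mul_zero, add_zero]
  exact this

lemma top_site {S : Finset V} {n p p' : V} (hn : n ∉ S) (hp : p ≠ n) (hp' : p' ≠ n) {B : ℝ}
    (hB : 0 < B) (w : V → ℂ) :
    ∫⁻ z, nlog (‖GrR E.G E.η S (update w n z) p p' * phi E.G E.η S (update w n z)‖ / B) ∂E.μ n ≤
      nlog (‖GrR E.G E.η (insert n S) (update w n (E.r n)) p p' *
        phi E.G E.η (insert n S) (update w n (E.r n))‖ / B) +
        ENNReal.ofReal (7 * Real.log (E.Λ n)) := by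
  obtain ⟨m, ρ, q, h⟩ := exists_cav (G := E.G) E.η0 E.η1 w n
  obtain ⟨m', ρ', q', h'⟩ := exists_cav (G := cut E.G S) E.η0 E.η1 (rem E.η S w) n
  have hS : S ∪ {n} = insert n S := by rw [union_comm, ← insert_eq]
  have h4 := dt_ne (G := E.G) E.η0 {n} w
  set D := dt E.G E.η (insert n S) w / dt E.G E.η {n} w with hD
  have e : ∀ z, GrR E.G E.η S (update w n z) p p' * phi E.G E.η S (update w n z) =
      ((q' p p' * (cl (E.r n) - m') + ρ' p * ρ' p') * D + q' p p' * D * (cl z - cl (E.r n))) /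
        (cl z - m) := fun z => by
    have e1 : dt E.G E.η S (update w n z) = I * (cl z - m') * dt E.G E.η (insert n S) w := by
      rw [← hS, ← dt_cut, ← h'.det, ← rem_update_notMem hn, dt_cut, union_empty]
    have h1 := h.ne E.η0 z
    have h2 := h'.ne E.η0 z
    rw [GrR, rem_update_notMem hn, h'.gr, phi, e1, h.det, hD]
    field_simp; ring
  have e2 : ‖GrR E.G E.η (insert n S) (update w n (E.r n)) p p' *
      phi E.G E.η (insert n S) (update w n (E.r n))‖ = ‖q' p p' * D / (cl (E.r n) - m)‖ := by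
    rw [GrR_update_mem (mem_insert_self n S), phi, dt_update_mem (mem_insert_self n S), h.det,
      h'.q_eq p p' hp hp', GrR_cut, hS, hD]
    simp only [norm_mul, norm_div, norm_I, one_mul]
    ring
  simp only [e, e2]
  exact (E.law n).top (E.η0.trans_le h.im_ge) _ _ hB

lemma jun_site (x p p' : V) {B B' : ℝ} (hB : 0 < B) (hB' : 0 < B') (w : V → ℂ) :
    ∫⁻ z, nlog (‖Gr E.G E.η (update w x z) p p'‖ / (B * B')) ∂E.μ x ≤
      ∫⁻ z, nlog (‖Gr E.G E.η (update w x z) p x‖ / B) ∂E.μ x +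
        ∫⁻ z, nlog (‖Gr E.G E.η (update w x z) x p'‖ / B') ∂E.μ x +
          ENNReal.ofReal (7 * Real.log (E.Λ x)) := by
  obtain ⟨m, ρ, q, h⟩ := exists_cav (G := E.G) E.η0 E.η1 w x
  simp only [Gr_symm _ x p', h.col]
  simp only [h.gr]
  exact (E.law x).junction (E.η0.trans_le h.im_ge) _ _ _ hB hB'

lemma jensen_lm (R : Finset V) (y b : V) {B c k : ℝ} (hB : E.η⁻¹ ≤ B) (hc : 0 ≤ c) (hcB : c ≤ B)
    (hk : 0 ≤ k) (w : V → ℂ)
    (h : lmarginal E.μ R (fun w => nlog (‖Gr E.G E.η w y b‖ / B)) w ≤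
      nlog (c / B) + ENNReal.ofReal k) :
    ENNReal.ofReal (Real.exp (-(2 * k)) * c ^ 2) ≤
      lmarginal E.μ R (fun w => ENNReal.ofReal (‖Gr E.G E.η w y b‖ ^ 2)) w :=
  jensen (Measure.pi fun i : R => E.μ i) (f := fun v => ‖Gr E.G E.η (updateFinset w R v) y b‖)
    ((measurable_Gr y b).comp measurable_updateFinset).norm ((inv_pos.2 E.η0).trans_le hB)
    (fun _ => norm_nonneg _) (fun _ => (norm_Gr_le E.η0 _ _ _).trans hB) hc hcB hk h

lemma lm_fz_disj {N T : Finset V} (hd : Disjoint N T) (g : (V → ℂ) → ℝ≥0∞) (w : V → ℂ) :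
    lmarginal E.μ N (fun w => g (fz E.r T w)) w = lmarginal E.μ N g (fz E.r T w) := by
  refine lintegral_congr fun v => congrArg g ?_
  funext x
  by_cases h : x ∈ N
  · simp [fz, updateFinset, h, disjoint_left.1 hd h]
  · simp [fz, updateFinset, h]

lemma sum_k0 (R : Finset V) : 0 ≤ ∑ x ∈ R, E.κ x := sum_nonneg fun x _ => (E.law x).k0

end Lo

open Lo

namespace Env

/-- REF on every site of `R`: induction on `R` (`lm_erase`/`lmarginal_insert'`, `exists_cav`,
`Law.ref` with `b = q`, `a = q (cl r - m) + ρ ρ'`, bound `norm_Gr_le`; then `fz_insert`) -/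
lemma ref_multi (R : Finset V) (p p' : V) {B : ℝ} (hB : E.η⁻¹ ≤ B) (w : V → ℂ) :
    lmarginal E.μ R (fun w => nlog (‖Gr E.G E.η w p p'‖ / B)) w ≤
      nlog (‖Gr E.G E.η (fz E.r R w) p p'‖ / B) + ENNReal.ofReal (2 * ∑ x ∈ R, E.κ x) := by
  induction R using Finset.induction_on generalizing w with
  | empty => simp
  | insert x R hx ih =>
    rw [lmarginal_insert _ (by fun_prop) hx]
    refine (lintegral_mono fun z => ih (update w x z)).trans ?_
    rw [lintegral_add_right _ measurable_const, lintegral_const, measure_univ, mul_one, fz_insert,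
      sum_insert hx, mul_add, ENNReal.ofReal_add (by linarith [(E.law x).k0])
        (by linarith [sum_k0 E R]), ← add_assoc]
    simp only [fz_update_notMem _ _ hx]
    exact add_le_add_left (ref_site E x p p' hB _) _

/-- TOP on every site of `N`.  Induction on `N` for `Ψ_S w = GrR S w p p' * phi S w`
(generalise `S`, disjoint from `N`; here `S = ∅`): as a function of `z = w n`,
`Ψ_S = (q (cl z - m_S) + ρ ρ') dt (insert n S) / (dt {n} (cl z - m))` by `Cav.gr`, `Cav.det` in the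
system `cut G S`, `rem S w` and `Cav.det` in the full system, so `Law0.top` has
`|b / (cl r - m)| = |Ψ_{insert n S} (update w n (r n))|`. -/
lemma top_multi (N : Finset V) {p p' : V} (hp : p ∉ N) (hp' : p' ∉ N) {B L : ℝ} (hB : 0 < B)
    (hL : ∀ n ∈ N, Real.log (E.Λ n) ≤ L) (w : V → ℂ) :
    lmarginal E.μ N (fun w => nlog (‖Gr E.G E.η w p p'‖ / B)) w ≤
      nlog (‖GrR E.G E.η N (fz E.r N w) p p' * phi E.G E.η N (fz E.r N w)‖ / B) +
        ENNReal.ofReal (7 * N.card * L) := by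
  induction N using Finset.induction_on generalizing w with
  | empty => simp [phi, dt_ne E.η0]
  | insert n N hn ih =>
    have h0 := (E.law n).log_nonneg
    have h1 := hL n (mem_insert_self n N)
    rw [mem_insert, not_or] at hp hp'
    rw [lmarginal_insert _ (by fun_prop) hn]
    refine (lintegral_mono fun z =>
      ih hp.2 hp'.2 (fun x hx => hL x (mem_insert_of_mem hx)) (update w n z)).trans ?_
    have hL0 : 0 ≤ L := h0.trans h1
    rw [lintegral_add_right _ measurable_const, lintegral_const, measure_univ, mul_one, fz_insert,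
      card_insert_of_notMem hn, show (7 * ((N.card + 1 : ℕ) : ℝ) * L) = 7 * L + 7 * N.card * L by
        push_cast; ring, ENNReal.ofReal_add (by positivity) (by positivity), ← add_assoc]
    simp only [fz_update_notMem _ _ hn]
    exact add_le_add_left ((top_site E hn hp.1 hp'.1 hB _).trans
      (add_le_add_right (ENNReal.ofReal_le_ofReal (by linarith)) _)) _

/-- J at a site of `R` (`lm_site`, `Law0.junction`, `Cav.gr`, `Cav.col`, `Gr_symm`) -/
lemma junction_multi {R : Finset V} {x : V} (hx : x ∈ R) (p p' : V) {B B' : ℝ} (hB : 0 < B)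
    (hB' : 0 < B') (w : V → ℂ) :
    lmarginal E.μ R (fun w => nlog (‖Gr E.G E.η w p p'‖ / (B * B'))) w ≤
      lmarginal E.μ R (fun w => nlog (‖Gr E.G E.η w p x‖ / B)) w +
        lmarginal E.μ R (fun w => nlog (‖Gr E.G E.η w x p'‖ / B')) w +
          ENNReal.ofReal (7 * Real.log (E.Λ x)) := by
  have m1 : Measurable fun w => nlog (‖Gr E.G E.η w p x‖ / B) := by fun_prop
  have m2 : Measurable fun w => nlog (‖Gr E.G E.η w x p'‖ / B') := by fun_prop
  rw [lm_site E.μ hx (by fun_prop), lm_site E.μ hx m1, lm_site E.μ hx m2,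
    ← lm_add E.μ R (measurable_site _ x m1),
    ← lm_const E.μ R (ENNReal.ofReal (7 * Real.log (E.Λ x))) w,
    ← lm_add E.μ R ((measurable_site _ x m1).fun_add (measurable_site _ x m2))]
  exact lm_mono E.μ R (fun w => jun_site E x p p' hB hB' w) w

/-- `ref_multi` and `jensen` (an `lmarginal` is a `lintegral` over `Measure.pi`) -/
lemma lower_ref (R : Finset V) (y b : V) (w : V → ℂ) :
    ENNReal.ofReal (Real.exp (-(4 * ∑ x ∈ R, E.κ x)) * ‖Gr E.G E.η (fz E.r R w) y b‖ ^ 2) ≤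
      lmarginal E.μ R (fun w => ENNReal.ofReal (‖Gr E.G E.η w y b‖ ^ 2)) w := by
  have := jensen_lm E R y b le_rfl (norm_nonneg _) (norm_Gr_le E.η0 (fz E.r R w) y b)
    (by linarith [sum_k0 E R]) w (E.ref_multi R y b le_rfl w)
  rwa [← mul_assoc, show (2 * 2 : ℝ) = 4 by norm_num] at this

/-- LOWER.  `B₁ = B₂ = η⁻¹`, `B₃ = max η⁻¹ (max 1 |phi|)`; J at `x₀`, J at `z`, `ref_multi` for
`G(y,x₀)`, `G(z,b)`; for `G(x₀,z)`: `lmarginal_union` with `R = N ∪ (R \ N)`, `ref_multi` on `R \ N`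
inside, then `top_multi`, `Thread.norm_eq` in the system `cut G N`, `rem N` (`dt_cut`); `nlog_mul_eq`
and `jensen` with `B = B₁ B₃ B₂ ≥ η⁻¹` (`η ≤ 1`). -/
theorem lower {R P N : Finset V} {y b x₀ z : V} {L : ℝ} (hR : P ∪ N ⊆ R) (hd : Disjoint P N)
    (hx : x₀ ∈ P) (hz : z ∈ P) (ht : Thread (cut E.G N) P x₀ z)
    (hL : ∀ t ∈ P ∪ N, Real.log (E.Λ t) ≤ L) (w : V → ℂ) :
    ENNReal.ofReal (Real.exp (-(12 * ∑ x ∈ R, E.κ x + 14 * (N.card + 2) * L)) *
      (‖Gr E.G E.η (fz E.r R w) y x₀‖ * ‖phi E.G E.η (P ∪ N) (fz E.r R w)‖ *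
        ‖Gr E.G E.η (fz E.r R w) z b‖) ^ 2) ≤
      lmarginal E.μ R (fun w => ENNReal.ofReal (‖Gr E.G E.η w y b‖ ^ 2)) w := by
  have hN : N ⊆ R := subset_union_right.trans hR
  have hxR : x₀ ∈ R := hR (mem_union_left _ hx)
  have hzR : z ∈ R := hR (mem_union_left _ hz)
  have hLx := hL x₀ (mem_union_left _ hx)
  have hLz := hL z (mem_union_left _ hz)
  have hL0 : 0 ≤ L := (E.law z).log_nonneg.trans hLz
  have hK := sum_k0 E R
  have h1 : 1 ≤ E.η⁻¹ := (one_le_inv₀ E.η0).2 E.η1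
  have h0 : 0 < E.η⁻¹ := by linarith
  set w₀ := fz E.r R w with hw₀
  set φ := ‖phi E.G E.η (P ∪ N) w₀‖ with hφ
  set B := max E.η⁻¹ φ with hB
  have hB1 : E.η⁻¹ ≤ B := le_max_left _ _
  have hB2 : φ ≤ B := le_max_right _ _
  have hB0 : 0 < B := by linarith
  have mid : lmarginal E.μ R (fun w => nlog (‖Gr E.G E.η w x₀ z‖ / B)) w ≤
      nlog (φ / B) + ENNReal.ofReal (7 * N.card * L) + ENNReal.ofReal (2 * ∑ x ∈ R, E.κ x) := by
    have e : ‖GrR E.G E.η N w₀ x₀ z * phi E.G E.η N w₀‖ = φ := by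
      rw [norm_mul, GrR, ht.norm_eq E.η0 E.η1, ← norm_mul, phi, dt_cut, dt_cut, union_empty, phi,
        div_mul_div_cancel₀ (dt_ne E.η0 _ _), union_comm, hφ, phi]
    have t := E.top_multi N (disjoint_left.1 hd hx) (disjoint_left.1 hd hz) hB0
      (fun n hn => hL n (mem_union_right _ hn)) (fz E.r (R \ N) w)
    rw [fz_fz, union_sdiff_of_subset hN, ← hw₀, e, ← lm_fz_disj E disjoint_sdiff] at t
    calc _ = lmarginal E.μ N (lmarginal E.μ (R \ N) fun w => nlog (‖Gr E.G E.η w x₀ z‖ / B)) w := by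
          rw [← lmarginal_union _ _ (by fun_prop) disjoint_sdiff, union_sdiff_of_subset hN]
      _ ≤ lmarginal E.μ N (fun w => nlog (‖Gr E.G E.η (fz E.r (R \ N) w) x₀ z‖ / B) +
            ENNReal.ofReal (2 * ∑ x ∈ R, E.κ x)) w :=
          lm_mono E.μ N (fun w => (E.ref_multi (R \ N) x₀ z hB1 w).trans <| add_le_add_right
            (ENNReal.ofReal_le_ofReal (mul_le_mul_of_nonneg_left (sum_le_sum_of_subset_of_nonneg
              sdiff_subset fun x _ _ => (E.law x).k0) zero_le_two)) _) w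
      _ ≤ _ := by
          have hm : Measurable fun w => nlog (‖Gr E.G E.η (fz E.r (R \ N) w) x₀ z‖ / B) :=
            measurable_nlog.comp (((measurable_Gr x₀ z).comp (measurable_fz _ _)).norm.div_const B)
          rw [lm_add E.μ N hm, lm_const]
          exact add_le_add_left t _
  have j1 := E.junction_multi hxR y b h0 (mul_pos hB0 h0) w
  have j2 := E.junction_multi hzR x₀ b hB0 h0 w
  have r1 := E.ref_multi R y x₀ le_rfl w
  have r2 := E.ref_multi R z b le_rfl w
  rw [← hw₀] at r1 r2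
  have a1 := norm_Gr_le (G := E.G) E.η0 w₀ y x₀
  have a2 := norm_Gr_le (G := E.G) E.η0 w₀ z b
  set a := ‖Gr E.G E.η w₀ y x₀‖
  set c := ‖Gr E.G E.η w₀ z b‖
  have a0 : 0 ≤ a := norm_nonneg _
  have c0 : 0 ≤ c := norm_nonneg _
  have φ0 : 0 ≤ φ := norm_nonneg _
  have u1 : a / E.η⁻¹ ≤ 1 := (div_le_one h0).2 a1
  have u2 : φ / B ≤ 1 := (div_le_one hB0).2 hB2
  have u3 : c / E.η⁻¹ ≤ 1 := (div_le_one h0).2 a2
  have en : nlog (a * φ * c / (E.η⁻¹ * (B * E.η⁻¹))) =
      nlog (a / E.η⁻¹) + nlog (φ / B) + nlog (c / E.η⁻¹) := by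
    rw [← nlog_mul_eq (by positivity) u1 (by positivity) u2,
      ← nlog_mul_eq (by positivity) (mul_le_one₀ u1 (by positivity) u2) (by positivity) u3]
    congr 1
    rw [div_mul_div_comm, div_mul_div_comm, mul_assoc E.η⁻¹]
  have := jensen_lm E R y b (B := E.η⁻¹ * (B * E.η⁻¹)) (c := a * φ * c)
    (k := 6 * ∑ x ∈ R, E.κ x + 7 * (N.card + 2) * L)
    (le_mul_of_one_le_right h0.le (one_le_mul_of_one_le_of_one_le (h1.trans hB1) h1))
    (by positivity) (by rw [← mul_assoc]; gcongr) (by positivity) w ?_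
  · rwa [show 2 * (6 * ∑ x ∈ R, E.κ x + 7 * (N.card + 2) * L) =
      12 * ∑ x ∈ R, E.κ x + 14 * (N.card + 2) * L by ring] at this
  · have l1 : ENNReal.ofReal (7 * Real.log (E.Λ x₀)) ≤ ENNReal.ofReal (7 * L) :=
      ENNReal.ofReal_le_ofReal (by linarith)
    have l2 : ENNReal.ofReal (7 * Real.log (E.Λ z)) ≤ ENNReal.ofReal (7 * L) :=
      ENNReal.ofReal_le_ofReal (by linarith)
    rw [en, show 6 * ∑ x ∈ R, E.κ x + 7 * (N.card + 2) * L = 2 * ∑ x ∈ R, E.κ x +
      (7 * N.card * L + 2 * ∑ x ∈ R, E.κ x + 2 * ∑ x ∈ R, E.κ x + 7 * L) + 7 * L by ring,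
      ENNReal.ofReal_add (by positivity) (by positivity),
      ENNReal.ofReal_add (by positivity) (by positivity),
      ENNReal.ofReal_add (by positivity) (by positivity),
      ENNReal.ofReal_add (by positivity) (by positivity),
      ENNReal.ofReal_add (by positivity) (by positivity)]
    refine (j1.trans (add_le_add (add_le_add r1
      (j2.trans (add_le_add (add_le_add mid r2) l2))) l1)).trans_eq ?_
    ring

end Env

end Crest.Agent.N334.T
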