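import Crest.Agent.N334.T.Defs

/-!
# Row 334, engine T: finite matrix facts (leaf T-Mat)
-/

set_option autoImplicit false
set_option linter.unusedSectionVars false

open MeasureTheory Complex Finset Function
open scoped ENNReal

namespace Crest.Agent.N334.T

variable {V : Type} [Fintype V] [DecidableEq V] {G : SimpleGraph V} {η : ℝ}

@[simp] lemma cl_re (z : ℂ) : (cl z).re = z.re := rfl
@[simp] lemma cl_im (z : ℂ) : (cl z).im = -|z.im| := rfl
@[simp] lemma cl_ofReal (a : ℝ) : cl a = a := by apply Complex.ext <;> simp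
lemma norm_cl (z : ℂ) : ‖cl z‖ = ‖z‖ := by
  rw [Complex.norm_def, Complex.norm_def, normSq_apply, normSq_apply]; simp [abs_mul_abs_self]
lemma continuous_cl : Continuous cl := by
  have : cl = fun z : ℂ => (z.re : ℂ) + ((-|z.im| : ℝ) : ℂ) * I := by
    funext z; apply Complex.ext <;> simp
  rw [this]; fun_prop
@[fun_prop] lemma measurable_cl : Measurable cl := continuous_cl.measurable

lemma mem_nbr {x y : V} : y ∈ nbr G x ↔ G.Adj x y := by simp [nbr]
lemma nbr_symm {x y : V} : y ∈ nbr G x ↔ x ∈ nbr G y := by simp [mem_nbr, G.adj_comm]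
lemma dmp_pos (hη : 0 < η) (z : ℂ) : 0 < dmp η z := by unfold dmp; positivity

/-! ### freezing and removal -/

lemma fz_mem {r w : V → ℂ} {R : Finset V} {x : V} (h : x ∈ R) : fz r R w x = r x := if_pos h
lemma fz_notMem {r w : V → ℂ} {R : Finset V} {x : V} (h : x ∉ R) : fz r R w x = w x := if_neg h
@[simp] lemma fz_empty (r w : V → ℂ) : fz r ∅ w = w := by funext x; simp [fz]
lemma fz_fz (r w : V → ℂ) (R S : Finset V) : fz r R (fz r S w) = fz r (R ∪ S) w := by
  funext x; by_cases h : x ∈ R <;> by_cases h' : x ∈ S <;> simp [fz, h, h']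
lemma fz_insert (r w : V → ℂ) (R : Finset V) (x : V) :
    fz r (insert x R) w = update (fz r R w) x (r x) := by
  funext v; by_cases h : v = x <;> simp [fz, h]
lemma fz_update_mem (r w : V → ℂ) {R : Finset V} {x : V} (h : x ∈ R) (z : ℂ) :
    fz r R (update w x z) = fz r R w := by
  funext v; by_cases hv : v = x <;> simp [fz, hv, h]
lemma fz_update_notMem (r w : V → ℂ) {R : Finset V} {x : V} (h : x ∉ R) (z : ℂ) :
    fz r R (update w x z) = update (fz r R w) x z := by
  funext v; by_cases hv : v = x <;> simp [fz, hv, h]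
@[fun_prop] lemma measurable_fz (r : V → ℂ) (R : Finset V) : Measurable (fz r R) :=
  measurable_pi_lambda _ fun x => by by_cases h : x ∈ R <;> simp [fz, h, measurable_pi_apply]

@[simp] lemma cut_empty : cut G ∅ = G := by ext; simp [cut]
lemma cut_cut (S T : Finset V) : cut (cut G S) T = cut G (S ∪ T) := by
  ext; simp [cut]; tauto
lemma mem_nbr_cut {S : Finset V} {x y : V} : y ∈ nbr (cut G S) x ↔ y ∈ nbr G x ∧ x ∉ S ∧ y ∉ S := by
  simp [mem_nbr, cut]
lemma Deg.cut (h : Deg G) (S : Finset V) : Deg (cut G S) := fun x =>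
  (card_le_card fun _ hy => (mem_nbr_cut.1 hy).1).trans (h x)
@[simp] lemma rem_empty (w : V → ℂ) : rem η ∅ w = w := fz_empty _ _
@[simp] lemma GrR_empty (w : V → ℂ) : GrR G η ∅ w = Gr G η w := by simp [GrR]
lemma GrR_cut (S T : Finset V) (w : V → ℂ) :
    GrR (cut G S) η T (rem η S w) = GrR G η (S ∪ T) w := by
  simp only [GrR, cut_cut, rem, fz_fz, union_comm]
lemma dt_cut (S T : Finset V) (w : V → ℂ) : dt (cut G S) η T (rem η S w) = dt G η (S ∪ T) w := by
  simp only [dt, cut_cut, rem, fz_fz, union_comm]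
lemma GrR_update_mem {S : Finset V} {x : V} (h : x ∈ S) (w : V → ℂ) (z : ℂ) :
    GrR G η S (update w x z) = GrR G η S w := by simp only [GrR, rem, fz_update_mem _ _ h]
lemma dt_update_mem {S : Finset V} {x : V} (h : x ∈ S) (w : V → ℂ) (z : ℂ) :
    dt G η S (update w x z) = dt G η S w := by simp only [dt, rem, fz_update_mem _ _ h]
lemma rem_update_notMem {S : Finset V} {x : V} (h : x ∉ S) (w : V → ℂ) (z : ℂ) :
    rem η S (update w x z) = update (rem η S w) x z := fz_update_notMem _ _ h z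

/-! ### the Green function -/

lemma Mx_mulVec (w f : V → ℂ) (x : V) :
    (Mx G η w).mulVec f x = (cl (w x) - η * I) * f x + ∑ n ∈ nbr G x, f n := by
  rw [Mx, Matrix.add_mulVec, Pi.add_apply, Matrix.mulVec_diagonal, add_comm]
  simp [Matrix.mulVec, dotProduct]

lemma Mx_transpose (w : V → ℂ) : (Mx G η w).transpose = Mx G η w := by
  rw [Mx, Matrix.transpose_add, Matrix.diagonal_transpose]
  congr 1
  ext x y
  simp only [Matrix.transpose_apply, Matrix.of_apply, nbr_symm (x := y)]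

/-- the imaginary part of the quadratic form on a set -/
lemma im_form (w f : V → ℂ) (B : Finset V) :
    ∑ x ∈ B, ((starRingEnd ℂ) (f x) * ((cl (w x) - η * I) * f x + ∑ n ∈ nbr G x, f n)).im =
      -∑ x ∈ B, dmp η (w x) * ‖f x‖ ^ 2 +
        ∑ x ∈ B, ∑ n ∈ nbr G x \ B, ((starRingEnd ℂ) (f x) * f n).im := by
  have h0 : ∑ x ∈ B, ∑ n ∈ nbr G x ∩ B, ((starRingEnd ℂ) (f x) * f n).im = 0 := by
    have e : ∀ x, ∑ n ∈ nbr G x ∩ B, ((starRingEnd ℂ) (f x) * f n).im =
        ∑ n ∈ B, if n ∈ nbr G x then ((starRingEnd ℂ) (f x) * f n).im else 0 := fun x => by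
      rw [sum_ite_mem, inter_comm]
    simp only [e]
    have h1 := sum_comm (s := B) (t := B)
      (f := fun x n => if n ∈ nbr G x then ((starRingEnd ℂ) (f x) * f n).im else 0)
    have h2 : ∑ n ∈ B, ∑ x ∈ B, (if n ∈ nbr G x then ((starRingEnd ℂ) (f x) * f n).im else 0) =
        -∑ x ∈ B, ∑ n ∈ B, if n ∈ nbr G x then ((starRingEnd ℂ) (f x) * f n).im else 0 := by
      simp only [← sum_neg_distrib]
      refine sum_congr rfl fun x _ => sum_congr rfl fun n _ => ?_
      simp only [nbr_symm (x := n)]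
      split_ifs
      · simp; ring
      · simp
    linarith
  rw [← add_zero (-_), ← h0, ← sum_neg_distrib, ← sum_add_distrib, ← sum_add_distrib]
  refine sum_congr rfl fun x _ => ?_
  rw [mul_add, add_im, mul_sum, im_sum, add_assoc, sum_inter_add_sum_sdiff]
  congr 1
  rw [Complex.sq_norm, normSq_apply]
  simp [dmp]
  ring

/-- `Im ⟨v, M v⟩ = -∑ dmp |v|²`, so `M v = 0` forces `v = 0`. -/
lemma det_ne (hη : 0 < η) (w : V → ℂ) : (Mx G η w).det ≠ 0 := by
  intro h
  obtain ⟨v, hv, h0⟩ := Matrix.exists_mulVec_eq_zero_iff.2 h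
  have h1 := im_form (G := G) (η := η) w v univ
  simp only [← Mx_mulVec, h0, Pi.zero_apply, mul_zero, zero_im, sum_const_zero,
    sdiff_eq_empty_iff_subset.2 (subset_univ _), sum_empty, add_zero, zero_eq_neg] at h1
  refine hv (funext fun x => ?_)
  have h2 := (sum_eq_zero_iff_of_nonneg fun x _ =>
    mul_nonneg (dmp_pos hη (w x)).le (sq_nonneg ‖v x‖)).1 h1 x (mem_univ x)
  simpa [(dmp_pos hη (w x)).ne'] using h2

lemma dt_ne (hη : 0 < η) (S : Finset V) (w : V → ℂ) : dt G η S w ≠ 0 := det_ne hη _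

lemma Gr_symm (w : V → ℂ) (x y : V) : Gr G η w x y = Gr G η w y x := by
  rw [Gr, Gr, ← Matrix.transpose_apply (Mx G η w)⁻¹, Matrix.transpose_nonsing_inv, Mx_transpose]

/-- `M G = 1` -/
lemma row (hη : 0 < η) (w : V → ℂ) (x y : V) :
    (cl (w x) - η * I) * Gr G η w x y + ∑ n ∈ nbr G x, Gr G η w n y = if x = y then 1 else 0 := by
  rw [← Mx_mulVec w fun n => Gr G η w n y, ← Matrix.one_apply,
    ← Matrix.mul_nonsing_inv _ (Ne.isUnit (det_ne (G := G) hη w))]
  rfl

/-- `G M f = f` -/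
lemma apply_vec (hη : 0 < η) (w f : V → ℂ) (x : V) :
    f x = ∑ v, Gr G η w x v * ((cl (w v) - η * I) * f v + ∑ n ∈ nbr G v, f n) := by
  have h := congrFun (Matrix.mulVec_mulVec f (Mx G η w)⁻¹ (Mx G η w)) x
  rw [Matrix.nonsing_inv_mul _ (Ne.isUnit (det_ne hη w)), Matrix.one_mulVec] at h
  simp only [← Mx_mulVec]
  exact h.symm

/-- Ward identity -/
lemma ward (hη : 0 < η) (w : V → ℂ) (y : V) :
    ∑ x, dmp η (w x) * ‖Gr G η w x y‖ ^ 2 = (Gr G η w y y).im := by
  have h := im_form (G := G) (η := η) w (fun x => Gr G η w x y) univ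
  simp only [row hη, mul_ite, mul_one, mul_zero, apply_ite Complex.im, zero_im, sum_ite_eq',
    mem_univ, if_true, conj_im, sdiff_eq_empty_iff_subset.2 (subset_univ _), sum_empty,
    sum_const_zero, add_zero, neg_inj] at h
  exact h.symm

lemma ward_le (hη : 0 < η) (w : V → ℂ) (x y : V) :
    dmp η (w x) * ‖Gr G η w x y‖ ^ 2 ≤ ‖Gr G η w y y‖ :=
  (single_le_sum (f := fun x => dmp η (w x) * ‖Gr G η w x y‖ ^ 2)
    (fun x _ => mul_nonneg (dmp_pos hη (w x)).le (sq_nonneg _)) (mem_univ x)).trans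
    ((ward hη w y).trans_le ((le_abs_self _).trans (abs_im_le_norm _)))

lemma diag_le (hη : 0 < η) (w : V → ℂ) (x : V) : dmp η (w x) * ‖Gr G η w x x‖ ≤ 1 := by
  have h := ward_le (G := G) hη w x x
  rcases (norm_nonneg (Gr G η w x x)).eq_or_lt with h0 | h0
  · rw [← h0, mul_zero]; exact zero_le_one
  · exact le_of_mul_le_mul_right (by nlinarith) h0

lemma off_le (hη : 0 < η) (w : V → ℂ) (x y : V) :
    dmp η (w x) * dmp η (w y) * ‖Gr G η w x y‖ ^ 2 ≤ 1 := by
  have h := mul_le_mul_of_nonneg_left (ward_le (G := G) hη w x y) (dmp_pos hη (w y)).le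
  linarith [diag_le (G := G) hη w y]

lemma norm_Gr_le (hη : 0 < η) (w : V → ℂ) (x y : V) : ‖Gr G η w x y‖ ≤ η⁻¹ := by
  have h := off_le (G := G) hη w x y
  have h1 : ∀ z, η ≤ dmp η z := fun z => le_add_of_nonneg_right (abs_nonneg _)
  have h2 : η * η * ‖Gr G η w x y‖ ^ 2 ≤ 1 :=
    le_trans (by gcongr <;> first | exact (dmp_pos hη _).le | exact h1 _) h
  rw [← one_div, le_div_iff₀ hη]
  exact (sq_le_one_iff₀ (by positivity)).1 (by linarith)

lemma resolvent (hη : 0 < η) (w w' : V → ℂ) (x y : V) : Gr G η w x y =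
    Gr G η w' x y - ∑ v, Gr G η w x v * (cl (w v) - cl (w' v)) * Gr G η w' v y := by
  have e : ∀ v, (cl (w v) - η * I) * Gr G η w' v y + ∑ n ∈ nbr G v, Gr G η w' n y =
      (cl (w v) - cl (w' v)) * Gr G η w' v y + if v = y then 1 else 0 := fun v => by
    rw [← row (G := G) hη w' v y]; ring
  rw [apply_vec (G := G) hη w (fun v => Gr G η w' v y) x]
  simp only [e, mul_add, sum_add_distrib, mul_ite, mul_one, mul_zero, sum_ite_eq', mem_univ,
    if_true, mul_assoc]
  ring

lemma resolvent_fz (hη : 0 < η) (r w : V → ℂ) (R : Finset V) (x y : V) : Gr G η w x y =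
    Gr G η (fz r R w) x y -
      ∑ v ∈ R, Gr G η w x v * (cl (w v) - cl (r v)) * Gr G η (fz r R w) v y := by
  rw [resolvent hη w (fz r R w) x y, ← sum_subset (subset_univ R) fun v _ hv => by
    rw [fz_notMem hv, sub_self, mul_zero, zero_mul]]
  congr 1
  exact sum_congr rfl fun v hv => by rw [fz_mem hv]

/-- flux through the boundary of a set without the source:
take `Im ∑_{x ∈ B} conj ψ_x (M ψ)_x = 0`; the edges inside `B` give a real number -/
lemma flux (hη : 0 < η) (w : V → ℂ) {B : Finset V} {b : V} (hb : b ∉ B) :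
    ∑ x ∈ B, dmp η (w x) * ‖Gr G η w x b‖ ^ 2 ≤
      ∑ x ∈ B, ∑ n ∈ nbr G x \ B, ‖Gr G η w x b‖ * ‖Gr G η w n b‖ := by
  have h := im_form (G := G) (η := η) w (fun x => Gr G η w x b) B
  rw [sum_eq_zero fun x hx => by
    rw [row hη, if_neg (ne_of_mem_of_not_mem hx hb), mul_zero, zero_im]] at h
  refine le_trans (le_of_eq (by linarith)) (sum_le_sum fun x _ => sum_le_sum fun n _ =>
    ((le_abs_self ((starRingEnd ℂ) (Gr G η w x b) * Gr G η w n b).im).trans
      (abs_im_le_norm _)).trans_eq (by rw [norm_mul, norm_conj]))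

/-- `1 = w_x G_xx + ∑_{n ~ x} G_nx` and Ward `∑_n dmp_n |G_nx|² ≤ |G_xx|` -/
lemma diag_ge (hd : Deg G) (hη : 0 < η) (hη1 : η ≤ 1) {L : ℝ} (hL : 100 ≤ L) {w : V → ℂ} {x : V}
    (hx : ‖w x‖ ≤ L) (hn : ∀ n ∈ nbr G x, L⁻¹ ≤ dmp η (w n)) : (L ^ 2)⁻¹ ≤ ‖Gr G η w x x‖ := by
  by_contra hh
  have hg := not_le.1 hh
  have hL0 : 0 < L := by linarith
  have h1 : ∀ n ∈ nbr G x, ‖Gr G η w n x‖ ≤ 1 / 10 := fun n hn' => by
    have a1 : L⁻¹ * ‖Gr G η w n x‖ ^ 2 ≤ (L ^ 2)⁻¹ :=
      (mul_le_mul_of_nonneg_right (hn n hn') (sq_nonneg _)).trans ((ward_le hη w n x).trans hg.le)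
    rw [inv_mul_le_iff₀ hL0, show L * (L ^ 2)⁻¹ = L⁻¹ by field_simp] at a1
    have a2 : L⁻¹ ≤ 100⁻¹ := inv_anti₀ (by norm_num) hL
    exact (sq_le_sq₀ (norm_nonneg _) (by norm_num)).1 (by linarith)
  have h2 : ‖∑ n ∈ nbr G x, Gr G η w n x‖ ≤ 4 * (1 / 10) := by
    refine (norm_sum_le _ _).trans ((sum_le_card_nsmul _ _ _ h1).trans ?_)
    rw [nsmul_eq_mul]
    have : ((nbr G x).card : ℝ) ≤ 4 := by exact_mod_cast hd x
    gcongr
  have h3 : ‖cl (w x) - η * I‖ ≤ L + 1 := by
    refine (norm_sub_le _ _).trans ?_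
    rw [norm_cl, norm_mul, norm_I, mul_one, norm_real, Real.norm_of_nonneg hη.le]
    linarith
  have h4 : ‖(cl (w x) - η * I) * Gr G η w x x‖ ≤ 1 / 2 := by
    rw [norm_mul]
    refine (mul_le_mul h3 hg.le (norm_nonneg _) (by linarith)).trans ?_
    rw [← div_eq_mul_inv, div_le_iff₀ (by positivity)]
    nlinarith
  have h5 := norm_add_le ((cl (w x) - η * I) * Gr G η w x x) (∑ n ∈ nbr G x, Gr G η w n x)
  rw [row hη, if_pos rfl, norm_one] at h5
  linarith

lemma continuous_Mx : Continuous (Mx G η) :=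
  continuous_const.add (Continuous.matrix_diagonal (continuous_pi fun x =>
    (continuous_cl.comp (continuous_apply x)).sub continuous_const))

@[fun_prop] lemma measurable_Gr (x y : V) : Measurable fun w : V → ℂ => Gr G η w x y := by
  simp only [Gr, Matrix.inv_def, Ring.inverse_eq_inv', Matrix.smul_apply, smul_eq_mul]
  exact continuous_Mx.matrix_det.measurable.inv.mul
    (continuous_Mx.matrix_adjugate.matrix_elem x y).measurable

@[fun_prop] lemma measurable_dt (S : Finset V) : Measurable fun w : V → ℂ => dt G η S w := by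
  exact continuous_Mx.matrix_det.measurable.comp (measurable_fz _ _)

@[fun_prop] lemma measurable_GrR (S : Finset V) (x y : V) :
    Measurable fun w : V → ℂ => GrR G η S w x y := (measurable_Gr x y).comp (measurable_fz _ _)

@[fun_prop] lemma measurable_phi (S : Finset V) : Measurable fun w : V → ℂ => phi G η S w :=
  (measurable_dt S).div (measurable_dt ∅)

end Crest.Agent.N334.T
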