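import Crest.Agent.N334.T.Good

/-!
# Row 334, engine T: estimates from the trapped mode (leaf T-Mode)
-/

set_option autoImplicit false
set_option linter.unusedSectionVars false

open MeasureTheory Complex Finset Function
open scoped ENNReal

namespace Crest.Agent.N334.T

variable {V : Type} [Fintype V] [DecidableEq V]

namespace Mde

lemma le_of_sq {a b : ℝ} (hb : 0 ≤ b) (h : a ^ 2 ≤ b ^ 2) : a ≤ b := (abs_le_of_sq_le_sq' h hb).2

lemma cl_sub_re (η : ℝ) (z : ℂ) : cl z - η * I - z.re = -(dmp η z : ℝ) * I := by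
  apply Complex.ext <;> simp [dmp]
  ring

lemma norm_sum_nbr {G : SimpleGraph V} (hd : Deg G) (x : V) {F : V → ℂ} {C : ℝ} (hC : 0 ≤ C)
    (h : ∀ n ∈ nbr G x, ‖F n‖ ≤ C) : ‖∑ n ∈ nbr G x, F n‖ ≤ 4 * C := by
  refine (norm_sum_le _ _).trans ((sum_le_card_nsmul _ _ _ h).trans ?_)
  rw [nsmul_eq_mul]
  exact mul_le_mul_of_nonneg_right (by exact_mod_cast hd x) hC

lemma resolvent_one {G : SimpleGraph V} {η : ℝ} (hη : 0 < η) {w w' : V → ℂ} {y : V}
    (h : ∀ v, v ≠ y → w v = w' v) (p q : V) : Gr G η w p q =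
      Gr G η w' p q - Gr G η w p y * (cl (w y) - cl (w' y)) * Gr G η w' y q := by
  rw [resolvent hη w w' p q, sum_eq_single y (fun v _ hv => by simp [h v hv]) (by simp)]

end Mde

open Mde

namespace Block

variable {E : Env V} {ν : Measure ℂ} {B Z : Finset V} {y : V} {u : V → ℂ} {win : V → ℝ}
  {h γ P s lam : ℝ} {l : ℕ}

section Aux

variable (hB : Block E ν B Z y u win h γ P s lam l) {x v : V}
include hB

lemma md_P : 0 < P := by linarith [hB.big]

lemma md_h : 0 < h := (inv_pos.2 hB.md_P).trans_le hB.h0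

lemma md_H : 0 < h + E.η := add_pos hB.md_h E.η0

lemma md_PH : 1 ≤ P * (h + E.η) := by
  have := mul_le_mul_of_nonneg_left hB.h0 hB.md_P.le
  rw [mul_inv_cancel₀ hB.md_P.ne'] at this
  nlinarith [mul_pos hB.md_P E.η0]

lemma md_t : P ^ 12 * s ^ 4 ≤ 1 := by
  have hP := hB.md_P
  have := mul_le_mul_of_nonneg_left hB.s1 (pow_pos hP 3).le
  rw [mul_inv_cancel₀ (by positivity)] at this
  calc _ = (P ^ 3 * s) ^ 4 := by ring
    _ ≤ 1 := pow_le_one₀ (mul_pos (pow_pos hP 3) hB.s0).le this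

/-- `P ^ k * s ^ 4 ≤ 1 / 1000` for `k ≤ 11` -/
lemma md_tk {k : ℕ} (hk : k ≤ 11) : 1000 * (P ^ k * s ^ 4) ≤ 1 := by
  have := hB.big
  calc _ ≤ P * (P ^ 11 * s ^ 4) := by gcongr; linarith
    _ = P ^ 12 * s ^ 4 := by ring
    _ ≤ 1 := hB.md_t

lemma md_cl : cl (E.yh y h) = (E.r y).re - h * I := by
  apply Complex.ext <;> simp [Env.yh, abs_of_pos hB.md_h]

lemma md_dmpy : dmp E.η (E.yh y h) = h + E.η := by
  simp [dmp, Env.yh, abs_of_pos hB.md_h, add_comm]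

lemma md_norm (c : ℂ) : ‖(h + E.η) * c‖ = (h + E.η) * ‖c‖ := by
  rw [norm_mul, ← ofReal_add, norm_real, Real.norm_of_nonneg hB.md_H.le]

lemma md_win (hx : x ∈ B.erase y) : 0 < win x := E.η0.trans_le (hB.win0 x hx).1

lemma md_sum {S : Finset V} (hS : S ⊆ B) {f : V → ℝ} {C : ℝ} (hC : 0 ≤ C)
    (hf : ∀ x ∈ S, f x ≤ C) : ∑ x ∈ S, f x ≤ P * C := by
  refine (sum_le_card_nsmul _ _ _ hf).trans ?_
  rw [nsmul_eq_mul]
  exact mul_le_mul_of_nonneg_right (le_trans (by exact_mod_cast card_le_card hS) hB.card) hC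

lemma md_val (hx : x ∈ B.erase y) (w : V → ℂ) (z : ℂ) : update (fz E.r B w) y z x = E.r x := by
  rw [update_of_ne (ne_of_mem_erase hx), fz_mem (mem_of_mem_erase hx)]

lemma md_dmp (hx : x ∈ B.erase y) :
    win x ≤ P * dmp E.η (E.r x) ∧ dmp E.η (E.r x) ≤ 2 * win x := by
  have h1 := (div_le_iff₀ hB.md_P).1 (hB.sig x hx).1
  have := mul_pos hB.md_P E.η0
  exact ⟨by rw [dmp]; linarith, by rw [dmp]; linarith [(hB.sig x hx).2, (hB.win0 x hx).1]⟩

lemma md_chi (hx : x ∈ B.erase y) {t : ℂ} (ht : ‖t‖ ≤ 2 * win x) :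
    ‖Lst E.G E.r u x + t * u x‖ ^ 2 ≤ s ^ 8 * win x := by
  refine le_trans ?_ (hB.chi x hx)
  gcongr
  exact (norm_add_le _ _).trans (by rw [norm_mul]; gcongr)

lemma md_chi' (hx : x ∈ B.erase y) (w : V → ℂ) :
    ‖Lst E.G E.r u x + (cl (fz E.r B w x) - E.η * I - (E.r x).re) * u x‖ ^ 2 ≤ s ^ 8 * win x := by
  refine hB.md_chi hx ?_
  rw [fz_mem (mem_of_mem_erase hx), cl_sub_re]
  simpa [abs_of_pos (dmp_pos E.η0 _)] using (hB.md_dmp hx).2

lemma md_off (hx : x ∈ B.erase y) (hv : v ∈ B.erase y) (w : V → ℂ) :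
    win x * win v * ‖E.GG y h (fz E.r B w) x v‖ ^ 2 ≤ P ^ 2 := by
  have h1 := off_le (G := E.G) E.η0 (update (fz E.r B w) y (E.yh y h)) x v
  rw [hB.md_val hx, hB.md_val hv] at h1
  have := hB.md_P
  have := hB.md_win hv
  have := dmp_pos E.η0 (E.r x)
  calc _ ≤ (P * dmp E.η (E.r x)) * (P * dmp E.η (E.r v)) * ‖E.GG y h (fz E.r B w) x v‖ ^ 2 := by
        gcongr
        exacts [(hB.md_dmp hx).1, (hB.md_dmp hv).1]
    _ = P ^ 2 * (dmp E.η (E.r x) * dmp E.η (E.r v) * ‖E.GG y h (fz E.r B w) x v‖ ^ 2) := by ring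
    _ ≤ _ := mul_le_of_le_one_right (by positivity) h1

end Aux

/-- `apply_vec` for `f = u` and the configuration `update w y yh`; off `B` both `u` and `Lst u`
vanish (`usupp`, `inner`), at `y` the defect is `-i (h + η)` -/
lemma mode_eq (hB : Block E ν B Z y u win h γ P s lam l) (w : V → ℂ) (p : V) :
    u p + I * (h + E.η) * E.GG y h w p y = ∑ x ∈ B.erase y,
      E.GG y h w p x * (Lst E.G E.r u x + (cl (w x) - E.η * I - (E.r x).re) * u x) := by
  have h1 := apply_vec (G := E.G) E.η0 (update w y (E.yh y h)) u p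
  have h2 := hB.chiy
  rw [← sum_subset (subset_univ B) fun v _ hv => ?_, ← add_sum_erase _ _ hB.yB, update_self,
    hB.md_cl, hB.uy] at h1
  · rw [Lst, hB.uy] at h2
    rw [sum_congr rfl (g := fun x => E.GG y h w p x *
      ((cl (update w y (E.yh y h) x) - E.η * I) * u x + ∑ n ∈ nbr E.G x, u n)) fun x hx => by
        rw [update_of_ne (ne_of_mem_erase hx), Lst]; ring]
    unfold Env.GG
    linear_combination h1 + Gr E.G E.η (update w y (E.yh y h)) p y * h2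
  · rw [hB.usupp v fun h => hv (mem_sdiff.1 h).1, sum_eq_zero fun n hn => hB.usupp n fun h =>
      hv (hB.inner n h (nbr_symm.1 hn))]
    simp

/-- `mode_eq` at `y`, Cauchy-Schwarz, `lm_site` and `site_GG` with `C = s⁸ win x` -/
lemma ee_sq (hB : Block E ν B Z y u win h γ P s lam l) (w : V → ℂ) :
    lmarginal E.μ (B.erase y) (fun w => ENNReal.ofReal (‖E.ee y h w‖ ^ 2)) w ≤
      ENNReal.ofReal (P ^ 5 * s ^ 8) := by
  have hP := hB.big
  have hs := hB.s0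
  let c : V → ℂ → ℝ := fun x z => P * ‖Lst E.G E.r u x + (cl z - E.η * I - (E.r x).re) * u x‖ ^ 2
  have hc : ∀ x, Measurable (c x) := fun x => by unfold c; fun_prop
  have hm : ∀ x, Measurable fun w : V → ℂ =>
      ENNReal.ofReal (‖E.GG y h w y x‖ ^ 2 * c x (w x)) := fun x => by fun_prop
  calc _ ≤ lmarginal E.μ (B.erase y) (fun w => ∑ x ∈ B.erase y,
        ENNReal.ofReal (‖E.GG y h w y x‖ ^ 2 * c x (w x))) w := by
        refine lm_mono _ _ (fun w => ?_) w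
        rw [← ENNReal.ofReal_sum_of_nonneg fun x _ => by positivity, Env.ee, ← hB.uy, hB.mode_eq]
        refine ENNReal.ofReal_le_ofReal ((pow_le_pow_left₀ (norm_nonneg _) (norm_sum_le _ _) 2).trans
          (sq_sum_le_card_mul_sum_sq.trans ?_))
        rw [mul_sum]
        refine sum_le_sum fun x _ => ?_
        have : ((B.erase y).card : ℝ) ≤ P := le_trans (by exact_mod_cast card_erase_le) hB.card
        rw [norm_mul, mul_pow, mul_left_comm]
        unfold c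
        gcongr
    _ ≤ ∑ x ∈ B.erase y, ENNReal.ofReal (4 * P ^ 3 * s ^ 8) := by
        rw [lm_sum _ _ _ fun x _ => hm x]
        refine sum_le_sum fun x hx => ?_
        have hw := hB.md_win hx
        rw [lm_site _ hx (hm x), ← lm_const E.μ (B.erase y) (ENNReal.ofReal _) w]
        refine lm_mono _ _ (fun w => ?_) w
        simp only [update_self]
        refine (hB.site_GG hx w (hc x) (C := P * (s ^ 8 * win x)) (by positivity)
          fun v hv => ?_).trans_eq (by congr 1; field_simp)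
        refine mul_le_mul_of_nonneg_left (hB.md_chi hx ?_) (by positivity)
        rw [cl_ofReal, sub_right_comm, ← ofReal_sub]
        refine (norm_sub_le _ _).trans ?_
        rw [norm_mul, norm_real, norm_real, norm_I, mul_one, Real.norm_of_nonneg E.η0.le]
        linarith [(hB.win0 x hx).1, Real.norm_eq_abs (v - (E.r x).re)]
    _ ≤ _ := by
        rw [← ENNReal.ofReal_sum_of_nonneg fun x _ => by positivity]
        refine ENNReal.ofReal_le_ofReal ((hB.md_sum (erase_subset _ _) (by positivity)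
          fun _ _ => le_rfl).trans ?_)
        calc _ = 4 * (P ^ 4 * s ^ 8) := by ring
          _ ≤ P * (P ^ 4 * s ^ 8) := by gcongr; linarith
          _ = _ := by ring

/-- at the reference the defect `χ_v` has `|χ_v|² ≤ s⁸ win v` and `|GG x v|² ≤ P² / (win x win v)`
(`off_le`), `|u x|² ≤ s⁸ / (4 win x)` -/
lemma amp (hB : Block E ν B Z y u win h γ P s lam l) (w : V → ℂ) {x : V} (hx : x ∈ B.erase y) :
    win x * ((h + E.η) * ‖E.GG y h (fz E.r B w) x y‖) ^ 2 ≤ 4 * P ^ 4 * s ^ 8 := by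
  have hP := hB.big
  have hs := hB.s0
  have hw := hB.md_win hx
  have hH := hB.md_H
  obtain ⟨q, hq, hq2⟩ : ∃ q : ℝ, 0 ≤ q ∧ q ^ 2 = win x := ⟨_, Real.sqrt_nonneg _, Real.sq_sqrt hw.le⟩
  have hu : q * ‖u x‖ ≤ s ^ 4 := le_of_sq (by positivity) (by
    have : (win x * ‖u x‖) ^ 2 ≤ s ^ 8 * win x := le_trans (by
      gcongr
      linarith [norm_nonneg (Lst E.G E.r u x), mul_nonneg hw.le (norm_nonneg (u x))]) (hB.chi x hx)
    rw [mul_pow, hq2]
    exact le_of_mul_le_mul_left (by linarith) hw)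
  have h1 := eq_sub_of_add_eq' (hB.mode_eq (fz E.r B w) x)
  have h2 : q * ((h + E.η) * ‖E.GG y h (fz E.r B w) x y‖) ≤ P * (P * s ^ 4) + s ^ 4 := by
    rw [← hB.md_norm, ← one_mul ‖_‖, ← norm_I, ← norm_mul, ← mul_assoc I, h1]
    refine (mul_le_mul_of_nonneg_left ((norm_sub_le _ _).trans
      (add_le_add (norm_sum_le _ _) le_rfl)) hq).trans ?_
    rw [mul_add, mul_sum]
    refine add_le_add (hB.md_sum (erase_subset _ _) (by positivity) fun v hv =>
      le_of_sq (by positivity) ?_) hu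
    have h3 := mul_le_mul_of_nonneg_left (hB.md_chi' hv w)
      (by positivity : 0 ≤ win x * ‖E.GG y h (fz E.r B w) x v‖ ^ 2)
    have h4 := mul_le_mul_of_nonneg_left (hB.md_off hx hv w) (by positivity : 0 ≤ s ^ 8)
    rw [norm_mul, mul_pow, mul_pow, hq2]
    linarith
  rw [← hq2, ← mul_pow]
  calc _ ≤ (P * (P * s ^ 4) + P * (P * s ^ 4)) ^ 2 := by
        gcongr
        refine h2.trans (add_le_add le_rfl ?_)
        rw [← mul_assoc]
        exact le_mul_of_one_le_left (by positivity) (by nlinarith)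
    _ = _ := by ring

/-- `e = ∑ GG y x χ_x` and `H |GG x y| |χ_x| ≤ 2 P² s⁸` by `amp` -/
lemma ee_ref (hB : Block E ν B Z y u win h γ P s lam l) (w : V → ℂ) :
    (h + E.η) * ‖E.ee y h (fz E.r B w)‖ ≤ 2 * P ^ 3 * s ^ 8 := by
  have hP := hB.md_P
  have hs := hB.s0
  have hH := hB.md_H
  rw [Env.ee, ← hB.uy, hB.mode_eq]
  refine (mul_le_mul_of_nonneg_left (norm_sum_le _ _) hH.le).trans ?_
  rw [mul_sum]
  refine (hB.md_sum (erase_subset _ _) (C := 2 * P ^ 2 * s ^ 8) (by positivity) fun x hx =>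
    le_of_sq (by positivity) ?_).trans_eq (by ring)
  have h3 := mul_le_mul_of_nonneg_left (hB.md_chi' hx w)
    (by positivity : 0 ≤ ((h + E.η) * ‖E.GG y h (fz E.r B w) x y‖) ^ 2)
  have h4 := mul_le_mul_of_nonneg_left (hB.amp w hx) (by positivity : 0 ≤ s ^ 8)
  rw [norm_mul, ← mul_assoc, mul_pow, Env.GG, Gr_symm, ← Env.GG]
  linarith

lemma md_small (hB : Block E ν B Z y u win h γ P s lam l) (w : V → ℂ) {x : V}
    (hx : x ∈ B.erase y) : win x * ‖(h + E.η) * E.GG y h (fz E.r B w) x y‖ ≤ P ^ 3 * s ^ 4 ∧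
      (P⁻¹ ≤ win x → ‖(h + E.η) * E.GG y h (fz E.r B w) x y‖ ≤ P ^ 3 * s ^ 4) := by
  have hP := hB.big
  have hs := hB.s0
  have h1 := hB.amp w hx
  have hw := hB.md_win hx
  rw [← hB.md_norm] at h1
  generalize ‖(h + E.η) * E.GG y h (fz E.r B w) x y‖ = a at h1 ⊢
  have h2 : P * (4 * P ^ 4 * s ^ 8) ≤ (P ^ 3 * s ^ 4) ^ 2 :=
    calc _ = 4 * (P ^ 5 * s ^ 8) := by ring
      _ ≤ P * (P ^ 5 * s ^ 8) := by gcongr; linarith
      _ = _ := by ring
  refine ⟨le_of_sq (by positivity) (le_trans ?_ h2), fun h3 => le_of_sq (by positivity) (le_trans ?_ h2)⟩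
  · rw [mul_pow, sq, mul_assoc]
    gcongr
    exact (hB.win0 x hx).2
  · refine le_trans ?_ (mul_le_mul_of_nonneg_left h1 hB.md_P.le)
    rw [← mul_assoc]
    exact le_mul_of_one_le_left (by positivity) ((inv_le_iff_one_le_mul₀' hB.md_P).1 h3)

lemma md_Z (hB : Block E ν B Z y u win h γ P s lam l) {z : V} (hz : z ∈ Z) : z ∈ B.erase y :=
  mem_erase.2 ⟨fun e => hB.yZ (e ▸ hz), hB.ZB hz⟩

lemma md_nZ (hB : Block E ν B Z y u win h γ P s lam l) {z x : V} (hz : z ∈ Z) (hx : x ∈ B)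
    (hn : x ∈ nbr E.G z) : x ∈ B.erase y :=
  mem_erase.2 ⟨fun e => hB.yfar z hz (nbr_symm.1 (e ▸ hn)), hx⟩

/-- the truncated column is an almost null vector -/
lemma md_null (hB : Block E ν B Z y u win h γ P s lam l) (w : V → ℂ) {x : V} (hx : x ∈ B) :
    ‖Lst E.G E.r (fun x => if x ∈ B \ Z then (h + E.η) * E.GG y h (fz E.r B w) x y else 0) x‖ ≤
      P ^ 4 * s ^ 4 := by
  have hP := hB.big
  have hs := hB.s0
  have h0 : 0 ≤ P ^ 3 * s ^ 4 := by positivity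
  refine le_trans (b := 6 * (P ^ 3 * s ^ 4)) ?_ (by nlinarith)
  have hr := row (G := E.G) E.η0 (update (fz E.r B w) y (E.yh y h)) x y
  rw [← Env.GG] at hr
  by_cases hZ : x ∈ Z
  · rw [Lst, if_neg (by simp [hZ]), mul_zero, zero_add]
    refine (norm_sum_nbr E.deg x h0 fun n hn => ?_).trans (by linarith)
    split_ifs with h1
    · have h2 := hB.md_nZ hZ (mem_sdiff.1 h1).1 hn
      exact (hB.md_small w h2).2 (hB.wide x hZ n h2 (.inr hn))
    · simpa using h0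
  have hx' := mem_sdiff.2 ⟨hx, hZ⟩
  rw [Lst, if_pos hx']
  rcases eq_or_ne x y with rfl | hy
  · rw [update_self, hB.md_cl, if_pos rfl] at hr
    rw [sum_congr rfl fun n hn => if_pos (mem_sdiff.2 ⟨hB.inner x hx' hn,
      fun h => hB.yfar n h hn⟩), ← mul_sum]
    have h1 := hB.ee_ref w
    rw [← hB.md_norm] at h1
    refine le_trans (le_of_eq (congrArg _ ?_)) (h1.trans ?_)
    · rw [Env.ee]; linear_combination (h + E.η) * hr
    · have := hB.md_tk (k := 0) (by norm_num)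
      nlinarith
  have hx2 := mem_erase.2 ⟨hy, hx⟩
  rw [hB.md_val hx2, if_neg hy] at hr
  have h1 := norm_sum_nbr E.deg x h0 (F := fun n => (if n ∈ B \ Z then
      (h + E.η) * E.GG y h (fz E.r B w) n y else 0) - (h + E.η) * E.GG y h (fz E.r B w) n y)
    fun n hn => by
      split_ifs with h1
      · simpa using h0
      · have h2 : n ∈ Z := by simpa [hB.inner x hx' hn] using h1
        rw [zero_sub, norm_neg]
        exact (hB.md_small w (hB.md_Z h2)).2 (hB.wide n h2 n (hB.md_Z h2) (.inl rfl))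
  rw [sum_sub_distrib, ← mul_sum] at h1
  have h2 : ‖(dmp E.η (E.r x) : ℂ) * I * ((h + E.η) * E.GG y h (fz E.r B w) x y)‖ ≤
      2 * (P ^ 3 * s ^ 4) := by
    rw [norm_mul, norm_mul, norm_I, mul_one, norm_real, Real.norm_of_nonneg (dmp_pos E.η0 _).le]
    linarith [(hB.md_small w hx2).1, mul_le_mul_of_nonneg_right (hB.md_dmp hx2).2
      (norm_nonneg ((h + E.η) * E.GG y h (fz E.r B w) x y))]
  refine le_trans (le_of_eq (congrArg _ ?_)) ((norm_add_le _ _).trans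
    ((add_le_add h2 h1).trans_eq (by ring)))
  linear_combination (h + E.η) * hr -
    (h + E.η) * E.GG y h (fz E.r B w) x y * cl_sub_re E.η (E.r x)

/-- `obs` for `f = 1_{B \ Z} H GG(·, y)` with `g = P⁴ s⁴` (`row`, `amp`, `wide`, `yfar`, `ee_ref`;
`(Lst f) y = H e`); `|f y| ≥ 1 - |e|`, so `|c| ≥ 3/4` and `|f x₀| ≥ |u x₀| / 2`.  Then the cavity at
`y`: the quotient of the two Green functions is `D / (a - σ - i (γ + τ + η))`, of modulus
`≥ H / (3 τ)`, `τ = P⁴ s⁸`. -/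
lemma obs_ge (hB : Block E ν B Z y u win h γ P s lam l) {x₀ : V} (hx : x₀ ∈ B \ Z)
    (hu : P ^ 6 * s ^ 4 ≤ ‖u x₀‖) (w : V → ℂ) :
    P / s ^ 4 ≤ ‖Gr E.G E.η (fz E.r B w) y x₀‖ := by
  have hP := hB.big
  have hs := hB.s0
  have hH := hB.md_H
  obtain ⟨c, hc⟩ := hB.obs _ _ (fun x hx => if_neg hx) fun x hx => hB.md_null w hx
  have h1 := hc y (mem_sdiff.2 ⟨hB.yB, hB.yZ⟩)
  have h2 := hc x₀ hx
  simp only [if_pos hx, if_pos (mem_sdiff.2 ⟨hB.yB, hB.yZ⟩), hB.uy, mul_one] at h1 h2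
  have h3 := resolvent_one (G := E.G) E.η0 (w := fz E.r B w) (y := y)
    (w' := update (fz E.r B w) y (E.yh y h)) (fun v hv => (update_of_ne hv _ _).symm) x₀ y
  have h4 := diag_le (G := E.G) E.η0 (update (fz E.r B w) y (E.yh y h)) y
  have h5 := hB.ee_ref w
  have h6 := cl_sub_re E.η (E.r y)
  rw [update_self, hB.md_dmpy, ← Env.GG, ← hB.md_norm] at h4
  rw [update_self, hB.md_cl, fz_mem hB.yB, ← Env.GG, Gr_symm] at h3
  have he : ‖E.ee y h (fz E.r B w)‖ ≤ 1 / 8 := by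
    have := hB.md_tk (k := 4) (by norm_num)
    have := hB.md_tk (k := 0) (by norm_num)
    have := mul_le_mul_of_nonneg_left h5 hB.md_P.le
    have := mul_le_mul_of_nonneg_right hB.md_PH (norm_nonneg (E.ee y h (fz E.r B w)))
    nlinarith [mul_pos (pow_pos hB.md_P 4) (pow_pos hs 4), pow_pos hs 4]
  have h7 : (h + E.η) * E.GG y h (fz E.r B w) x₀ y = Gr E.G E.η (fz E.r B w) y x₀ *
      ((h + E.η) * E.ee y h (fz E.r B w) -
        (dmp E.η (E.r y) : ℂ) * I * ((h + E.η) * E.GG y h (fz E.r B w) y y)) := by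
    rw [Env.ee]
    linear_combination -(h + E.η) * h3 +
      (h + E.η) * Gr E.G E.η (fz E.r B w) y x₀ * E.GG y h (fz E.r B w) y y * h6
  have h8 : 1 ≤ ‖E.ee y h (fz E.r B w)‖ + ‖(h + E.η) * E.GG y h (fz E.r B w) y y‖ := by
    have := norm_sub_le (E.ee y h (fz E.r B w)) (I * ((h + E.η) * E.GG y h (fz E.r B w) y y))
    rwa [norm_mul I, norm_I, one_mul, Env.ee, mul_assoc, add_sub_cancel_right, norm_one,
      ← mul_assoc, ← Env.ee] at this
  have h9 : ‖(h + E.η) * E.GG y h (fz E.r B w) x₀ y‖ ≤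
      ‖Gr E.G E.η (fz E.r B w) y x₀‖ * (2 * P ^ 4 * s ^ 8) := by
    rw [h7, norm_mul]
    gcongr
    refine (norm_sub_le _ _).trans ?_
    rw [hB.md_norm, norm_mul, norm_mul, norm_I, mul_one, norm_real,
      Real.norm_of_nonneg (dmp_pos E.η0 _).le]
    have h10 := mul_le_of_le_one_right (dmp_pos E.η0 (E.r y)).le h4
    have h11 : dmp E.η (E.r y) ≤ s ^ 8 + P ^ 4 * s ^ 8 := by rw [dmp, hB.ry]; linarith [hB.γ1]
    have h12 : 1 * s ^ 8 ≤ P ^ 3 * s ^ 8 := by gcongr; exact one_le_pow₀ (by linarith)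
    have h13 : 3 * (P ^ 3 * s ^ 8) ≤ P * (P ^ 3 * s ^ 8) := by gcongr; linarith
    linarith
  generalize (h + E.η) * E.GG y h (fz E.r B w) y y = a at h1 h8
  generalize (h + E.η) * E.GG y h (fz E.r B w) x₀ y = b at h2 h9
  have h14 : 3 / 4 ≤ ‖c‖ := by
    linarith [norm_sub_norm_le a c, hB.md_tk (k := 5) (by norm_num)]
  have h15 : 3 / 4 * (P ^ 6 * s ^ 4) ≤ ‖b‖ + P * (P ^ 4 * s ^ 4) := by
    have := norm_sub_norm_le (c * u x₀) b
    rw [norm_sub_rev, norm_mul] at this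
    linarith [mul_le_mul h14 hu (by positivity) (norm_nonneg _)]
  have h16 : 4 * (P ^ 5 * s ^ 4) ≤ P * (P ^ 5 * s ^ 4) := by gcongr; linarith
  rw [div_le_iff₀ (by positivity)]
  refine le_of_mul_le_mul_left (a := 2 * P ^ 4 * s ^ 4) ?_ (by positivity)
  linarith

/-- `flux` for `B \ Z` (absorb: `|ψ_x| |ψ_z| ≤ σ_x/8 |ψ_x|² + 2/σ_x |ψ_z|²`, `σ_x ≥ P⁻²` next to `Z`)
gives `∑_{B \ Z} dmp |ψ|² ≤ 16 P² ∑_Z |ψ|²` for `ψ = GG(·, b)`; then `resolvent`:
`ψ_z = ψ'_z - GG z y t ψ'_y`, `|t| ≤ H`, `|GG z y t| ≤ P³ s⁴` by `amp`. -/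
lemma flux_le (hB : Block E ν B Z y u win h γ P s lam l) {b : V} (hb : b ∉ B) (w : V → ℂ) :
    ‖E.GG y h (fz E.r B w) y b‖ ^ 2 + ∑ x ∈ B.erase y, win x * ‖E.GG y h (fz E.r B w) x b‖ ^ 2 ≤
      P ^ 12 * (∑ z ∈ Z, ‖Gr E.G E.η (fz E.r B w) z b‖ ^ 2 +
        s ^ 8 * ‖Gr E.G E.η (fz E.r B w) y b‖ ^ 2) := by
  have hP := hB.big
  have hs := hB.s0
  have hH := hB.md_H
  have h1 := flux (G := E.G) E.η0 (update (fz E.r B w) y (E.yh y h)) (B := B \ Z) (b := b)
    fun h => hb (mem_sdiff.1 h).1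
  have h2 := fun z => resolvent_one (G := E.G) E.η0 (w := update (fz E.r B w) y (E.yh y h))
    (y := y) (w' := fz E.r B w) (fun v hv => update_of_ne hv _ _) z b
  rw [← Env.GG] at h1 h2
  have hd := fun x => (dmp_pos E.η0 (update (fz E.r B w) y (E.yh y h) x)).le
  set ψ := fun x => ‖E.GG y h (fz E.r B w) x b‖ with hψ
  have hS : 0 ≤ ∑ z ∈ Z, ψ z ^ 2 := by positivity
  have h3 : ∑ x ∈ B \ Z, ∑ n ∈ nbr E.G x \ (B \ Z), ψ x * ψ n ≤ ∑ x ∈ B \ Z,
      (dmp E.η (update (fz E.r B w) y (E.yh y h) x) * ψ x ^ 2 / 2 + 2 * P ^ 2 * ∑ z ∈ Z, ψ z ^ 2) := by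
    refine sum_le_sum fun x hx => ?_
    have hZ : nbr E.G x \ (B \ Z) ⊆ Z := fun n hn => by
      have := mem_sdiff.1 hn
      simpa [hB.inner x hx this.1] using this.2
    calc _ ≤ ∑ n ∈ nbr E.G x \ (B \ Z),
          (dmp E.η (update (fz E.r B w) y (E.yh y h) x) * ψ x ^ 2 / 8 + 2 * P ^ 2 * ψ n ^ 2) := by
          refine sum_le_sum fun n hn => ?_
          have hn' := nbr_symm.1 (mem_sdiff.1 hn).1
          have h4 := hB.md_nZ (hZ hn) (mem_sdiff.1 hx).1 hn'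
          have h5 := (inv_le_iff_one_le_mul₀' hB.md_P).1 (hB.wide n (hZ hn) x h4 (.inr hn'))
          have h6 := mul_le_mul_of_nonneg_left (hB.md_dmp h4).1 hB.md_P.le
          have h7 := mul_le_mul_of_nonneg_right (h5.trans h6) (sq_nonneg (ψ x))
          rw [hB.md_val h4]
          refine le_of_mul_le_mul_left (a := 8 * P ^ 2) ?_ (by positivity)
          linarith [sq_nonneg (ψ x - 4 * P ^ 2 * ψ n)]
      _ ≤ _ := by
          rw [sum_add_distrib, sum_const, nsmul_eq_mul, ← mul_sum]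
          have h4 : ((nbr E.G x \ (B \ Z)).card : ℝ) ≤ 4 := by
            exact_mod_cast (card_le_card sdiff_subset).trans (E.deg x)
          have h5 := mul_le_mul_of_nonneg_right h4 (mul_nonneg (hd x) (sq_nonneg (ψ x)))
          have h6 := sum_le_sum_of_subset_of_nonneg hZ fun n _ _ => sq_nonneg (ψ n)
          have h7 := mul_le_mul_of_nonneg_left h6 (by positivity : 0 ≤ 2 * P ^ 2)
          linarith
  rw [sum_add_distrib, ← sum_div] at h3
  have h4 := hB.md_sum (sdiff_subset (t := Z)) (f := fun _ => 2 * P ^ 2 * ∑ z ∈ Z, ψ z ^ 2)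
    (by positivity) fun _ _ => le_rfl
  have h5 : ψ y ^ 2 + ∑ x ∈ B.erase y, win x * ψ x ^ 2 ≤ P * (∑ x ∈ B \ Z,
      dmp E.η (update (fz E.r B w) y (E.yh y h) x) * ψ x ^ 2 + ∑ z ∈ Z, ψ z ^ 2) := by
    rw [← sum_ite_mem_eq (B \ Z), ← sum_ite_mem_eq Z, ← sum_add_distrib,
      ← sum_subset (subset_univ B) fun x _ hx => by simp [hx, mt (@hB.ZB x) hx],
      ← add_sum_erase _ _ hB.yB, mul_add, mul_sum]
    refine add_le_add ?_ (sum_le_sum fun x hx => ?_)
    · rw [if_pos (mem_sdiff.2 ⟨hB.yB, hB.yZ⟩), if_neg hB.yZ, update_self, hB.md_dmpy]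
      linarith [mul_le_mul_of_nonneg_right hB.md_PH (sq_nonneg (ψ y))]
    · by_cases hZ : x ∈ Z
      · rw [if_neg (by simp [hZ]), if_pos hZ, zero_add]
        exact mul_le_mul_of_nonneg_right (hB.win0 x hx).2 (sq_nonneg _)
      · rw [if_pos (mem_sdiff.2 ⟨mem_of_mem_erase hx, hZ⟩), if_neg hZ, hB.md_val hx]
        linarith [mul_le_mul_of_nonneg_right (hB.md_dmp hx).1 (sq_nonneg (ψ x))]
  have ht : ‖cl (E.yh y h) - cl (E.r y)‖ ≤ h + E.η := by
    rw [hB.md_cl, show ((E.r y).re : ℂ) - h * I - cl (E.r y) = (|(E.r y).im| - h : ℝ) * I by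
      apply Complex.ext <;> simp; ring, norm_mul, norm_I, mul_one, norm_real, Real.norm_eq_abs,
      hB.ry, abs_le]
    have h6 := hB.md_tk (k := 0) (by norm_num)
    have h7 := hB.md_tk (k := 1) (by norm_num)
    have h8 := hB.md_tk (k := 4) (by norm_num)
    have h9 : s ^ 8 + P ^ 4 * s ^ 8 ≤ h + E.η := by
      refine le_of_mul_le_mul_left (le_trans ?_ hB.md_PH) hB.md_P
      nlinarith [mul_pos (pow_pos hB.md_P 4) (pow_pos hs 4), pow_pos hs 4,
        mul_pos (pow_pos hB.md_P 1) (pow_pos hs 4)]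
    constructor <;> linarith [hB.γ0, hB.γ1, E.η0, hB.md_h, mul_pos (pow_pos hB.md_P 4) (pow_pos hs 8)]
  have h6 : ∑ z ∈ Z, ψ z ^ 2 ≤ 2 * ∑ z ∈ Z, ‖Gr E.G E.η (fz E.r B w) z b‖ ^ 2 +
      P * (2 * (P ^ 3 * s ^ 4 * ‖Gr E.G E.η (fz E.r B w) y b‖) ^ 2) := by
    refine le_trans (sum_le_sum fun z hz => ?_) ((sum_add_distrib ..).trans_le (add_le_add
      (mul_sum ..).symm.le (hB.md_sum hB.ZB (by positivity) fun _ _ => le_rfl)))
    have h7 := (hB.md_small w (hB.md_Z hz)).2 (hB.wide z hz z (hB.md_Z hz) (.inl rfl))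
    have h8 : ψ z ≤ ‖Gr E.G E.η (fz E.r B w) z b‖ +
        P ^ 3 * s ^ 4 * ‖Gr E.G E.η (fz E.r B w) y b‖ := by
      rw [hψ]
      simp only
      rw [h2 z, update_self, fz_mem hB.yB]
      refine (norm_sub_le _ _).trans ?_
      rw [norm_mul, norm_mul]
      rw [hB.md_norm, mul_comm] at h7
      exact add_le_add le_rfl (mul_le_mul_of_nonneg_right
        ((mul_le_mul_of_nonneg_left ht (norm_nonneg _)).trans h7) (norm_nonneg _))
    exact (pow_le_pow_left₀ (norm_nonneg _) h8 2).trans (add_sq_le.trans_eq (by ring))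
  have hA : 0 ≤ ∑ z ∈ Z, ‖Gr E.G E.η (fz E.r B w) z b‖ ^ 2 := by positivity
  generalize ∑ z ∈ Z, ‖Gr E.G E.η (fz E.r B w) z b‖ ^ 2 = A at h6 hA ⊢
  generalize ‖Gr E.G E.η (fz E.r B w) y b‖ = a at h6 ⊢
  have p3 : 1 ≤ P ^ 3 := one_le_pow₀ (by linarith)
  have p7 : 1 ≤ P ^ 7 := one_le_pow₀ (by linarith)
  calc _ ≤ P * (4 * P ^ 3 * ∑ z ∈ Z, ψ z ^ 2 + P ^ 3 * ∑ z ∈ Z, ψ z ^ 2) := by
        refine h5.trans (mul_le_mul_of_nonneg_left (add_le_add ?_ (le_mul_of_one_le_left hS p3))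
          hB.md_P.le)
        linarith
    _ = 5 * P ^ 4 * ∑ z ∈ Z, ψ z ^ 2 := by ring
    _ ≤ 5 * P ^ 4 * (2 * (P ^ 7 * A) + P * (2 * (P ^ 3 * s ^ 4 * a) ^ 2)) := by
        gcongr
        linarith [le_mul_of_one_le_left hA p7]
    _ = 10 * (P ^ 11 * (A + s ^ 8 * a ^ 2)) := by ring
    _ ≤ P * (P ^ 11 * (A + s ^ 8 * a ^ 2)) := by gcongr; linarith
    _ = _ := by ring

end Block

end Crest.Agent.N334.T
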