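import Mathlib

/-!
# Row 334 (helper52): the scalar Möbius lemma of notes 273/291

`ν` is any measure on `ℂ` (in the application: the site law weighted by `1 + |w - ref|²`) with
`ν {|Re w - r| ≤ l} ≤ U l`.
-/

set_option autoImplicit false

open MeasureTheory Complex Set
open scoped ENNReal

namespace Crest.Agent.N334.T.Mb

/-- the event `|φ(w)| < ε |φ(ref)|` for `φ = (α + β t) / (1 + t g)`, `t = w - ref` -/
def Sm (ref α β g : ℂ) (ε : ℝ) : Set ℂ :=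
  {w | ‖α + β * (w - ref)‖ < ε * ‖α‖ * ‖1 + (w - ref) * g‖}

lemma measurableSet_Sm (ref α β g : ℂ) (ε : ℝ) : MeasurableSet (Sm ref α β g ε) :=
  measurableSet_lt (by fun_prop) (by fun_prop)

lemma abs_im_le {t g : ℂ} {σ Γ : ℝ} (hg : ‖g‖ ≤ σ⁻¹) (ht : |t.im| ≤ Γ) :
    |(g / (1 + t * g)).im| ≤ ‖g‖ * (1 + Γ / σ) / ‖1 + t * g‖ ^ 2 := by
  have h1 : (g / (1 + t * g)).im = (g.im - ‖g‖ ^ 2 * t.im) / ‖1 + t * g‖ ^ 2 := by
    rw [div_im, ← sub_div, ← normSq_eq_norm_sq, ← normSq_eq_norm_sq, normSq_apply g]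
    congr 1; simp; ring
  rw [h1, abs_div, abs_of_nonneg (sq_nonneg ‖_‖)]
  refine div_le_div_of_nonneg_right ((abs_sub _ _).trans ?_) (sq_nonneg _)
  rw [abs_mul, abs_of_nonneg (sq_nonneg ‖g‖), mul_add, mul_one, sq, mul_assoc, div_eq_inv_mul]
  exact add_le_add (abs_im_le_norm g) (mul_le_mul_of_nonneg_left (mul_le_mul hg ht (abs_nonneg _)
    ((norm_nonneg _).trans hg)) (norm_nonneg _))

/-- **Möbius lemma**: probability form and form weighted by `(1 + |t|²) |Im G_xx|` -/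
theorem moeb {μ : Measure ℂ} {ref g : ℂ} (α β : ℂ) {U σ Γ ε : ℝ} (hσ : 0 < σ) (hU : 0 ≤ U)
    (hΓ0 : 0 ≤ Γ) (hg : ‖g‖ ≤ σ⁻¹) (hΓ : ∀ᵐ w ∂μ, |(w - ref).im| ≤ Γ) (hε : 0 < ε) (hε1 : ε ≤ 1 / 12)
    (U2 : ∀ r l, 0 < l → ∫⁻ w in {w : ℂ | |w.re - r| ≤ l}, ENNReal.ofReal (1 + ‖w - ref‖ ^ 2) ∂μ ≤
      ENNReal.ofReal (U * l))
    (U3 : ∀ s, 0 < s → μ {w | s < ‖w - ref‖} ≤ ENNReal.ofReal (U / s)) :
    μ (Sm ref α β g ε) ≤ ENNReal.ofReal (8 * U * ε * (1 + σ⁻¹)) ∧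
    ∫⁻ w in Sm ref α β g ε, ENNReal.ofReal ((1 + ‖w - ref‖ ^ 2) * |(g / (1 + (w - ref) * g)).im|) ∂μ ≤
      ENNReal.ofReal (24 * U * ε * (1 + Γ / σ) * (1 + σ⁻¹ ^ 2)) := by
  have hm := measurableSet_Sm ref α β g ε
  rcases (Sm ref α β g ε).eq_empty_or_nonempty with hE | ⟨w₀, hw₀⟩
  · simp [hE]
  have hα : α ≠ 0 := fun h => by simp [Sm, h] at hw₀; exact hw₀.not_ge (by positivity)
  set a := β / α with ha
  have hS : ∀ w ∈ Sm ref α β g ε, ‖1 + (w - ref) * a‖ < ε * ‖1 + (w - ref) * g‖ := fun w hw => by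
    refine lt_of_mul_lt_mul_left ?_ (norm_nonneg α)
    rw [← norm_mul, show α * (1 + (w - ref) * a) = α + β * (w - ref) by rw [ha]; field_simp,
      mul_left_comm, ← mul_assoc]
    exact hw
  have h0 : ∀ w ∈ Sm ref α β g ε, 1 - ε < ‖w - ref‖ * ‖a‖ + ε * (‖w - ref‖ * ‖g‖) := fun w hw => by
    have h1 := norm_sub_le (1 + (w - ref) * a) ((w - ref) * a)
    have h2 := norm_add_le 1 ((w - ref) * g)
    rw [add_sub_cancel_right] at h1
    rw [norm_one, norm_mul] at h1 h2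
    nlinarith [hS w hw]
  have hq : 1 ≤ (1 + Γ / σ) := le_add_of_nonneg_right (by positivity)
  have hq' : 1 ≤ 1 + σ⁻¹ ^ 2 := le_add_of_nonneg_right (by positivity)
  have hUε := mul_nonneg hU hε.le
  rcases lt_or_ge ‖a‖ (2 * ε * ‖g‖) with hc | hc
  · have hg0 : 0 < ‖g‖ := pos_of_mul_pos_right ((norm_nonneg a).trans_lt hc) (by positivity)
    have h1 : ∀ w ∈ Sm ref α β g ε, 1 < 6 * ε * ‖g‖ * ‖w - ref‖ := fun w hw => by
      nlinarith [h0 w hw, mul_le_mul_of_nonneg_left hc.le (norm_nonneg (w - ref))]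
    have h2 : μ (Sm ref α β g ε) ≤ ENNReal.ofReal (6 * U * ε * ‖g‖) := (measure_mono fun w hw =>
      (inv_lt_iff_one_lt_mul₀' (by positivity)).2 (h1 w hw)).trans ((U3 (6 * ε * ‖g‖)⁻¹
        (by positivity)).trans_eq (by rw [div_inv_eq_mul]; congr 1; ring))
    refine ⟨h2.trans (ENNReal.ofReal_le_ofReal (by
      nlinarith [mul_le_mul_of_nonneg_left hg hUε, mul_nonneg hUε (inv_pos.2 hσ).le])), ?_⟩
    refine (setLIntegral_mono_ae' hm (g := fun _ => ENNReal.ofReal (4 * (1 + Γ / σ) *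
      (1 + σ⁻¹ ^ 2) / ‖g‖)) (hΓ.mono fun w hw hw' => ENNReal.ofReal_le_ofReal ?_)).trans ?_
    · have h3 := h1 w hw'
      have h4 : 2 ≤ ‖g‖ * ‖w - ref‖ := by nlinarith [mul_nonneg hg0.le (norm_nonneg (w - ref))]
      have h5 := norm_sub_le (1 + (w - ref) * g) 1
      rw [add_sub_cancel_left, norm_one, norm_mul] at h5
      have h6 : 1 ≤ σ⁻¹ * ‖w - ref‖ := by
        nlinarith [mul_le_mul_of_nonneg_right hg (norm_nonneg (w - ref))]
      have h7 : (‖g‖ * ‖w - ref‖) ^ 2 ≤ 4 * ‖1 + (w - ref) * g‖ ^ 2 := by nlinarith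
      refine (mul_le_mul_of_nonneg_left (abs_im_le hg hw) (by positivity)).trans ?_
      rw [← mul_div_assoc, div_le_div_iff₀ (pow_pos (by nlinarith) 2) hg0]
      calc _ = (1 + Γ / σ) * ((1 + ‖w - ref‖ ^ 2) * ‖g‖ ^ 2) := by ring
        _ ≤ (1 + Γ / σ) * ((1 + σ⁻¹ ^ 2) * (4 * ‖1 + (w - ref) * g‖ ^ 2)) := by
          refine mul_le_mul_of_nonneg_left (le_trans ?_ (mul_le_mul_of_nonneg_left h7
            (by positivity))) (by positivity)
          nlinarith [mul_le_mul_of_nonneg_right (one_le_pow₀ h6 (n := 2)) (sq_nonneg ‖g‖)]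
        _ = _ := by ring
    · rw [setLIntegral_const]
      refine (mul_le_mul_right h2 _).trans_eq ?_
      rw [← ENNReal.ofReal_mul (by positivity)]
      congr 1; field_simp; ring
  have h1 : ∀ w ∈ Sm ref α β g ε, 1 / 2 ≤ ‖w - ref‖ * ‖a‖ := fun w hw => by
    nlinarith [h0 w hw, mul_le_mul_of_nonneg_left hc (norm_nonneg (w - ref))]
  have ha0 : 0 < ‖a‖ := pos_of_mul_pos_right (one_half_pos.trans_le (h1 w₀ hw₀)) (norm_nonneg _)
  have h2 : ∀ w ∈ Sm ref α β g ε, ‖a‖ * ‖1 + (w - ref) * g‖ < 2 * ‖a - g‖ ∧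
      2 * ‖a - g‖ ≤ 3 * (‖a‖ * ‖1 + (w - ref) * g‖) := fun w hw => by
    have e : a * (1 + (w - ref) * g) = g * (1 + (w - ref) * a) + (a - g) := by ring
    have h3 := (congrArg norm e).trans_le (norm_add_le _ _)
    have h4 := (congrArg norm (sub_eq_of_eq_add' e)).symm.trans_le (norm_sub_le _ _)
    rw [norm_mul, norm_mul] at h3 h4
    have h5 := mul_le_mul_of_nonneg_left (hS w hw).le (norm_nonneg g)
    have h6 := mul_le_mul_of_nonneg_right hc (norm_nonneg (1 + (w - ref) * g))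
    have h7 := pos_of_mul_pos_right ((norm_nonneg _).trans_lt (hS w hw)) hε.le
    refine ⟨?_, by nlinarith⟩
    rcases (norm_nonneg g).eq_or_lt with h | h
    · rw [← h, zero_mul] at h3; nlinarith [mul_pos ha0 h7]
    · nlinarith [mul_lt_mul_of_pos_left (hS w hw) h]
  have hd : 0 < ‖a - g‖ := by linarith [(h2 w₀ hw₀).1, mul_nonneg ha0.le (norm_nonneg (1 + (w₀ - ref) * g))]
  have key : ∀ (F : ℂ → ℝ) (c : ℝ), 0 ≤ c → (∀ᵐ w ∂μ, w ∈ Sm ref α β g ε → F w ≤ c * (1 + ‖w - ref‖ ^ 2)) →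
      ∫⁻ w in Sm ref α β g ε, ENNReal.ofReal (F w) ∂μ ≤
        ENNReal.ofReal (c * (U * (2 * ε * ‖a - g‖ / ‖a‖ ^ 2))) := fun F c hc hF => by
    refine (setLIntegral_mono_ae' hm (hF.mono fun w hw hw' => (ENNReal.ofReal_le_ofReal
      (hw hw')).trans_eq (ENNReal.ofReal_mul hc))).trans ?_
    rw [lintegral_const_mul' _ _ ENNReal.ofReal_ne_top, ENNReal.ofReal_mul hc]
    refine mul_le_mul_right ((lintegral_mono_set fun w hw => ?_).trans
      (U2 (ref - a⁻¹).re _ (by positivity))) _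
    have e : (w - (ref - a⁻¹)) * a = 1 + (w - ref) * a := by
      have := norm_pos_iff.1 ha0; field_simp; ring
    rw [mem_ofPred_eq, ← sub_re]
    refine (abs_re_le_norm _).trans ((le_div_iff₀ (by positivity)).2 ?_)
    rw [sq, ← mul_assoc, ← norm_mul, e]
    nlinarith [mul_le_mul_of_nonneg_right (hS w hw).le ha0.le,
      mul_le_mul_of_nonneg_left (h2 w hw).1.le hε.le]
  have h3 := norm_sub_le a g
  refine ⟨?_, ?_⟩
  · refine le_trans (by simp) ((key (fun _ => 1) (‖a‖ ^ 2 / (‖a‖ ^ 2 + 1 / 4)) (by positivity)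
      (Filter.Eventually.of_forall fun w hw => ?_)).trans (ENNReal.ofReal_le_ofReal ?_))
    · rw [div_mul_eq_mul_div, one_le_div (by positivity)]
      nlinarith [pow_le_pow_left₀ (by norm_num) (h1 w hw) 2]
    · rw [show ‖a‖ ^ 2 / (‖a‖ ^ 2 + 1 / 4) * (U * (2 * ε * ‖a - g‖ / ‖a‖ ^ 2)) =
        U * ε * (2 * ‖a - g‖ / (‖a‖ ^ 2 + 1 / 4)) by field_simp, mul_assoc 8, mul_comm 8, mul_assoc _ 8]
      refine mul_le_mul_of_nonneg_left ((div_le_iff₀ (by positivity)).2 ?_) hUε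
      nlinarith [sq_nonneg (‖a‖ - 1 / 2), mul_nonneg (inv_pos.2 hσ).le (sq_nonneg ‖a‖)]
  have hN : ∀ w ∈ Sm ref α β g ε, 0 < ‖1 + (w - ref) * g‖ := fun w hw =>
    pos_of_mul_pos_right ((norm_nonneg _).trans_lt (hS w hw)) hε.le
  have hfin : 9 * (U * ε) * (1 + Γ / σ) ≤ 24 * U * ε * (1 + Γ / σ) * (1 + σ⁻¹ ^ 2) := by
    nlinarith [mul_le_mul_of_nonneg_left hq' (mul_nonneg hUε (zero_le_one.trans hq)),
      mul_nonneg hUε (zero_le_one.trans hq)]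
  rcases le_total ‖g‖ (2 * ‖a‖) with h | h
  · refine (key _ (3 / 2 * ‖g‖ * ‖a‖ / ‖a - g‖) (by positivity) (Filter.Eventually.of_forall
      fun w hw => ?_)).trans (ENNReal.ofReal_le_ofReal (le_trans ?_ hfin))
    · rw [mul_comm]
      refine mul_le_mul_of_nonneg_right ((abs_im_le_norm _).trans ?_) (by positivity)
      rw [norm_div, div_le_div_iff₀ (hN w hw) hd]
      nlinarith [mul_le_mul_of_nonneg_left (h2 w hw).2 (norm_nonneg g)]
    · rw [show 3 / 2 * ‖g‖ * ‖a‖ / ‖a - g‖ * (U * (2 * ε * ‖a - g‖ / ‖a‖ ^ 2)) =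
        3 * (U * ε) * (‖g‖ / ‖a‖) by field_simp]
      nlinarith [mul_le_mul_of_nonneg_left ((div_le_iff₀ ha0).2 h) hUε,
        mul_le_mul_of_nonneg_left hq hUε]
  · refine (key _ (9 / 4 * (‖g‖ * (1 + Γ / σ)) * ‖a‖ ^ 2 / ‖a - g‖ ^ 2) (by positivity)
      (hΓ.mono fun w hw' hw => ?_)).trans (ENNReal.ofReal_le_ofReal (le_trans ?_ hfin))
    · rw [mul_comm]
      refine mul_le_mul_of_nonneg_right ((abs_im_le hg hw').trans ?_) (by positivity)
      rw [div_le_div_iff₀ (pow_pos (hN w hw) 2) (by positivity)]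
      nlinarith [mul_le_mul_of_nonneg_left (pow_le_pow_left₀ (by positivity) (h2 w hw).2 2)
        (by positivity : 0 ≤ ‖g‖ * (1 + Γ / σ))]
    · rw [show 9 / 4 * (‖g‖ * (1 + Γ / σ)) * ‖a‖ ^ 2 / ‖a - g‖ ^ 2 * (U * (2 * ε * ‖a - g‖ / ‖a‖ ^ 2)) =
        9 / 2 * (U * ε * (1 + Γ / σ)) * (‖g‖ / ‖a - g‖) by field_simp; ring]
      have h4 : ‖g‖ / ‖a - g‖ ≤ 2 := by
        rw [div_le_iff₀ hd]; linarith [norm_sub_norm_le g a, norm_sub_rev a g]
      nlinarith [mul_le_mul_of_nonneg_left h4 (mul_nonneg hUε (zero_le_one.trans hq))]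

end Crest.Agent.N334.T.Mb
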